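import Vale.Agent.P042.H365.TBd
import Vale.Agent.P042.H232.BdLaw
import Vale.Agent.P042.H232.Op
import Vale.Agent.P042.H678.RowM

/-!
# P042, typed seam [B] → [C]: the distinct rows, rooted totals and operator norms of a law
-/

namespace Vale.Agent.P042.H365

open Finset Vale.Agent.P042.H232 Vale.Agent.P042.H461 Vale.Agent.P042.H416 Vale.Agent.P042.H742
  Vale.Agent.P042.H678
open Vale.Agent.P042.H779 (marg m1)

variable {ι : Type*} [Fintype ι] [DecidableEq ι] {V : ι → Type*} [∀ i, Fintype (V i)]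
  [∀ i, DecidableEq (V i)] {lam : ∀ i, V i → ℝ} {mu : (∀ i, V i) → ℝ} {r t M : ι → ℝ}

theorem QI_eq (e : ℕ) (i : ι) (a : V i) :
    QI lam mu r e i a = rowQ lam r i a (kI lam mu i) e := by
  unfold QI rowQ
  refine Finset.sum_congr ?_ fun B _ => rfl
  ext B
  rw [Finset.mem_powersetCard, Finset.mem_filter]
  constructor
  · rintro ⟨h1, h2⟩
    refine ⟨Finset.mem_univ _, h2, fun h => ?_⟩
    have := h1 h
    simp at this
  · rintro ⟨_, h2, h3⟩
    refine ⟨fun j hj => ?_, h2⟩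
    rw [Finset.mem_compl, Finset.mem_singleton]
    rintro rfl
    exact h3 hj

theorem kI_dep (i : ι) (C : Finset ι) :
    DependsOn (kI lam mu i C) ((insert i C : Finset ι) : Set ι) := by
  intro x y hxy
  unfold kI
  rw [hxy i (by simp), tup_congr (B := C) (x := x) (y := y) fun j hj => hxy j (by simp [hj])]

theorem QI_mono (h0 : ∀ i a, 0 ≤ lam i a) {r' : ι → ℝ} (hr0 : ∀ i, 0 ≤ r i)
    (hr : ∀ i, r i ≤ r' i) (e : ℕ) (i : ι) (a : V i) :
    QI lam mu r e i a ≤ QI lam mu r' e i a :=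
  Finset.sum_le_sum fun B _ => mul_le_mul_of_nonneg_right
    (Finset.prod_le_prod (fun j _ => hr0 j) fun j _ => hr j)
    (Finset.sum_nonneg fun _ _ => mul_nonneg (W_nonneg h0 _) (sq_nonneg _))

/-- The hypotheses of block [B] for one law and one system of rates. -/
structure BHyp (lam : ∀ i, V i → ℝ) (mu : (∀ i, V i) → ℝ) (t M : ι → ℝ) (L Λ ε κ δ : ℝ)
    (D0 : ℕ) : Prop where
  law : IsLaw mu
  ref : Ref lam L
  i1 : I1M lam M D0 mu
  M1 : ∀ i, 1 ≤ M i
  t0 : ∀ i, 0 < t i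
  t1 : ∀ i, t i ≤ 1
  eps : 0 ≤ ε
  kap : 0 ≤ κ
  L0 : 0 ≤ L
  lam' : D0 * (L + Real.log (Fintype.card ι * D0)) + 3 ≤ Λ
  rep' : ∀ N, N ≤ D0 → MEIr (ι := ι × Fin N) (V := fun p => V p.1) (rt t N) ε κ δ (rep mu N)
  mei : MEIr t ε κ δ mu
  del : δ ≤ Real.exp (-(3 * Λ))
  sm : 176 * ε * (κ + 3 * Λ) ≤ 1
  D1 : 1 ≤ D0

variable {L Λ ε κ δ : ℝ} {D0 : ℕ}

theorem BHyp.sum (h : BHyp lam mu t M L Λ ε κ δ D0) : ∑ x, mu x = 1 := h.law.2

/-- The constants of the rows are local. -/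
theorem BHyp.X_le (h : BHyp lam mu t M L Λ ε κ δ D0) [Nonempty ι] (i : ι) :
    ε * (M i * (κ + L) + 1) + 2 * Real.exp (L - Λ) ≤ M i / 4 := by
  have hD : (1 : ℝ) ≤ D0 := by exact_mod_cast h.D1
  have hc : (1 : ℝ) ≤ Fintype.card ι := by exact_mod_cast Fintype.card_pos
  have hlog : 0 ≤ Real.log (Fintype.card ι * D0) := Real.log_nonneg (by nlinarith)
  have h1 : L + 3 ≤ Λ := by
    have h2 : L + Real.log (Fintype.card ι * D0) ≤
        D0 * (L + Real.log (Fintype.card ι * D0)) := by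
      have := mul_le_mul_of_nonneg_right hD (add_nonneg h.L0 hlog)
      linarith
    have := h.lam'
    linarith
  have hM := h.M1 i
  have he := h.eps
  have hk := h.kap
  have hL := h.L0
  have h3 : ε * κ ≤ 1 / 176 - 3 * (ε * Λ) := by
    have := h.sm
    nlinarith
  have h4 : ε * L ≤ ε * Λ - 3 * ε := by nlinarith
  have h5 : Real.exp (L - Λ) ≤ 1 / 20 := by
    have h6 : Real.exp (L - Λ) ≤ Real.exp (-3) := Real.exp_le_exp.2 (by linarith)
    have h7 : Real.exp (-3) ≤ 1 / 20 := by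
      rw [Real.exp_neg]
      have h8 : (2.7182818283 : ℝ) < Real.exp 1 := Real.exp_one_gt_d9
      have h9 : Real.exp 3 = Real.exp 1 ^ 3 := by rw [← Real.exp_nat_mul]; norm_num
      have h10 : (20 : ℝ) ≤ Real.exp 3 := by
        rw [h9]
        calc (20 : ℝ) ≤ 2.7182818283 ^ 3 := by norm_num
          _ ≤ _ := pow_le_pow_left₀ (by norm_num) h8.le 3
      rw [inv_eq_one_div]
      exact one_div_le_one_div_of_le (by norm_num) h10
    exact h6.trans h7
  have h6 : ε * (M i * (κ + L) + 1) = M i * (ε * κ + ε * L) + ε := by ring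
  have hεΛ : 0 ≤ ε * Λ := mul_nonneg he (by linarith)
  have hε3 : ε ≤ 1 / 528 := by
    have : 3 * ε ≤ ε * Λ := by nlinarith
    have h7 : 0 ≤ ε * κ := mul_nonneg he hk
    linarith
  have h8 : ε * κ + ε * L ≤ 1 / 176 := by linarith
  rw [h6]
  have h9 : M i * (ε * κ + ε * L) ≤ M i * (1 / 176) :=
    mul_le_mul_of_nonneg_left h8 (by linarith)
  linarith

/-- The distinct rows of the cumulants. -/
theorem BHyp.QI_le (h : BHyp lam mu t M L Λ ε κ δ D0) (hr0 : ∀ i, 0 ≤ r i)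
    (hr : ∀ i, r i ≤ t i / M i) {e : ℕ} (he : 1 ≤ e) (heD : e + 1 ≤ D0) (i : ι) (a : V i)
    (hla : lam i a ≠ 0) :
    QI lam mu r e i a ≤ (2 * M i) ^ 2 * (e.factorial * (√D0) ^ (2 * e)) := by
  have : Nonempty ι := ⟨i⟩
  refine (QI_mono h.ref.nonneg hr0 hr e i a).trans ?_
  rw [QI_eq]
  have h1 := rows_supM h.law h.ref h.i1 h.M1 h.t0 h.t1 h.eps h.kap h.L0 h.lam' h.rep' h.mei
    h.del h.sm he heD i a hla (kI_dep i) (isCumI_kI h.sum i)
  refine h1.trans ?_
  have hM := h.M1 i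
  have hX := h.X_le i
  have hD0 : (0 : ℝ) ≤ D0 := Nat.cast_nonneg _
  have h2 : ((e : ℝ) + 1) ^ e ≤ (√(D0 : ℝ)) ^ (2 * e) := by
    rw [pow_mul, Real.sq_sqrt hD0]
    refine pow_le_pow_left₀ (by positivity) ?_ e
    exact_mod_cast heD
  have hfac : (0 : ℝ) ≤ e.factorial := Nat.cast_nonneg _
  calc 12 * M i * (e.factorial : ℝ) * ((e : ℝ) + 1) ^ e *
        (ε * (M i * (κ + L) + 1) + 2 * Real.exp (L - Λ))
      ≤ 12 * M i * (e.factorial : ℝ) * ((e : ℝ) + 1) ^ e * (M i / 4) :=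
        mul_le_mul_of_nonneg_left hX (by positivity)
    _ = (3 * M i ^ 2) * ((e.factorial : ℝ) * ((e : ℝ) + 1) ^ e) := by ring
    _ ≤ (2 * M i) ^ 2 * ((e.factorial : ℝ) * (√D0) ^ (2 * e)) := by
        refine mul_le_mul ?_ (mul_le_mul_of_nonneg_left h2 hfac) (by positivity) (by positivity)
        nlinarith

/-- The first cumulant. -/
theorem BHyp.g1_le (h : BHyp lam mu t M L Λ ε κ δ D0) (i : ι) (a : V i) (hla : lam i a ≠ 0) :
    |g1 lam mu i a| ≤ M i := by
  have hlp : 0 < lam i a := lt_of_le_of_ne (h.ref.nonneg i a) (Ne.symm hla)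
  have h1 : g1 lam mu i a = m1 mu i a / lam i a - 1 := by
    unfold g1 uh ug m1
    simp only [mul_sub, mul_one, Finset.sum_sub_distrib, h.sum]
    congr 1
    rw [Finset.sum_div]
    refine Finset.sum_congr rfl fun x _ => ?_
    by_cases hx : x i = a
    · rw [if_pos hx, if_pos hx]; ring
    · rw [if_neg hx, if_neg hx]; ring
  have h2 := m1_le_M h.law h.i1 h.D1 i a
  have h3 : m1 mu i a / lam i a ≤ M i := by rw [div_le_iff₀ hlp]; exact h2
  have h4 : 0 ≤ m1 mu i a / lam i a := div_nonneg (Finset.sum_nonneg fun x _ => by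
    split_ifs; exacts [h.law.1 x, le_rfl]) hlp.le
  have hM := h.M1 i
  rw [h1, abs_le]
  constructor <;> linarith

theorem row_zero (m : (Σ i, V i) → ℝ) (i : ι) (a : V i) :
    nrm m 0 (fun S => if Dst Sigma.fst ((⟨i, a⟩ : Σ i, V i) ::ₘ S) then
      cumT (Mh lam mu) (⟨i, a⟩ ::ₘ S) else 0) = |cumT (Mh lam mu) {(⟨i, a⟩ : Σ i, V i)}| := by
  rw [nrm_zero]
  have : Dst Sigma.fst ((⟨i, a⟩ : Σ i, V i) ::ₘ 0) := by simp [Dst]
  rw [if_pos this]
  rfl

theorem cum_one (hmu : ∑ x, mu x = 1) (i : ι) (a : V i) :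
    cumT (Mh lam mu) {(⟨i, a⟩ : Σ i, V i)} = g1 lam mu i a := by
  have := cum_first Sigma.fst univ mu (uh lam) hmu ⟨i, a⟩
  exact this

/-- All the distinct rows. -/
theorem BHyp.row_le (h : BHyp lam mu t M L Λ ε κ δ D0) (hr0 : ∀ i, 0 ≤ r i)
    (hr : ∀ i, r i ≤ t i / M i) {e : ℕ} (heD : e + 1 ≤ D0) (ω : Σ i, V i) :
    nrm (wm lam r) e (fun S => if Dst Sigma.fst (ω ::ₘ S) then cumT (Mh lam mu) (ω ::ₘ S) else 0)
      ≤ 2 * M ω.1 * (e.factorial * (√D0) ^ e) := by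
  obtain ⟨i, a⟩ := ω
  have hM := h.M1 i
  rcases Nat.eq_zero_or_pos e with rfl | he
  · rw [row_zero, cum_one h.sum]
    simp only [Nat.factorial_zero, Nat.cast_one, pow_zero, mul_one]
    by_cases hla : lam i a = 0
    · have h1 : g1 lam mu i a = -1 := by
        unfold g1 uh ug
        simp [hla, h.sum]
      rw [h1]
      norm_num
      linarith
    · have := h.g1_le i a hla
      linarith
  · by_cases hla : lam i a = 0
    · rw [row_null h.sum he hla]
      positivity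
    · have h1 := row_law (lam := lam) (mu := mu) h.sum h.ref.nonneg h.ref.sum_one hr0 he i a
      have h2 := h.QI_le hr0 hr he heD i a hla
      have h3 : nrm (wm lam r) e (fun S => if Dst Sigma.fst ((⟨i, a⟩ : Σ i, V i) ::ₘ S) then
          cumT (Mh lam mu) (⟨i, a⟩ ::ₘ S) else 0) ^ 2 ≤
          (2 * M i * (e.factorial * (√D0) ^ e)) ^ 2 := by
        rw [h1]
        calc (e.factorial : ℝ) * QI lam mu r e i a
            ≤ (e.factorial : ℝ) * ((2 * M i) ^ 2 * (e.factorial * (√D0) ^ (2 * e))) :=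
              mul_le_mul_of_nonneg_left h2 (Nat.cast_nonneg _)
          _ = _ := by rw [pow_mul]; ring
      exact le_of_sq_le_sq' h3 (by positivity)

/-- The rooted totals of the distinct rows. -/
theorem BHyp.total_le (h : BHyp lam mu t M L Λ ε κ δ D0) (hr0 : ∀ i, 0 ≤ r i)
    (hr : ∀ i, r i ≤ t i / M i) {e : ℕ} (he : 1 ≤ e) (heD : e + 1 ≤ D0) {s : ι → ℝ}
    (hs0 : ∀ i, 0 ≤ s i) {S : Finset ι} {PP : ℝ}
    (hPP : ∑ i ∈ S, s i * M i * ∑ a, m1 mu i a * Iia t mu i a ≤ PP) :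
    ∑ i ∈ S, s i * ∑ a, lam i a * nrm (wm lam r) e (fun T =>
      if Dst Sigma.fst ((⟨i, a⟩ : Σ i, V i) ::ₘ T) then cumT (Mh lam mu) (⟨i, a⟩ ::ₘ T) else 0) ^ 2
      ≤ 12 * PP * (e.factorial * (√D0) ^ e) ^ 2 := by
  have h1 := rows_totalM h.law h.ref h.i1 h.M1 h.t0 h.t1 h.eps h.kap h.L0 h.lam' h.rep'
    h.del h.sm he heD (k := fun i => kI lam mu i) (fun i => kI_dep i)
    (fun i => isCumI_kI h.sum i) hs0 hPP
  have hD0 : (0 : ℝ) ≤ D0 := Nat.cast_nonneg _
  have h2 : ((e : ℝ) + 1) ^ e ≤ (√(D0 : ℝ)) ^ (2 * e) := by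
    rw [pow_mul, Real.sq_sqrt hD0]
    refine pow_le_pow_left₀ (by positivity) ?_ e
    exact_mod_cast heD
  have hfac : (0 : ℝ) ≤ e.factorial := Nat.cast_nonneg _
  have hL0 : 0 ≤ ∑ i ∈ S, s i * ∑ a, lam i a * rowQ lam (fun j => t j / M j) i a (kI lam mu i) e := by
    refine Finset.sum_nonneg fun i _ => mul_nonneg (hs0 i) (Finset.sum_nonneg fun a _ =>
      mul_nonneg (h.ref.nonneg i a) ?_)
    rw [← QI_eq]
    exact QI_nonneg h.ref.nonneg (fun j => div_nonneg (h.t0 j).le (by linarith [h.M1 j])) _ _ _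
  calc _ ≤ ∑ i ∈ S, s i * ∑ a, lam i a * ((e.factorial : ℝ) *
        rowQ lam (fun j => t j / M j) i a (kI lam mu i) e) := by
        refine Finset.sum_le_sum fun i _ => mul_le_mul_of_nonneg_left
          (Finset.sum_le_sum fun a _ => mul_le_mul_of_nonneg_left ?_ (h.ref.nonneg i a)) (hs0 i)
        rw [row_law (lam := lam) (mu := mu) h.sum h.ref.nonneg h.ref.sum_one hr0 he i a, ← QI_eq]
        exact mul_le_mul_of_nonneg_left (QI_mono h.ref.nonneg hr0 hr e i a) (Nat.cast_nonneg _)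
    _ = (e.factorial : ℝ) * ∑ i ∈ S, s i * ∑ a, lam i a *
        rowQ lam (fun j => t j / M j) i a (kI lam mu i) e := by
        rw [Finset.mul_sum]
        refine Finset.sum_congr rfl fun i _ => ?_
        have h5 : ∑ a, lam i a * ((e.factorial : ℝ) *
            rowQ lam (fun j => t j / M j) i a (kI lam mu i) e) = (e.factorial : ℝ) *
            ∑ a, lam i a * rowQ lam (fun j => t j / M j) i a (kI lam mu i) e := by
          rw [Finset.mul_sum]
          exact Finset.sum_congr rfl fun a _ => by ring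
        rw [h5]
        ring
    _ ≤ (e.factorial : ℝ) * (12 * (e.factorial : ℝ) * ((e : ℝ) + 1) ^ e * PP) :=
        mul_le_mul_of_nonneg_left h1 hfac
    _ = 12 * PP * (e.factorial : ℝ) ^ 2 * ((e : ℝ) + 1) ^ e := by ring
    _ ≤ 12 * PP * (e.factorial : ℝ) ^ 2 * (√(D0 : ℝ)) ^ (2 * e) := by
        refine mul_le_mul_of_nonneg_left h2 ?_
        have hPP0 : 0 ≤ 12 * (e.factorial : ℝ) * ((e : ℝ) + 1) ^ e * PP := hL0.trans h1
        have h3 : (0 : ℝ) < 12 * (e.factorial : ℝ) * ((e : ℝ) + 1) ^ e := by positivity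
        have h4 : 0 ≤ PP := by
          by_contra hneg
          push Not at hneg
          have := mul_neg_of_pos_of_neg h3 hneg
          linarith
        positivity
    _ = _ := by rw [pow_mul]; ring

end Vale.Agent.P042.H365
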