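import Vale.Agent.P042.H365.ExtSys
import Vale.Agent.P042.H232.SysE

/-!
# P042, row C.4: the hypotheses at one law and one top scale, with numbers
-/

set_option linter.unusedSectionVars false

namespace Vale.Agent.P042.H365

open Finset Vale.Agent.P042.H232 Vale.Agent.P042.H461 Vale.Agent.P042.H416 Vale.Agent.P042.H742
open Vale.Agent.P042.H779 (marg m1)

/-- the rate `min (1, e^F / e^x)` -/
noncomputable def rate (F x : ℝ) : ℝ := min 1 (Real.exp (F - x))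

theorem rate_pos (F x : ℝ) : 0 < rate F x := lt_min one_pos (Real.exp_pos _)

theorem rate_le_one (F x : ℝ) : rate F x ≤ 1 := min_le_left _ _

theorem rate_le (F x : ℝ) : rate F x ≤ Real.exp (F - x) := min_le_right _ _

theorem rate_mono {F F' : ℝ} (h : F ≤ F') (x : ℝ) : rate F x ≤ rate F' x :=
  min_le_min le_rfl (Real.exp_le_exp.2 (by linarith))

variable {ι : Type*} [Fintype ι] [DecidableEq ι] {V : ι → Type*} [∀ i, Fintype (V i)]
  [∀ i, DecidableEq (V i)] {J : Type*} [DecidableEq J]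

/-- The hypotheses at one law all of whose sites have scales at most `ell s`. -/
structure TopH (lam : ∀ i, V i → ℝ) (mu : (∀ i, V i) → ℝ) (sc : ι → J) (ell : J → ℝ) (s : J)
    (b : ℕ) (p G h Kf σ L Λ ε κ δ : ℝ) (R E : ι → ℝ) : Prop where
  top : ∀ i, ell (sc i) ≤ ell s
  ell1 : ∀ l, 1 ≤ ell l
  b1 : 1 ≤ b
  h0 : 0 < h
  G0 : 0 < G
  G1 : G ≤ 1 / 4
  p0 : 0 ≤ p
  Kf1 : 128 * b ≤ Kf
  s0 : 0 < σ
  s1 : 1000 * Kf * σ * b ^ 4 ≤ 1
  R0 : ∀ i, 0 < R i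
  R1 : ∀ i, R i ≤ σ * Real.exp (-(1 / 2) * ell (sc i) + h * ell (sc i))
  E0 : ∀ i, 0 < E i
  E1 : ∀ i, E i ≤ σ * Real.exp (-ell (sc i) + h * ell (sc i))
  B : ∀ F, 0 ≤ F → F ≤ (1 - G) * p → BHyp lam mu (fun i => rate F (ell (sc i)) / Kf)
    (fun i => Real.exp (h * ell (sc i))) L Λ ε κ δ (b + 1)
  T : ∀ F, 0 ≤ F → F ≤ (1 - G) * p → ∑ i with sc i = s, ∑ a, m1 mu i a *
    Iia (fun i => rate F (ell (sc i)) / Kf) mu i a ≤ Real.exp (F + h * ell s)
  card : ∀ l, ((univ.filter fun i => sc i = l).card : ℝ) ≤ Real.exp (ell l)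
  lev : ∀ l, ∑ i with sc i = l, (R i * ∑ a, lam i a * g1 lam mu i a ^ 2 + E i) ≤
    Real.exp (2 * h * ell l)

end Vale.Agent.P042.H365
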