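import Vale.Agent.P042.H461.Hoef

/-!
helper365 (P042).  Kernels on a finite product space.

`Tm lam K A v x = ∑ y, W y * ((∏ i ∈ A, K i (x i) (y i)) * v (y on A, x off A))`.
* `Tm_norm`: `‖Tm A v‖² ≤ (∏ i ∈ A, rho i)² ‖v‖²` if every `K i` has norm at most `rho i`.
* `ip_Tm_sum`: only the top Hoeffding components are seen by centred kernels.
* `KB_eq`: `∑ x y, W x W y F x F' y ∏_{i ∈ B} K i (x i) (y i) = ip (Hc F B) (Tm B (Hc F' B))`.
* `Z_eq`, `norm_sum_le'`, `norm_Z_le`: the generating polynomial of the two replicas and its bound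
  on a disk by the energies of the components.
-/

set_option autoImplicit false
set_option linter.unusedSectionVars false

namespace Vale.Agent.P042.H365

open Finset Function Vale.Agent.P042.H461

variable {ι : Type*} [Fintype ι] [DecidableEq ι] {V : ι → Type*} [∀ i, Fintype (V i)]
  [∀ i, DecidableEq (V i)] {lam : ∀ i, V i → ℝ} {K : ∀ i, V i → V i → ℝ}

/-- one-coordinate kernel -/
noncomputable def Tk (lam : ∀ i, V i → ℝ) (K : ∀ i, V i → V i → ℝ) (i : ι)
    (v : (∀ i, V i) → ℝ) (x : ∀ i, V i) : ℝ :=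
  ∑ b, lam i b * (K i (x i) b * v (update x i b))

/-- product kernel on the coordinates of `A` -/
noncomputable def Tm (lam : ∀ i, V i → ℝ) (K : ∀ i, V i → V i → ℝ) (A : Finset ι)
    (v : (∀ i, V i) → ℝ) (x : ∀ i, V i) : ℝ :=
  ∑ y, W lam y * ((∏ i ∈ A, K i (x i) (y i)) * v (A.piecewise y x))

theorem Tm_empty (h1 : ∀ i, ∑ a, lam i a = 1) (v : (∀ i, V i) → ℝ) : Tm lam K ∅ v = v := by
  funext x
  unfold Tm
  simp only [Finset.piecewise_empty, Finset.prod_empty, one_mul]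
  rw [← Finset.sum_mul, sum_W h1, one_mul]

theorem Tm_insert (h1 : ∀ i, ∑ a, lam i a = 1) {A : Finset ι} {i : ι} (hi : i ∉ A)
    (v : (∀ i, V i) → ℝ) : Tm lam K (insert i A) v = Tk lam K i (Tm lam K A v) := by
  funext x
  unfold Tm
  have e1 := sum_av' (lam := lam) h1 i fun y =>
    (∏ j ∈ insert i A, K j (x j) (y j)) * v ((insert i A).piecewise y x)
  rw [← e1]
  unfold av Tk
  simp only [Finset.mul_sum]
  rw [Finset.sum_comm]
  refine Finset.sum_congr rfl fun a _ => Finset.sum_congr rfl fun y _ => ?_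
  have e2 : (insert i A).piecewise (update y i a) x = A.piecewise y (update x i a) := by
    funext j
    by_cases hj : j = i
    · subst hj
      rw [Finset.piecewise_eq_of_mem _ _ _ (Finset.mem_insert_self _ _),
        Finset.piecewise_eq_of_notMem _ _ _ hi, update_self, update_self]
    · by_cases hA : j ∈ A
      · rw [Finset.piecewise_eq_of_mem _ _ _ (Finset.mem_insert_of_mem hA),
          Finset.piecewise_eq_of_mem _ _ _ hA, update_of_ne hj]
      · rw [Finset.piecewise_eq_of_notMem _ _ _ (by simp [hj, hA]),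
          Finset.piecewise_eq_of_notMem _ _ _ hA, update_of_ne hj]
  have e3 : ∏ j ∈ insert i A, K j (x j) (update y i a j)
      = K i (x i) a * ∏ j ∈ A, K j (update x i a j) (y j) := by
    rw [Finset.prod_insert hi, update_self]
    congr 1
    refine Finset.prod_congr rfl fun j hj => ?_
    have hj' : j ≠ i := fun h => hi (h ▸ hj)
    rw [update_of_ne hj', update_of_ne hj']
  rw [e2, e3]
  ring

theorem Tk_norm (h0 : ∀ i a, 0 ≤ lam i a) (h1 : ∀ i, ∑ a, lam i a = 1) (i : ι) {r : ℝ}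
    (hK : ∀ u : V i → ℝ, ∑ a, lam i a * (∑ b, lam i b * (K i a b * u b)) ^ 2
      ≤ r ^ 2 * ∑ b, lam i b * u b ^ 2) (v : (∀ i, V i) → ℝ) :
    ip lam (Tk lam K i v) (Tk lam K i v) ≤ r ^ 2 * ip lam v v := by
  unfold ip
  rw [← sum_av' (lam := lam) h1 i fun x => Tk lam K i v x * Tk lam K i v x,
    ← sum_av' (lam := lam) h1 i fun x => v x * v x, Finset.mul_sum]
  refine Finset.sum_le_sum fun x _ => ?_
  rw [mul_left_comm]
  refine mul_le_mul_of_nonneg_left ?_ (W_nonneg h0 x)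
  unfold av Tk
  have := hK fun b => v (update x i b)
  calc ∑ a, lam i a * ((∑ b, lam i b * (K i (update x i a i) b * v (update (update x i a) i b)))
        * ∑ b, lam i b * (K i (update x i a i) b * v (update (update x i a) i b)))
      = ∑ a, lam i a * (∑ b, lam i b * (K i a b * v (update x i b))) ^ 2 := by
        refine Finset.sum_congr rfl fun a _ => ?_
        simp only [update_self, update_idem]
        ring
    _ ≤ _ := this
    _ = _ := by
        congr 1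
        exact Finset.sum_congr rfl fun b _ => by ring

theorem Tm_norm (h0 : ∀ i a, 0 ≤ lam i a) (h1 : ∀ i, ∑ a, lam i a = 1) {rho : ι → ℝ}
    (hK : ∀ i, ∀ u : V i → ℝ, ∑ a, lam i a * (∑ b, lam i b * (K i a b * u b)) ^ 2
      ≤ rho i ^ 2 * ∑ b, lam i b * u b ^ 2) (A : Finset ι) (v : (∀ i, V i) → ℝ) :
    ip lam (Tm lam K A v) (Tm lam K A v) ≤ (∏ i ∈ A, rho i) ^ 2 * ip lam v v := by
  induction A using Finset.induction_on with
  | empty => rw [Tm_empty h1]; simp
  | insert i A hi ih =>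
    rw [Tm_insert h1 hi, Finset.prod_insert hi]
    refine (Tk_norm h0 h1 i (hK i) _).trans ?_
    calc rho i ^ 2 * ip lam (Tm lam K A v) (Tm lam K A v)
        ≤ rho i ^ 2 * ((∏ i ∈ A, rho i) ^ 2 * ip lam v v) :=
          mul_le_mul_of_nonneg_left ih (sq_nonneg _)
      _ = _ := by ring

theorem ip_cs (h0 : ∀ i a, 0 ≤ lam i a) (u v : (∀ i, V i) → ℝ) :
    |ip lam u v| ≤ √(ip lam u u) * √(ip lam v v) := by
  unfold ip
  have h := Finset.sum_mul_sq_le_sq_mul_sq univ (fun x => √(W lam x) * u x)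
    (fun x => √(W lam x) * v x)
  have e1 : ∑ x, √(W lam x) * u x * (√(W lam x) * v x) = ∑ x, W lam x * (u x * v x) := by
    refine Finset.sum_congr rfl fun x _ => ?_
    rw [show √(W lam x) * u x * (√(W lam x) * v x) = (√(W lam x) * √(W lam x)) * (u x * v x) by
      ring, Real.mul_self_sqrt (W_nonneg h0 x)]
  have e2 : ∀ u : (∀ i, V i) → ℝ, ∑ x, (√(W lam x) * u x) ^ 2 = ∑ x, W lam x * (u x * u x) := by
    intro u
    refine Finset.sum_congr rfl fun x _ => ?_
    rw [mul_pow, Real.sq_sqrt (W_nonneg h0 x), sq]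
  rw [e1, e2, e2] at h
  rw [← Real.sqrt_mul (Finset.sum_nonneg fun x _ => mul_nonneg (W_nonneg h0 x)
    (mul_self_nonneg _))]
  exact Real.abs_le_sqrt h

/-- **the tensor bound** -/
theorem tens_op (h0 : ∀ i a, 0 ≤ lam i a) (h1 : ∀ i, ∑ a, lam i a = 1) {rho : ι → ℝ}
    (hr : ∀ i, 0 ≤ rho i)
    (hK : ∀ i, ∀ u : V i → ℝ, ∑ a, lam i a * (∑ b, lam i b * (K i a b * u b)) ^ 2
      ≤ rho i ^ 2 * ∑ b, lam i b * u b ^ 2) (A : Finset ι) (u v : (∀ i, V i) → ℝ) :
    |ip lam u (Tm lam K A v)| ≤ (∏ i ∈ A, rho i) * (√(ip lam u u) * √(ip lam v v)) := by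
  have hp : 0 ≤ ∏ i ∈ A, rho i := Finset.prod_nonneg fun i _ => hr i
  have h2 : √(ip lam (Tm lam K A v) (Tm lam K A v)) ≤ (∏ i ∈ A, rho i) * √(ip lam v v) := by
    rw [Real.sqrt_le_left (mul_nonneg hp (Real.sqrt_nonneg _)), mul_pow,
      Real.sq_sqrt (ip_self_nonneg h0 v)]
    exact Tm_norm h0 h1 hK A v
  calc |ip lam u (Tm lam K A v)| ≤ √(ip lam u u) * √(ip lam (Tm lam K A v) (Tm lam K A v)) :=
        ip_cs h0 _ _
    _ ≤ √(ip lam u u) * ((∏ i ∈ A, rho i) * √(ip lam v v)) :=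
        mul_le_mul_of_nonneg_left h2 (Real.sqrt_nonneg _)
    _ = _ := by ring

/-! ### local functions -/

theorem piecewise_of_inv {A : Finset ι} {v : (∀ i, V i) → ℝ} (h : ∀ i ∈ A, Inv i v)
    (x y : ∀ i, V i) : v (A.piecewise y x) = v x := by
  induction A using Finset.induction_on with
  | empty => simp
  | insert i A hi ih =>
    rw [Finset.piecewise_insert, h i (Finset.mem_insert_self _ _)]
    exact ih fun j hj => h j (Finset.mem_insert_of_mem hj)

theorem eq_of_inv {B : Finset ι} {v : (∀ i, V i) → ℝ} (h : ∀ i, i ∉ B → Inv i v)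
    {x y : ∀ i, V i} (hxy : ∀ i ∈ B, x i = y i) : v x = v y := by
  rw [← piecewise_of_inv (A := Bᶜ) (fun i hi => h i (Finset.mem_compl.1 hi)) x y]
  congr 1
  funext i
  by_cases hi : i ∈ B
  · rw [Finset.piecewise_eq_of_notMem _ _ _ (by simpa using hi), hxy i hi]
  · rw [Finset.piecewise_eq_of_mem _ _ _ (by simpa using hi)]

theorem Em_of_inv (h1 : ∀ i, ∑ a, lam i a = 1) {A : Finset ι} {v : (∀ i, V i) → ℝ}
    (h : ∀ i ∈ A, Inv i v) : Em lam A v = v := by
  funext x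
  unfold Em
  simp only [piecewise_of_inv h]
  rw [← Finset.sum_mul, sum_W h1, one_mul]

theorem inv_Tk {i j : ι} {v : (∀ i, V i) → ℝ} (hij : i ≠ j) (h : Inv j v) :
    Inv j (Tk lam K i v) := by
  intro x a
  unfold Tk
  refine Finset.sum_congr rfl fun b _ => ?_
  rw [update_of_ne hij, update_comm hij.symm, h]

theorem inv_Tm (h1 : ∀ i, ∑ a, lam i a = 1) {A : Finset ι} {j : ι} (hj : j ∉ A)
    {v : (∀ i, V i) → ℝ} (h : Inv j v) : Inv j (Tm lam K A v) := by
  induction A using Finset.induction_on with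
  | empty => rw [Tm_empty h1]; exact h
  | insert i A hi ih =>
    rw [Tm_insert h1 hi]
    rw [Finset.mem_insert, not_or] at hj
    exact inv_Tk (fun h => hj.1 h.symm) (ih hj.2)

theorem Tm_add (A : Finset ι) (u v : (∀ i, V i) → ℝ) :
    Tm lam K A (u + v) = Tm lam K A u + Tm lam K A v := by
  funext x
  unfold Tm
  rw [Pi.add_apply, ← Finset.sum_add_distrib]
  exact Finset.sum_congr rfl fun y _ => by simp only [Pi.add_apply]; ring

theorem Tm_zero (A : Finset ι) : Tm lam K A 0 = 0 := by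
  funext x
  unfold Tm
  simp

theorem Tm_sum {κ : Type*} (A : Finset ι) (s : Finset κ) (u : κ → (∀ i, V i) → ℝ) :
    Tm lam K A (∑ k ∈ s, u k) = ∑ k ∈ s, Tm lam K A (u k) := by
  classical
  induction s using Finset.induction_on with
  | empty => simp [Tm_zero]
  | insert k s hk ih => rw [Finset.sum_insert hk, Finset.sum_insert hk, Tm_add, ih]

/-- right centred kernels kill functions which do not depend on one of the coordinates -/
theorem Tm_of_inv (h1 : ∀ i, ∑ a, lam i a = 1) {A : Finset ι} {i : ι} (hi : i ∈ A)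
    (hKr : ∀ a, ∑ b, lam i b * K i a b = 0) {v : (∀ i, V i) → ℝ} (h : Inv i v) :
    Tm lam K A v = 0 := by
  obtain ⟨B, hB, rfl⟩ : ∃ B, i ∉ B ∧ insert i B = A :=
    ⟨A.erase i, Finset.notMem_erase i A, Finset.insert_erase hi⟩
  rw [Tm_insert h1 hB]
  have h2 : Inv i (Tm lam K B v) := inv_Tm h1 hB h
  funext x
  unfold Tk
  calc ∑ b, lam i b * (K i (x i) b * Tm lam K B v (update x i b))
      = ∑ b, lam i b * K i (x i) b * Tm lam K B v x :=
        Finset.sum_congr rfl fun b _ => by rw [h2 x b]; ring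
    _ = 0 := by rw [← Finset.sum_mul, hKr, zero_mul]

/-- left centred kernels -/
theorem av_Tm (h1 : ∀ i, ∑ a, lam i a = 1) {A : Finset ι} {i : ι} (hi : i ∈ A)
    (hKl : ∀ b, ∑ a, lam i a * K i a b = 0) (v : (∀ i, V i) → ℝ) :
    av lam i (Tm lam K A v) = 0 := by
  obtain ⟨B, hB, rfl⟩ : ∃ B, i ∉ B ∧ insert i B = A :=
    ⟨A.erase i, Finset.notMem_erase i A, Finset.insert_erase hi⟩
  rw [Tm_insert h1 hB]
  funext x
  unfold av Tk
  simp only [update_self, update_idem, Finset.mul_sum]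
  rw [Finset.sum_comm]
  refine Finset.sum_eq_zero fun b _ => ?_
  calc ∑ a, lam i a * (lam i b * (K i a b * Tm lam K B v (update x i b)))
      = ∑ a, lam i a * K i a b * (lam i b * Tm lam K B v (update x i b)) :=
        Finset.sum_congr rfl fun a _ => by ring
    _ = 0 := by rw [← Finset.sum_mul, hKl, zero_mul]

theorem ip_Tm_of_inv (h1 : ∀ i, ∑ a, lam i a = 1) {A : Finset ι} {i : ι} (hi : i ∈ A)
    (hKl : ∀ b, ∑ a, lam i a * K i a b = 0) {u : (∀ i, V i) → ℝ} (h : Inv i u)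
    (v : (∀ i, V i) → ℝ) : ip lam u (Tm lam K A v) = 0 := by
  rw [← av_of_inv h1 h, ip_av, av_Tm h1 hi hKl]
  unfold ip
  simp

/-- centred kernels only see the top components -/
theorem ip_Tm_sum (h1 : ∀ i, ∑ a, lam i a = 1)
    (hKl : ∀ i b, ∑ a, lam i a * K i a b = 0) (hKr : ∀ i a, ∑ b, lam i b * K i a b = 0)
    {h h' : Finset ι → (∀ i, V i) → ℝ} (hh : ∀ C i, i ∉ C → Inv i (h C))
    (hh' : ∀ C i, i ∉ C → Inv i (h' C)) (B : Finset ι) :
    ip lam (∑ C ∈ B.powerset, h C) (Tm lam K B (∑ C ∈ B.powerset, h' C))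
      = ip lam (h B) (Tm lam K B (h' B)) := by
  rw [Tm_sum, ip_sum_left, Finset.sum_eq_single B]
  · rw [ip_sum_right, Finset.sum_eq_single B]
    · intro C hC hne
      obtain ⟨i, hi, hi'⟩ := Finset.exists_of_ssubset
        (lt_of_le_of_ne (Finset.mem_powerset.1 hC) hne)
      rw [Tm_of_inv h1 hi (hKr i) (hh' C i hi')]
      unfold ip
      simp
    · intro h; exact absurd (Finset.mem_powerset_self B) h
  · intro C hC hne
    obtain ⟨i, hi, hi'⟩ := Finset.exists_of_ssubset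
      (lt_of_le_of_ne (Finset.mem_powerset.1 hC) hne)
    rw [← Tm_sum]
    exact ip_Tm_of_inv h1 hi (hKl i) (hh C i hi') _
  · intro h; exact absurd (Finset.mem_powerset_self B) h

/-! ### the two replicas -/

/-- the pair sum of two densities -/
theorem pair_eq (h1 : ∀ i, ∑ a, lam i a = 1) (B : Finset ι) (F F' : (∀ i, V i) → ℝ) :
    ∑ x, ∑ y, W lam x * F x * (W lam y * F' y) * ∏ i ∈ B, K i (x i) (y i)
      = ip lam (gm lam F B) (Tm lam K B (gm lam F' B)) := by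
  -- `F'` may be replaced by its average
  have e1 : ∀ x : ∀ i, V i, ∑ y, W lam y * (F' y * ∏ i ∈ B, K i (x i) (y i))
      = Tm lam K B (gm lam F' B) x := by
    intro x
    have h2 : ∀ i ∈ Bᶜ, Inv i (fun y : ∀ i, V i => ∏ i ∈ B, K i (x i) (y i)) := by
      intro i hi y a
      refine Finset.prod_congr rfl fun j hj => ?_
      have : j ≠ i := fun h => (Finset.mem_compl.1 hi) (h ▸ hj)
      rw [update_of_ne this]
    have h3 := ip_Em (lam := lam) h1 Bᶜ F' (fun y : ∀ i, V i => ∏ i ∈ B, K i (x i) (y i))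
    rw [Em_of_inv h1 h2] at h3
    unfold ip at h3
    rw [← h3]
    unfold Tm
    refine Finset.sum_congr rfl fun y _ => ?_
    have h4 : gm lam F' B (B.piecewise y x) = gm lam F' B y := by
      apply eq_of_inv (fun i hi => gm_inv hi F')
      intro i hi
      rw [Finset.piecewise_eq_of_mem _ _ _ hi]
    rw [h4]
    unfold gm
    ring
  have e2 : ∑ x, ∑ y, W lam x * F x * (W lam y * F' y) * ∏ i ∈ B, K i (x i) (y i)
      = ip lam F (Tm lam K B (gm lam F' B)) := by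
    unfold ip
    refine Finset.sum_congr rfl fun x _ => ?_
    rw [← e1 x, Finset.mul_sum, Finset.mul_sum]
    exact Finset.sum_congr rfl fun y _ => by ring
  rw [e2]
  have h5 : ∀ i ∈ Bᶜ, Inv i (Tm lam K B (gm lam F' B)) := fun i hi =>
    inv_Tm h1 (Finset.mem_compl.1 hi) (gm_inv (Finset.mem_compl.1 hi) F')
  have h6 := ip_Em (lam := lam) h1 Bᶜ F (Tm lam K B (gm lam F' B))
  rw [Em_of_inv h1 h5] at h6
  exact h6.symm

theorem KB_eq (h1 : ∀ i, ∑ a, lam i a = 1)
    (hKl : ∀ i b, ∑ a, lam i a * K i a b = 0) (hKr : ∀ i a, ∑ b, lam i b * K i a b = 0)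
    (B : Finset ι) (F F' : (∀ i, V i) → ℝ) :
    ∑ x, ∑ y, W lam x * F x * (W lam y * F' y) * ∏ i ∈ B, K i (x i) (y i)
      = ip lam (Hc lam F B) (Tm lam K B (Hc lam F' B)) := by
  rw [pair_eq h1, ← sum_Hc, ← sum_Hc]
  exact ip_Tm_sum h1 hKl hKr (fun C i hi => Hc_inv hi F) (fun C i hi => Hc_inv hi F') B

/-- the generating polynomial of the two replicas -/
theorem Z_eq (h1 : ∀ i, ∑ a, lam i a = 1)
    (hKl : ∀ i b, ∑ a, lam i a * K i a b = 0) (hKr : ∀ i a, ∑ b, lam i b * K i a b = 0)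
    (F F' : (∀ i, V i) → ℝ) (z : ℂ) :
    ∑ x, ∑ y, ((W lam x * F x * (W lam y * F' y) : ℝ) : ℂ) * ∏ i, (1 + z * (K i (x i) (y i) : ℂ))
      = ∑ B : Finset ι, z ^ B.card * (ip lam (Hc lam F B) (Tm lam K B (Hc lam F' B)) : ℝ) := by
  have e1 : ∀ x y : ∀ i, V i, ∏ i, (1 + z * (K i (x i) (y i) : ℂ))
      = ∑ B : Finset ι, z ^ B.card * ((∏ i ∈ B, K i (x i) (y i) : ℝ) : ℂ) := by
    intro x y
    rw [Finset.prod_one_add, ← Finset.powerset_univ]
    refine Finset.sum_congr rfl fun B _ => ?_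
    rw [Finset.prod_mul_distrib, Finset.prod_const]
    push_cast
    rfl
  simp only [e1, Finset.mul_sum]
  have e2 : ∀ x : ∀ i, V i, ∑ y : ∀ i, V i, ∑ B : Finset ι,
      ((W lam x * F x * (W lam y * F' y) : ℝ) : ℂ) * (z ^ B.card *
        ((∏ i ∈ B, K i (x i) (y i) : ℝ) : ℂ))
      = ∑ B : Finset ι, ∑ y : ∀ i, V i, ((W lam x * F x * (W lam y * F' y) : ℝ) : ℂ) *
        (z ^ B.card * ((∏ i ∈ B, K i (x i) (y i) : ℝ) : ℂ)) := fun x => Finset.sum_comm
  simp only [e2]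
  rw [Finset.sum_comm]
  refine Finset.sum_congr rfl fun B _ => ?_
  rw [← KB_eq h1 hKl hKr B F F']
  push_cast
  rw [Finset.mul_sum]
  refine Finset.sum_congr rfl fun x _ => ?_
  rw [Finset.mul_sum]
  exact Finset.sum_congr rfl fun y _ => by ring

/-- **bound on a disk**, any family of components, any collection `D` of sets (truncations) -/
theorem norm_sum_le' (h0 : ∀ i a, 0 ≤ lam i a) (h1 : ∀ i, ∑ a, lam i a = 1) {rho : ι → ℝ}
    (hr : ∀ i, 0 ≤ rho i)
    (hK : ∀ i, ∀ u : V i → ℝ, ∑ a, lam i a * (∑ b, lam i b * (K i a b * u b)) ^ 2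
      ≤ rho i ^ 2 * ∑ b, lam i b * u b ^ 2)
    (h h' : Finset ι → (∀ i, V i) → ℝ) (D : Finset (Finset ι)) {R : ℝ} (z : ℂ)
    (hz : ‖z‖ ≤ R) :
    ‖∑ B ∈ D, z ^ B.card * ((ip lam (h B) (Tm lam K B (h' B)) : ℝ) : ℂ)‖
      ≤ √(∑ B ∈ D, (∏ i ∈ B, (R * rho i)) * ip lam (h B) (h B))
        * √(∑ B ∈ D, (∏ i ∈ B, (R * rho i)) * ip lam (h' B) (h' B)) := by
  have hR : 0 ≤ R := (norm_nonneg z).trans hz
  have hp : ∀ B : Finset ι, 0 ≤ ∏ i ∈ B, (R * rho i) := fun B =>
    Finset.prod_nonneg fun i _ => mul_nonneg hR (hr i)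
  calc ‖∑ B ∈ D, z ^ B.card * ((ip lam (h B) (Tm lam K B (h' B)) : ℝ) : ℂ)‖
      ≤ ∑ B ∈ D, ‖z ^ B.card * ((ip lam (h B) (Tm lam K B (h' B)) : ℝ) : ℂ)‖ := norm_sum_le _ _
    _ ≤ ∑ B ∈ D, √((∏ i ∈ B, (R * rho i)) * ip lam (h B) (h B))
          * √((∏ i ∈ B, (R * rho i)) * ip lam (h' B) (h' B)) := by
        refine Finset.sum_le_sum fun B _ => ?_
        rw [norm_mul, norm_pow, Complex.norm_real, Real.norm_eq_abs,
          Real.sqrt_mul (hp B), Real.sqrt_mul (hp B)]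
        have h2 := tens_op h0 h1 hr hK B (h B) (h' B)
        have h3 : ‖z‖ ^ B.card ≤ R ^ B.card := pow_le_pow_left₀ (norm_nonneg _) hz _
        calc ‖z‖ ^ B.card * |ip lam (h B) (Tm lam K B (h' B))|
            ≤ R ^ B.card * ((∏ i ∈ B, rho i) * (√(ip lam (h B) (h B)) *
                √(ip lam (h' B) (h' B)))) :=
              mul_le_mul h3 h2 (abs_nonneg _) (pow_nonneg hR _)
          _ = (∏ i ∈ B, (R * rho i)) * (√(ip lam (h B) (h B)) * √(ip lam (h' B) (h' B))) := by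
              rw [Finset.prod_mul_distrib, Finset.prod_const]; ring
          _ = _ := by
              rw [mul_mul_mul_comm, Real.mul_self_sqrt (hp B)]
    _ ≤ _ := Real.sum_sqrt_mul_sqrt_le _ (fun B => mul_nonneg (hp B) (ip_self_nonneg h0 _))
        (fun B => mul_nonneg (hp B) (ip_self_nonneg h0 _))

theorem norm_Z_le (h0 : ∀ i a, 0 ≤ lam i a) (h1 : ∀ i, ∑ a, lam i a = 1) {rho : ι → ℝ}
    (hr : ∀ i, 0 ≤ rho i)
    (hKl : ∀ i b, ∑ a, lam i a * K i a b = 0) (hKr : ∀ i a, ∑ b, lam i b * K i a b = 0)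
    (hK : ∀ i, ∀ u : V i → ℝ, ∑ a, lam i a * (∑ b, lam i b * (K i a b * u b)) ^ 2
      ≤ rho i ^ 2 * ∑ b, lam i b * u b ^ 2)
    (F F' : (∀ i, V i) → ℝ) {R : ℝ} (z : ℂ) (hz : ‖z‖ ≤ R) :
    ‖∑ x, ∑ y, ((W lam x * F x * (W lam y * F' y) : ℝ) : ℂ) *
        ∏ i, (1 + z * (K i (x i) (y i) : ℂ))‖
      ≤ √(∑ B : Finset ι, (∏ i ∈ B, (R * rho i)) * ip lam (Hc lam F B) (Hc lam F B))
        * √(∑ B : Finset ι, (∏ i ∈ B, (R * rho i)) * ip lam (Hc lam F' B) (Hc lam F' B)) := by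
  rw [Z_eq h1 hKl hKr]
  exact norm_sum_le' h0 h1 hr hK (Hc lam F) (Hc lam F') univ z hz

end Vale.Agent.P042.H365
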