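import Mathlib.Algebra.Order.Chebyshev
import Vale.Agent.P042.H365.Bridge

/-!
helper365 (P042).  Kernels with constant and one-body parts.

`K i a b = c i + u i a + u' i b + s i a b`, `s` doubly centred with norm `rho i`, `|c i| ≤ e i`,
`‖u i‖² , ‖u' i‖² ≤ rho i * e i`.  Then for `g B = ∑ C ⊆ B, h C` (`h C` depends on `C` only and is
centred in every coordinate of `C`)

`∑ B ∈ D, R^|B| |∑ x y, W x W y g B x g' B y ∏ i ∈ B, K i (x i) (y i)|`
`   ≤ exp (2 R ∑ e i) √(∑ C ∈ D, ∏ i ∈ C, (2 R rho i) ‖h C‖²) √(.. h' ..)`.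
-/

set_option autoImplicit false
set_option linter.unusedSectionVars false

namespace Vale.Agent.P042.H365

open Finset Function Vale.Agent.P042.H461

variable {ι : Type*} [Fintype ι] [DecidableEq ι] {V : ι → Type*} [∀ i, Fintype (V i)]
  [∀ i, DecidableEq (V i)] {lam : ∀ i, V i → ℝ} {K : ∀ i, V i → V i → ℝ}

/-- two replica sum of two functions -/
noncomputable def Ph2 (lam : ∀ i, V i → ℝ) (K : ∀ i, V i → V i → ℝ) (B : Finset ι)
    (h h' : (∀ i, V i) → ℝ) : ℝ :=
  ∑ x, ∑ y, W lam x * W lam y * (h x * h' y * ∏ i ∈ B, K i (x i) (y i))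

theorem Ph2_eq_ip {B : Finset ι} {h h' : (∀ i, V i) → ℝ} (hh' : ∀ i, i ∉ B → Inv i h') :
    Ph2 lam K B h h' = ip lam h (Tm lam K B h') := by
  unfold Ph2 ip Tm
  refine Finset.sum_congr rfl fun x _ => ?_
  rw [Finset.mul_sum, Finset.mul_sum]
  refine Finset.sum_congr rfl fun y _ => ?_
  have h4 : h' (B.piecewise y x) = h' y := by
    apply eq_of_inv hh'
    intro i hi
    rw [Finset.piecewise_eq_of_mem _ _ _ hi]
  rw [h4]
  ring

/-- a kernel at the coordinate `i` which is not seen by `h`, `h'` -/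
def Kill (lam : ∀ i, V i → ℝ) (i : ι) (h h' : (∀ i, V i) → ℝ) (Δ : V i → V i → ℝ) : Prop :=
  ∀ x y : ∀ i, V i, ∑ a, ∑ b, lam i a * lam i b * (h (update x i a) * h' (update y i b) * Δ a b) = 0

theorem Kill.add {i : ι} {h h' : (∀ i, V i) → ℝ} {Δ Δ' : V i → V i → ℝ}
    (h1 : Kill lam i h h' Δ) (h2 : Kill lam i h h' Δ') :
    Kill lam i h h' fun a b => Δ a b + Δ' a b := by
  intro x y
  have e : ∑ a, ∑ b, lam i a * lam i b * (h (update x i a) * h' (update y i b) * (Δ a b + Δ' a b))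
      = ∑ a, ∑ b, lam i a * lam i b * (h (update x i a) * h' (update y i b) * Δ a b)
        + ∑ a, ∑ b, lam i a * lam i b * (h (update x i a) * h' (update y i b) * Δ' a b) := by
    rw [← Finset.sum_add_distrib]
    refine Finset.sum_congr rfl fun a _ => ?_
    rw [← Finset.sum_add_distrib]
    exact Finset.sum_congr rfl fun b _ => by ring
  rw [e, h1 x y, h2 x y, add_zero]

/-- `Δ a b = α a`, `h'` centred -/
theorem kill_left {i : ι} {h h' : (∀ i, V i) → ℝ} (hc : av lam i h' = 0) (α : V i → ℝ) :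
    Kill lam i h h' fun a _ => α a := by
  intro x y
  refine Finset.sum_eq_zero fun a _ => ?_
  have h1 := congrFun hc y
  unfold av at h1
  calc ∑ b, lam i a * lam i b * (h (update x i a) * h' (update y i b) * α a)
      = lam i a * h (update x i a) * α a * ∑ b, lam i b * h' (update y i b) := by
        rw [Finset.mul_sum]; exact Finset.sum_congr rfl fun b _ => by ring
    _ = 0 := by rw [h1]; simp

/-- `Δ a b = β b`, `h` centred -/
theorem kill_right {i : ι} {h h' : (∀ i, V i) → ℝ} (hc : av lam i h = 0) (β : V i → ℝ) :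
    Kill lam i h h' fun _ b => β b := by
  intro x y
  rw [Finset.sum_comm]
  refine Finset.sum_eq_zero fun b _ => ?_
  have h1 := congrFun hc x
  unfold av at h1
  calc ∑ a, lam i a * lam i b * (h (update x i a) * h' (update y i b) * β b)
      = lam i b * h' (update y i b) * β b * ∑ a, lam i a * h (update x i a) := by
        rw [Finset.mul_sum]; exact Finset.sum_congr rfl fun a _ => by ring
    _ = 0 := by rw [h1]; simp

/-- `h'` does not depend on `i`, `Δ` right centred -/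
theorem kill_inv_right {i : ι} {h h' : (∀ i, V i) → ℝ} (hi : Inv i h') {Δ : V i → V i → ℝ}
    (hΔ : ∀ a, ∑ b, lam i b * Δ a b = 0) : Kill lam i h h' Δ := by
  intro x y
  refine Finset.sum_eq_zero fun a _ => ?_
  calc ∑ b, lam i a * lam i b * (h (update x i a) * h' (update y i b) * Δ a b)
      = lam i a * h (update x i a) * h' y * ∑ b, lam i b * Δ a b := by
        rw [Finset.mul_sum]; exact Finset.sum_congr rfl fun b _ => by rw [hi y b]; ring
    _ = 0 := by rw [hΔ]; simp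

/-- `h` does not depend on `i`, `Δ` left centred -/
theorem kill_inv_left {i : ι} {h h' : (∀ i, V i) → ℝ} (hi : Inv i h) {Δ : V i → V i → ℝ}
    (hΔ : ∀ b, ∑ a, lam i a * Δ a b = 0) : Kill lam i h h' Δ := by
  intro x y
  rw [Finset.sum_comm]
  refine Finset.sum_eq_zero fun b _ => ?_
  calc ∑ a, lam i a * lam i b * (h (update x i a) * h' (update y i b) * Δ a b)
      = lam i b * h x * h' (update y i b) * ∑ a, lam i a * Δ a b := by
        rw [Finset.mul_sum]; exact Finset.sum_congr rfl fun a _ => by rw [hi x a]; ring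
    _ = 0 := by rw [hΔ]; simp

/-- a two replica sum with a killed kernel at one coordinate vanishes -/
theorem Ph2_kill (h1 : ∀ i, ∑ a, lam i a = 1) {B : Finset ι} {i : ι} (hi : i ∈ B)
    {h h' : (∀ i, V i) → ℝ} (hK : Kill lam i h h' (K i)) : Ph2 lam K B h h' = 0 := by
  unfold Ph2
  -- resample the coordinate `i` of `x` and of `y`
  have e1 : ∑ x, ∑ y, W lam x * W lam y * (h x * h' y * ∏ i ∈ B, K i (x i) (y i))
      = ∑ x, W lam x * ∑ a, lam i a * ∑ y, W lam y * ∑ b, lam i b *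
          (h (update x i a) * h' (update y i b) *
            ∏ j ∈ B, K j (update x i a j) (update y i b j)) := by
    have s1 := sum_av' (lam := lam) h1 i fun x => ∑ y, W lam y *
      (h x * h' y * ∏ i ∈ B, K i (x i) (y i))
    have s2 : ∑ x, ∑ y, W lam x * W lam y * (h x * h' y * ∏ i ∈ B, K i (x i) (y i))
        = ∑ x, W lam x * ∑ y, W lam y * (h x * h' y * ∏ i ∈ B, K i (x i) (y i)) := by
      refine Finset.sum_congr rfl fun x _ => ?_
      rw [Finset.mul_sum]
      exact Finset.sum_congr rfl fun y _ => by ring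
    rw [s2, ← s1]
    refine Finset.sum_congr rfl fun x _ => ?_
    unfold av
    congr 1
    refine Finset.sum_congr rfl fun a _ => ?_
    congr 1
    have s3 := sum_av' (lam := lam) h1 i fun y =>
      (h (update x i a) * h' y * ∏ j ∈ B, K j (update x i a j) (y j))
    exact s3.symm
  rw [e1]
  refine Finset.sum_eq_zero fun x _ => ?_
  have e2 : ∑ a, lam i a * ∑ y, W lam y * ∑ b, lam i b *
          (h (update x i a) * h' (update y i b) * ∏ j ∈ B, K j (update x i a j) (update y i b j))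
      = ∑ y, W lam y * ((∏ j ∈ B.erase i, K j (x j) (y j)) *
          ∑ a, ∑ b, lam i a * lam i b * (h (update x i a) * h' (update y i b) * K i a b)) := by
    simp only [Finset.mul_sum]
    rw [Finset.sum_comm]
    refine Finset.sum_congr rfl fun y _ => Finset.sum_congr rfl fun a _ =>
      Finset.sum_congr rfl fun b _ => ?_
    rw [← Finset.mul_prod_erase B _ hi, update_self, update_self]
    have e3 : ∏ j ∈ B.erase i, K j (update x i a j) (update y i b j)
        = ∏ j ∈ B.erase i, K j (x j) (y j) := by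
      refine Finset.prod_congr rfl fun j hj => ?_
      have := Finset.ne_of_mem_erase hj
      rw [update_of_ne this, update_of_ne this]
    rw [e3]
    ring
  rw [e2]
  have e4 : ∀ y, W lam y * ((∏ j ∈ B.erase i, K j (x j) (y j)) *
          ∑ a, ∑ b, lam i a * lam i b * (h (update x i a) * h' (update y i b) * K i a b)) = 0 := by
    intro y
    rw [hK x y]; simp
  rw [Finset.sum_eq_zero fun y _ => e4 y, mul_zero]

/-- killed parts of the kernels may be dropped -/
theorem Ph2_drop (h1 : ∀ i, ∑ a, lam i a = 1) (B : Finset ι) {h h' : (∀ i, V i) → ℝ}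
    (P Δ : ∀ i, V i → V i → ℝ) (hK : ∀ i ∈ B, ∀ a b, K i a b = P i a b + Δ i a b)
    (hΔ : ∀ i ∈ B, Kill lam i h h' (Δ i)) : Ph2 lam K B h h' = Ph2 lam P B h h' := by
  have e1 : ∀ x y : ∀ i, V i, ∏ i ∈ B, K i (x i) (y i)
      = ∑ S ∈ B.powerset, ∏ i ∈ B, (if i ∈ S then P i else Δ i) (x i) (y i) := by
    intro x y
    rw [Finset.prod_congr rfl fun i hi => hK i hi (x i) (y i), Finset.prod_add]
    refine Finset.sum_congr rfl fun S hS => ?_
    have hSB := Finset.mem_powerset.1 hS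
    rw [← Finset.prod_sdiff hSB, mul_comm]
    congr 1
    · refine Finset.prod_congr rfl fun i hi => ?_
      rw [if_neg (Finset.mem_sdiff.1 hi).2]
    · refine Finset.prod_congr rfl fun i hi => ?_
      rw [if_pos hi]
  have e2 : Ph2 lam K B h h'
      = ∑ S ∈ B.powerset, Ph2 lam (fun i => if i ∈ S then P i else Δ i) B h h' := by
    unfold Ph2
    simp only [e1, Finset.mul_sum]
    have e3 : ∀ x : ∀ i, V i, ∑ y : ∀ i, V i, ∑ S ∈ B.powerset,
        W lam x * W lam y * (h x * h' y * ∏ i ∈ B, (if i ∈ S then P i else Δ i) (x i) (y i))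
        = ∑ S ∈ B.powerset, ∑ y : ∀ i, V i,
        W lam x * W lam y * (h x * h' y * ∏ i ∈ B, (if i ∈ S then P i else Δ i) (x i) (y i)) :=
      fun x => Finset.sum_comm
    simp only [e3]
    rw [Finset.sum_comm]
  rw [e2, Finset.sum_eq_single B]
  · unfold Ph2
    refine Finset.sum_congr rfl fun x _ => Finset.sum_congr rfl fun y _ => ?_
    congr 2
    refine Finset.prod_congr rfl fun i hi => ?_
    simp only [if_pos hi]
  · intro S hS hne
    obtain ⟨i, hi, hi'⟩ := Finset.exists_of_ssubset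
      (lt_of_le_of_ne (Finset.mem_powerset.1 hS) hne)
    refine Ph2_kill h1 hi ?_
    simp only [if_neg hi']
    exact hΔ i hi
  · intro h; exact absurd (Finset.mem_powerset_self B) h

/-! ### kernels with constant and one-body parts -/

/-- decomposition of a kernel -/
structure OB (lam : ∀ i, V i → ℝ) (K : ∀ i, V i → V i → ℝ) (c : ι → ℝ) (u u' : ∀ i, V i → ℝ)
    (s : ∀ i, V i → V i → ℝ) (rho e : ι → ℝ) : Prop where
  rho0 : ∀ i, 0 ≤ rho i
  e0 : ∀ i, 0 ≤ e i
  split : ∀ i a b, K i a b = c i + u i a + u' i b + s i a b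
  sl : ∀ i b, ∑ a, lam i a * s i a b = 0
  sr : ∀ i a, ∑ b, lam i b * s i a b = 0
  ul : ∀ i, ∑ a, lam i a * u i a = 0
  ur : ∀ i, ∑ b, lam i b * u' i b = 0
  cn : ∀ i, |c i| ≤ e i
  un : ∀ i, ∑ a, lam i a * u i a ^ 2 ≤ rho i * e i
  un' : ∀ i, ∑ b, lam i b * u' i b ^ 2 ≤ rho i * e i
  sn : ∀ i, ∀ f : V i → ℝ, ∑ a, lam i a * (∑ b, lam i b * (s i a b * f b)) ^ 2
      ≤ rho i ^ 2 * ∑ b, lam i b * f b ^ 2

/-- part of the kernel seen by the pair of components `C`, `C'` -/
noncomputable def Pk (c : ι → ℝ) (u u' : ∀ i, V i → ℝ) (s : ∀ i, V i → V i → ℝ) (C C' : Finset ι)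
    (i : ι) : V i → V i → ℝ :=
  if i ∈ C then (if i ∈ C' then s i else fun a _ => u i a)
  else (if i ∈ C' then fun _ b => u' i b else fun _ _ => c i)

/-- weight of one coordinate -/
noncomputable def wt (rho e : ι → ℝ) (C : Finset ι) (i : ι) : ℝ := if i ∈ C then rho i else e i

theorem wt_nonneg {rho e : ι → ℝ} (h1 : ∀ i, 0 ≤ rho i) (h2 : ∀ i, 0 ≤ e i) (C : Finset ι)
    (i : ι) : 0 ≤ wt rho e C i := by
  unfold wt; split_ifs
  · exact h1 i
  · exact h2 i

theorem jensen_sq (h0 : ∀ i a, 0 ≤ lam i a) (i : ι) (u f : V i → ℝ) :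
    (∑ b, lam i b * (u b * f b)) ^ 2 ≤ (∑ b, lam i b * u b ^ 2) * ∑ b, lam i b * f b ^ 2 := by
  have h := Finset.sum_mul_sq_le_sq_mul_sq univ (fun b => √(lam i b) * u b)
    (fun b => √(lam i b) * f b)
  have e1 : ∑ b, √(lam i b) * u b * (√(lam i b) * f b) = ∑ b, lam i b * (u b * f b) := by
    refine Finset.sum_congr rfl fun b _ => ?_
    rw [show √(lam i b) * u b * (√(lam i b) * f b) = (√(lam i b) * √(lam i b)) * (u b * f b) by
      ring, Real.mul_self_sqrt (h0 i b)]
  have e2 : ∀ u : V i → ℝ, ∑ b, (√(lam i b) * u b) ^ 2 = ∑ b, lam i b * u b ^ 2 := by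
    intro u
    refine Finset.sum_congr rfl fun b _ => ?_
    rw [mul_pow, Real.sq_sqrt (h0 i b)]
  rwa [e1, e2, e2] at h

theorem Pk_norm (h0 : ∀ i a, 0 ≤ lam i a) (h1 : ∀ i, ∑ a, lam i a = 1) {c : ι → ℝ}
    {u u' : ∀ i, V i → ℝ} {s : ∀ i, V i → V i → ℝ} {rho e : ι → ℝ}
    (hK : OB lam K c u u' s rho e) (C C' : Finset ι) (i : ι) (f : V i → ℝ) :
    ∑ a, lam i a * (∑ b, lam i b * (Pk c u u' s C C' i a b * f b)) ^ 2
      ≤ (√(wt rho e C i) * √(wt rho e C' i)) ^ 2 * ∑ b, lam i b * f b ^ 2 := by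
  have hf : 0 ≤ ∑ b, lam i b * f b ^ 2 := Finset.sum_nonneg fun b _ =>
    mul_nonneg (h0 i b) (sq_nonneg _)
  have hj : (∑ b, lam i b * f b) ^ 2 ≤ ∑ b, lam i b * f b ^ 2 := by
    have := jensen_sq h0 i (fun _ => 1) f
    simpa [h1 i] using this
  rw [mul_pow, Real.sq_sqrt (wt_nonneg hK.rho0 hK.e0 C i),
    Real.sq_sqrt (wt_nonneg hK.rho0 hK.e0 C' i)]
  unfold Pk wt
  by_cases hC : i ∈ C <;> by_cases hC' : i ∈ C'
  · simp only [if_pos hC, if_pos hC']
    rw [← sq]
    exact hK.sn i f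
  · simp only [if_pos hC, if_neg hC']
    have e1 : ∑ a, lam i a * (∑ b, lam i b * (u i a * f b)) ^ 2
        = (∑ a, lam i a * u i a ^ 2) * (∑ b, lam i b * f b) ^ 2 := by
      rw [Finset.sum_mul]
      refine Finset.sum_congr rfl fun a _ => ?_
      have : ∑ b, lam i b * (u i a * f b) = u i a * ∑ b, lam i b * f b := by
        rw [Finset.mul_sum]; exact Finset.sum_congr rfl fun b _ => by ring
      rw [this]; ring
    rw [e1]
    exact mul_le_mul (hK.un i) hj (sq_nonneg _) (mul_nonneg (hK.rho0 i) (hK.e0 i))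
  · simp only [if_neg hC, if_pos hC']
    rw [← Finset.sum_mul, h1, one_mul, mul_comm (e i)]
    exact (jensen_sq h0 i (u' i) f).trans (mul_le_mul_of_nonneg_right (hK.un' i) hf)
  · simp only [if_neg hC, if_neg hC']
    rw [← Finset.sum_mul, h1, one_mul]
    have e1 : ∑ b, lam i b * (c i * f b) = c i * ∑ b, lam i b * f b := by
      rw [Finset.mul_sum]; exact Finset.sum_congr rfl fun b _ => by ring
    rw [e1, mul_pow, ← sq]
    exact mul_le_mul (by rw [← sq_abs]; exact pow_le_pow_left₀ (abs_nonneg _) (hK.cn i) 2) hj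
      (sq_nonneg _) (sq_nonneg _)

/-- one pair of components -/
theorem pair_le (h0 : ∀ i a, 0 ≤ lam i a) (h1 : ∀ i, ∑ a, lam i a = 1) {c : ι → ℝ}
    {u u' : ∀ i, V i → ℝ} {s : ∀ i, V i → V i → ℝ} {rho e : ι → ℝ}
    (hK : OB lam K c u u' s rho e) {B C C' : Finset ι} (hC' : C' ⊆ B)
    {h h' : (∀ i, V i) → ℝ} (hi : ∀ i, i ∉ C → Inv i h) (hc : ∀ i ∈ C, av lam i h = 0)
    (hi' : ∀ i, i ∉ C' → Inv i h') (hc' : ∀ i ∈ C', av lam i h' = 0) :
    |Ph2 lam K B h h'| ≤ (∏ i ∈ B, √(wt rho e C i)) * √(ip lam h h) *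
      ((∏ i ∈ B, √(wt rho e C' i)) * √(ip lam h' h')) := by
  have key : Ph2 lam K B h h' = Ph2 lam (Pk c u u' s C C') B h h' := by
    refine Ph2_drop h1 B (Pk c u u' s C C') (fun i a b => K i a b - Pk c u u' s C C' i a b)
      (fun i _ a b => by ring) fun i _ => ?_
    unfold Pk
    by_cases hiC : i ∈ C <;> by_cases hiC' : i ∈ C'
    · simp only [if_pos hiC, if_pos hiC']
      have := (kill_left (h := h) (hc' i hiC') (u i)).add
        (kill_right (h' := h') (hc i hiC) fun b => c i + u' i b)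
      convert this using 3
      rw [hK.split]; ring
    · simp only [if_pos hiC, if_neg hiC']
      have := (kill_right (h' := h') (hc i hiC) fun b => c i + u' i b).add
        (kill_inv_right (h := h) (hi' i hiC') (hK.sr i))
      convert this using 3
      rw [hK.split]; ring
    · simp only [if_neg hiC, if_pos hiC']
      have := (kill_left (h := h) (hc' i hiC') fun a => c i + u i a).add
        (kill_inv_left (h' := h') (hi i hiC) (hK.sl i))
      convert this using 3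
      rw [hK.split]; ring
    · simp only [if_neg hiC, if_neg hiC']
      have a1 : Kill lam i h h' fun a _ => u i a :=
        kill_inv_left (hi i hiC) fun _ => hK.ul i
      have a2 : Kill lam i h h' fun _ b => u' i b :=
        kill_inv_right (hi' i hiC') fun _ => hK.ur i
      have := (a1.add a2).add (kill_inv_right (h := h) (hi' i hiC') (hK.sr i))
      convert this using 3
      rw [hK.split]; ring
  rw [key, Ph2_eq_ip fun i hiB => hi' i fun hh => hiB (hC' hh)]
  refine (tens_op h0 h1 (rho := fun i => √(wt rho e C i) * √(wt rho e C' i))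
    (fun i => mul_nonneg (Real.sqrt_nonneg _) (Real.sqrt_nonneg _))
    (Pk_norm h0 h1 hK C C') B h h').trans (le_of_eq ?_)
  rw [Finset.prod_mul_distrib]
  ring

/-- energy of the set `B` with one-body directions -/
noncomputable def NB (lam : ∀ i, V i → ℝ) (rho e : ι → ℝ) (h : Finset ι → (∀ i, V i) → ℝ)
    (B : Finset ι) : ℝ :=
  ∑ C ∈ B.powerset, (∏ i ∈ B, √(wt rho e C i)) * √(ip lam (h C) (h C))

theorem Ph2_sum (B : Finset ι) (h h' : Finset ι → (∀ i, V i) → ℝ) :
    Ph2 lam K B (∑ C ∈ B.powerset, h C) (∑ C ∈ B.powerset, h' C)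
      = ∑ C ∈ B.powerset, ∑ C' ∈ B.powerset, Ph2 lam K B (h C) (h' C') := by
  unfold Ph2
  have e0 : ∀ x y : ∀ i, V i, W lam x * W lam y * ((∑ C ∈ B.powerset, h C) x *
      (∑ C ∈ B.powerset, h' C) y * ∏ i ∈ B, K i (x i) (y i))
      = ∑ C ∈ B.powerset, ∑ C' ∈ B.powerset,
        W lam x * W lam y * (h C x * h' C' y * ∏ i ∈ B, K i (x i) (y i)) := by
    intro x y
    rw [Finset.sum_apply, Finset.sum_apply, Finset.sum_mul_sum]
    simp only [Finset.sum_mul, Finset.mul_sum]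
  simp only [e0]
  have e1 : ∀ x : ∀ i, V i, ∑ y : ∀ i, V i, ∑ C ∈ B.powerset, ∑ C' ∈ B.powerset,
        W lam x * W lam y * (h C x * h' C' y * ∏ i ∈ B, K i (x i) (y i))
      = ∑ C ∈ B.powerset, ∑ C' ∈ B.powerset, ∑ y : ∀ i, V i,
        W lam x * W lam y * (h C x * h' C' y * ∏ i ∈ B, K i (x i) (y i)) := by
    intro x
    rw [Finset.sum_comm]
    exact Finset.sum_congr rfl fun C _ => Finset.sum_comm
  simp only [e1]
  rw [Finset.sum_comm]
  exact Finset.sum_congr rfl fun C _ => Finset.sum_comm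

theorem Ph2_le (h0 : ∀ i a, 0 ≤ lam i a) (h1 : ∀ i, ∑ a, lam i a = 1) {c : ι → ℝ}
    {u u' : ∀ i, V i → ℝ} {s : ∀ i, V i → V i → ℝ} {rho e : ι → ℝ}
    (hK : OB lam K c u u' s rho e) (B : Finset ι) {h h' : Finset ι → (∀ i, V i) → ℝ}
    (hi : ∀ C : Finset ι, ∀ i, i ∉ C → Inv i (h C)) (hc : ∀ C ⊆ B, ∀ i ∈ C, av lam i (h C) = 0)
    (hi' : ∀ C : Finset ι, ∀ i, i ∉ C → Inv i (h' C))
    (hc' : ∀ C ⊆ B, ∀ i ∈ C, av lam i (h' C) = 0) :
    |Ph2 lam K B (∑ C ∈ B.powerset, h C) (∑ C ∈ B.powerset, h' C)|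
      ≤ NB lam rho e h B * NB lam rho e h' B := by
  rw [Ph2_sum]
  unfold NB
  rw [Finset.sum_mul_sum]
  refine (Finset.abs_sum_le_sum_abs _ _).trans (Finset.sum_le_sum fun C hC => ?_)
  refine (Finset.abs_sum_le_sum_abs _ _).trans (Finset.sum_le_sum fun C' hC' => ?_)
  exact pair_le h0 h1 hK (Finset.mem_powerset.1 hC') (hi C) (hc C (Finset.mem_powerset.1 hC))
    (hi' C') (hc' C' (Finset.mem_powerset.1 hC'))

theorem NB_nonneg (rho e : ι → ℝ) (h : Finset ι → (∀ i, V i) → ℝ) (B : Finset ι) :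
    0 ≤ NB lam rho e h B :=
  Finset.sum_nonneg fun C _ => mul_nonneg (Finset.prod_nonneg fun i _ => Real.sqrt_nonneg _)
    (Real.sqrt_nonneg _)

theorem NB_sq_le (h0 : ∀ i a, 0 ≤ lam i a) {rho e : ι → ℝ} (hr : ∀ i, 0 ≤ rho i)
    (he : ∀ i, 0 ≤ e i) (h : Finset ι → (∀ i, V i) → ℝ) (B : Finset ι) :
    NB lam rho e h B ^ 2
      ≤ ∑ C ∈ B.powerset, (∏ i ∈ B, (2 * wt rho e C i)) * ip lam (h C) (h C) := by
  unfold NB
  refine sq_sum_le_card_mul_sum_sq.trans ?_
  rw [Finset.card_powerset, Finset.mul_sum]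
  refine le_of_eq (Finset.sum_congr rfl fun C _ => ?_)
  rw [mul_pow, Real.sq_sqrt (ip_self_nonneg h0 _), ← Finset.prod_pow, Finset.prod_mul_distrib,
    Finset.prod_const]
  have e1 : ∏ i ∈ B, √(wt rho e C i) ^ 2 = ∏ i ∈ B, wt rho e C i :=
    Finset.prod_congr rfl fun i _ => Real.sq_sqrt (wt_nonneg hr he C i)
  rw [e1]
  push_cast
  ring

/-- the energies with one-body directions are bounded by the pure energies -/
theorem sum_NB_le (h0 : ∀ i a, 0 ≤ lam i a) {rho e : ι → ℝ} (hr : ∀ i, 0 ≤ rho i)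
    (he : ∀ i, 0 ≤ e i) (h : Finset ι → (∀ i, V i) → ℝ) (D : Finset (Finset ι))
    (hD : ∀ B ∈ D, ∀ C ⊆ B, C ∈ D) {R : ℝ} (hR : 0 ≤ R) :
    ∑ B ∈ D, R ^ B.card * NB lam rho e h B ^ 2
      ≤ Real.exp (2 * R * ∑ i, e i) *
        ∑ C ∈ D, (∏ i ∈ C, (2 * R * rho i)) * ip lam (h C) (h C) := by
  have hip : ∀ C, 0 ≤ ip lam (h C) (h C) := fun C => ip_self_nonneg h0 _
  have hpos : ∀ E : Finset ι, 0 ≤ ∏ i ∈ E, (2 * R * e i) := fun E =>
    Finset.prod_nonneg fun i _ => mul_nonneg (by positivity) (he i)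
  have hpos' : ∀ E : Finset ι, 0 ≤ ∏ i ∈ E, (2 * R * rho i) := fun E =>
    Finset.prod_nonneg fun i _ => mul_nonneg (by positivity) (hr i)
  -- exponential bound
  have hexp : ∑ E : Finset ι, ∏ i ∈ E, (2 * R * e i) ≤ Real.exp (2 * R * ∑ i, e i) := by
    have e1 : ∑ E : Finset ι, ∏ i ∈ E, (2 * R * e i) = ∏ i, (1 + 2 * R * e i) := by
      rw [Finset.prod_one_add, Finset.powerset_univ]
    rw [e1, Finset.mul_sum, Real.exp_sum]
    exact Finset.prod_le_prod (fun i _ => by have := he i; positivity) fun i _ => by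
      rw [add_comm]; exact Real.add_one_le_exp _
  calc ∑ B ∈ D, R ^ B.card * NB lam rho e h B ^ 2
      ≤ ∑ B ∈ D, ∑ C ∈ B.powerset, (∏ i ∈ C, (2 * R * rho i)) * (∏ i ∈ B \ C, (2 * R * e i)) *
          ip lam (h C) (h C) := by
        refine Finset.sum_le_sum fun B _ => ?_
        refine (mul_le_mul_of_nonneg_left (NB_sq_le h0 hr he h B) (pow_nonneg hR _)).trans ?_
        rw [Finset.mul_sum]
        refine le_of_eq (Finset.sum_congr rfl fun C hC => ?_)
        have hCB := Finset.mem_powerset.1 hC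
        have e1 : R ^ B.card * ∏ i ∈ B, (2 * wt rho e C i)
            = (∏ i ∈ C, (2 * R * rho i)) * ∏ i ∈ B \ C, (2 * R * e i) := by
          have e2 : R ^ B.card * ∏ i ∈ B, (2 * wt rho e C i) = ∏ i ∈ B, (2 * R * wt rho e C i) := by
            rw [← Finset.prod_const, ← Finset.prod_mul_distrib]
            exact Finset.prod_congr rfl fun i _ => by ring
          rw [e2, ← Finset.prod_sdiff hCB, mul_comm]
          congr 1
          · exact Finset.prod_congr rfl fun i hi => by unfold wt; rw [if_pos hi]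
          · exact Finset.prod_congr rfl fun i hi => by
              unfold wt; rw [if_neg (Finset.mem_sdiff.1 hi).2]
        rw [← mul_assoc, e1]
    _ = ∑ C ∈ D, ∑ B ∈ D with C ⊆ B, (∏ i ∈ C, (2 * R * rho i)) * (∏ i ∈ B \ C, (2 * R * e i)) *
          ip lam (h C) (h C) := by
        rw [Finset.sum_comm']
        intro B C
        simp only [Finset.mem_powerset, Finset.mem_filter]
        exact ⟨fun h => ⟨⟨h.1, h.2⟩, hD B h.1 C h.2⟩, fun h => ⟨h.1.1, h.1.2⟩⟩
    _ ≤ ∑ C ∈ D, (∏ i ∈ C, (2 * R * rho i)) * ip lam (h C) (h C) *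
          Real.exp (2 * R * ∑ i, e i) := by
        refine Finset.sum_le_sum fun C _ => ?_
        have e1 : ∑ B ∈ D with C ⊆ B, (∏ i ∈ C, (2 * R * rho i)) * (∏ i ∈ B \ C, (2 * R * e i)) *
            ip lam (h C) (h C) = (∏ i ∈ C, (2 * R * rho i)) * ip lam (h C) (h C) *
              ∑ B ∈ D with C ⊆ B, ∏ i ∈ B \ C, (2 * R * e i) := by
          rw [Finset.mul_sum]; exact Finset.sum_congr rfl fun B _ => by ring
        rw [e1]
        refine mul_le_mul_of_nonneg_left (le_trans ?_ hexp) (mul_nonneg (hpos' C) (hip C))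
        have e2 : ∑ B ∈ D with C ⊆ B, ∏ i ∈ B \ C, (2 * R * e i)
            = ∑ E ∈ (D.filter (C ⊆ ·)).image (· \ C), ∏ i ∈ E, (2 * R * e i) := by
          rw [Finset.sum_image]
          intro B hB B' hB' hEq
          have h1 := (Finset.mem_filter.1 hB).2
          have h2 := (Finset.mem_filter.1 hB').2
          simp only at hEq
          rw [← Finset.sdiff_union_of_subset h1, ← Finset.sdiff_union_of_subset h2, hEq]
        rw [e2]
        exact Finset.sum_le_sum_of_subset_of_nonneg (Finset.subset_univ _) fun E _ _ => hpos E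
    _ = _ := by rw [← Finset.sum_mul, mul_comm]

/-- **total bound** of the two replica sums on the disk of radius `R`, kernels with one-body parts -/
theorem onebody_sum_le (h0 : ∀ i a, 0 ≤ lam i a) (h1 : ∀ i, ∑ a, lam i a = 1) {c : ι → ℝ}
    {u u' : ∀ i, V i → ℝ} {s : ∀ i, V i → V i → ℝ} {rho e : ι → ℝ}
    (hK : OB lam K c u u' s rho e) (D : Finset (Finset ι)) (hD : ∀ B ∈ D, ∀ C ⊆ B, C ∈ D)
    {h h' : Finset ι → (∀ i, V i) → ℝ}
    (hi : ∀ C, ∀ i, i ∉ C → Inv i (h C)) (hc : ∀ C ∈ D, ∀ i ∈ C, av lam i (h C) = 0)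
    (hi' : ∀ C, ∀ i, i ∉ C → Inv i (h' C)) (hc' : ∀ C ∈ D, ∀ i ∈ C, av lam i (h' C) = 0)
    {R : ℝ} (hR : 0 ≤ R) :
    ∑ B ∈ D, R ^ B.card * |Ph2 lam K B (∑ C ∈ B.powerset, h C) (∑ C ∈ B.powerset, h' C)|
      ≤ Real.exp (2 * R * ∑ i, e i) *
        (√(∑ C ∈ D, (∏ i ∈ C, (2 * R * rho i)) * ip lam (h C) (h C)) *
          √(∑ C ∈ D, (∏ i ∈ C, (2 * R * rho i)) * ip lam (h' C) (h' C))) := by
  have hE : 0 ≤ Real.exp (2 * R * ∑ i, e i) := (Real.exp_pos _).le
  calc ∑ B ∈ D, R ^ B.card * |Ph2 lam K B (∑ C ∈ B.powerset, h C) (∑ C ∈ B.powerset, h' C)|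
      ≤ ∑ B ∈ D, √(R ^ B.card * NB lam rho e h B ^ 2) * √(R ^ B.card * NB lam rho e h' B ^ 2) := by
        refine Finset.sum_le_sum fun B hB => ?_
        have h2 := Ph2_le h0 h1 hK B hi (fun C hC => hc C (hD B hB C hC)) hi'
          (fun C hC => hc' C (hD B hB C hC))
        have hRp := pow_nonneg hR B.card
        rw [Real.sqrt_mul hRp, Real.sqrt_mul hRp, Real.sqrt_sq (NB_nonneg _ _ _ _),
          Real.sqrt_sq (NB_nonneg _ _ _ _), mul_mul_mul_comm, Real.mul_self_sqrt hRp]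
        exact mul_le_mul_of_nonneg_left h2 hRp
    _ ≤ √(∑ B ∈ D, R ^ B.card * NB lam rho e h B ^ 2) *
          √(∑ B ∈ D, R ^ B.card * NB lam rho e h' B ^ 2) :=
        Real.sum_sqrt_mul_sqrt_le _ (fun B => mul_nonneg (pow_nonneg hR _) (sq_nonneg _))
          (fun B => mul_nonneg (pow_nonneg hR _) (sq_nonneg _))
    _ ≤ √(Real.exp (2 * R * ∑ i, e i) *
          ∑ C ∈ D, (∏ i ∈ C, (2 * R * rho i)) * ip lam (h C) (h C)) *
        √(Real.exp (2 * R * ∑ i, e i) *
          ∑ C ∈ D, (∏ i ∈ C, (2 * R * rho i)) * ip lam (h' C) (h' C)) :=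
        mul_le_mul (Real.sqrt_le_sqrt (sum_NB_le h0 hK.rho0 hK.e0 h D hD hR))
          (Real.sqrt_le_sqrt (sum_NB_le h0 hK.rho0 hK.e0 h' D hD hR)) (Real.sqrt_nonneg _)
          (Real.sqrt_nonneg _)
    _ = _ := by
        rw [Real.sqrt_mul hE, Real.sqrt_mul hE, mul_mul_mul_comm, Real.mul_self_sqrt hE]

end Vale.Agent.P042.H365
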