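import Vale.Agent.P042.H365.TB
import Vale.Agent.P042.H858.MSub

/-!
# P042, row C.4: the hypotheses on the full law, and the top scales of its marginals
-/

set_option linter.unusedSectionVars false

namespace Vale.Agent.P042.H365

open Finset Vale.Agent.P042.H232 Vale.Agent.P042.H461 Vale.Agent.P042.H416 Vale.Agent.P042.H742
open Vale.Agent.P042.H779 (marg m1)
open Vale.Agent.P042.H779.Ab (Lo At)
open Vale.Agent.P042.H858 (ext0)

/-- the size of the families -/
def LamF (A0 : ℝ) (b : ℕ) (x : ℝ) : ℝ := (2 * A0 + 9) * b ^ 2 * x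

/-- the rates of the family of order `b` and top scale `s` -/
noncomputable def tF {ι J : Type*} (sc : ι → J) (sn : J → ℕ) (ell : J → ℝ) (F Kf : ℝ) (s : J)
    (i : ι) : ℝ :=
  if sn (sc i) ≤ sn s then rate F (ell (sc i)) / Kf else 0

variable {ι : Type*} [Fintype ι] [DecidableEq ι] {V : ι → Type*} [∀ i, Fintype (V i)]
  [∀ i, DecidableEq (V i)] {J : Type*} [Fintype J] [DecidableEq J]

/-- **The hypotheses on one law** (all scales). -/
structure LawH (lam : ∀ i, V i → ℝ) (mu : (∀ i, V i) → ℝ) (sc : ι → J) (sn : J → ℕ)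
    (ell : J → ℝ) (b0 : ℕ) (p G h A0 : ℝ) (Kf : ℕ → J → ℝ) (lm aa : J → ℝ)
    (cc : J → ι → ℝ) (ok : J → Finset ι → Prop) : Prop where
  law : IsLaw mu
  lam0 : ∀ i a, 0 ≤ lam i a
  lam1 : ∀ i, ∑ a, lam i a = 1
  atoms : ∀ i a, lam i a = 0 ∨ Real.exp (-(A0 * ell (sc i))) ≤ lam i a
  i1 : H678.I1M lam (fun i => Real.exp (h * ell (sc i))) (b0 + 1) mu
  card : ∀ l, ((univ.filter fun i => sc i = l).card : ℝ) ≤ Real.exp (ell l)
  Kf1 : ∀ b s, 1 ≤ b → b ≤ b0 → 128 * (b : ℝ) ≤ Kf b s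
  mei : ∀ b s, 1 ≤ b → b ≤ b0 → MEIK (tF sc sn ell ((1 - G) * p) (Kf b s) s)
    (1 / (704 * LamF A0 b (ell s))) (1 / (1408 * (b + 1))) (Real.exp (6 * LamF A0 b (ell s))) mu
  lm0 : ∀ s, Real.exp (-(h / 8 * ell s)) ≤ lm s
  aa0 : ∀ s, 0 ≤ aa s
  aa1 : ∀ s, aa s ≤ Real.exp (h / 8 * ell s)
  cc0 : ∀ s i, 0 ≤ cc s i
  cc1 : ∀ s i, sn (sc i) ≤ sn s → cc s i ≤ Real.exp (h / 8 * ell s)
  okd : ∀ s P Q, P ⊆ Q → ok s Q → ok s P
  pins : ∀ s, ∀ P ⊆ Lo (fun i => sn (sc i)) (sn s + 1), ok s P →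
    lm s * ∑ j ∈ At (fun i => sn (sc i)) (sn s) \ P, H48.MI mu j P ≤ ∑ i ∈ P, cc s i + aa s
  bad : ∀ b s, 1 ≤ b → b ≤ b0 → ∀ (_D : DecidablePred (ok s)),
    ∑ R, bw (tF sc sn ell ((1 - G) * p) (Kf b s) s) R * (if ok s R then 0 else 1) ≤
      Real.exp (-(2 * ell s))

/-- The numbers of the scales. -/
structure NumL (sn : J → ℕ) (ell : J → ℝ) (p G h A0 : ℝ) : Prop where
  inj : Function.Injective sn
  elleq : ∀ j, ell j = sn j * Real.log 2
  big : ∀ j, 16 * (A0 + 3) * ell j ≤ Real.exp (h / 8 * ell j)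
  ell2 : ∀ j, 2 ≤ ell j
  A01 : 1 ≤ A0
  h0 : 0 < h
  G0 : 0 < G
  G1 : G ≤ 1 / 4
  p0 : 0 ≤ p

section num

variable {sn : J → ℕ} {ell : J → ℝ} {p G h A0 : ℝ} (N : NumL sn ell p G h A0)
include N

theorem NumL.le_iff (l s : J) : sn l ≤ sn s ↔ ell l ≤ ell s := by
  rw [N.elleq, N.elleq]
  have h2 : 0 < Real.log 2 := Real.log_pos (by norm_num)
  rw [mul_le_mul_iff_left₀ h2]
  exact Nat.cast_le.symm

theorem NumL.card_le (s : J) :
    ((univ.filter fun l => sn l ≤ sn s).card : ℝ) ≤ 3 * ell s := by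
  have h1 : (univ.filter fun l => sn l ≤ sn s).card ≤ sn s + 1 := by
    have h2 : ((univ.filter fun l => sn l ≤ sn s).image sn).card =
        (univ.filter fun l => sn l ≤ sn s).card := Finset.card_image_of_injective _ N.inj
    rw [← h2, ← Finset.card_range (sn s + 1)]
    apply Finset.card_le_card
    intro n hn
    rw [Finset.mem_image] at hn
    obtain ⟨l, hl, rfl⟩ := hn
    rw [Finset.mem_filter] at hl
    rw [Finset.mem_range]
    omega
  have h2 : (sn s : ℝ) ≤ 2 * ell s := by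
    rw [N.elleq]
    have h3 : (0.5 : ℝ) ≤ Real.log 2 := by
      have := Real.log_two_gt_d9
      linarith
    nlinarith [Nat.cast_nonneg (α := ℝ) (sn s)]
  have h3 : ((univ.filter fun l => sn l ≤ sn s).card : ℝ) ≤ (sn s : ℝ) + 1 := by exact_mod_cast h1
  linarith [N.ell2 s]

/-- sums over the sites of scales at most `s` -/
theorem NumL.sum_le {sc : ι → J}
    (hcard : ∀ l, ((univ.filter fun i => sc i = l).card : ℝ) ≤ Real.exp (ell l)) (s : J)
    {f : J → ℝ} {c : ℝ} (hc : 0 ≤ c) (hf0 : ∀ l, 0 ≤ f l)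
    (hf : ∀ l, f l ≤ c * Real.exp (-ell l)) :
    ∑ i : {i // sn (sc i) ≤ sn s}, f (sc i) ≤ 3 * ell s * c := by
  have h1 : ∑ i : {i // sn (sc i) ≤ sn s}, f (sc i) =
      ∑ i with sn (sc i) ≤ sn s, f (sc i) := by
    rw [← Finset.sum_subtype_eq_sum_filter (f := fun i => f (sc i)) (s := univ)]
    apply Finset.sum_congr _ fun _ _ => rfl
    ext x
    simp
  rw [h1, ← Finset.sum_fiberwise (univ.filter fun i => sn (sc i) ≤ sn s) sc]
  have h2 : ∀ l, ∑ i ∈ univ.filter (fun i => sn (sc i) ≤ sn s) with sc i = l, f (sc i) ≤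
      if sn l ≤ sn s then c else 0 := by
    intro l
    by_cases hl : sn l ≤ sn s
    · rw [if_pos hl]
      have h3 : ∑ i ∈ univ.filter (fun i => sn (sc i) ≤ sn s) with sc i = l, f (sc i) ≤
          ∑ i with sc i = l, f l := by
        have h4 : ∑ i ∈ univ.filter (fun i => sn (sc i) ≤ sn s) with sc i = l, f (sc i) =
            ∑ i ∈ univ.filter (fun i => sn (sc i) ≤ sn s) with sc i = l, f l :=
          Finset.sum_congr rfl fun i hi => by rw [(Finset.mem_filter.1 hi).2]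
        rw [h4]
        apply Finset.sum_le_sum_of_subset_of_nonneg
        · intro i hi
          rw [Finset.mem_filter] at hi ⊢
          exact ⟨Finset.mem_univ _, hi.2⟩
        · exact fun _ _ _ => hf0 l
      refine h3.trans ?_
      rw [Finset.sum_const, nsmul_eq_mul]
      calc _ ≤ Real.exp (ell l) * (c * Real.exp (-ell l)) :=
            mul_le_mul (hcard l) (hf l) (hf0 l) (Real.exp_pos _).le
        _ = c * (Real.exp (ell l) * Real.exp (-ell l)) := by ring
        _ = c := by rw [← Real.exp_add, add_neg_cancel, Real.exp_zero, mul_one]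
    · rw [if_neg hl]
      apply le_of_eq
      apply Finset.sum_eq_zero
      intro i hi
      rw [Finset.mem_filter, Finset.mem_filter] at hi
      rw [hi.2] at hi
      exact absurd hi.1.2 hl
  refine (Finset.sum_le_sum fun l _ => h2 l).trans ?_
  rw [← Finset.sum_filter, Finset.sum_const, nsmul_eq_mul]
  exact mul_le_mul_of_nonneg_right (N.card_le s) hc

theorem NumL.card_sub {sc : ι → J}
    (hcard : ∀ l, ((univ.filter fun i => sc i = l).card : ℝ) ≤ Real.exp (ell l)) (s : J) :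
    (Fintype.card {i // sn (sc i) ≤ sn s} : ℝ) ≤ 3 * ell s * Real.exp (ell s) := by
  have h1 := N.sum_le (sc := sc) hcard s (f := fun l => if sn l ≤ sn s then 1 else 0)
    (c := Real.exp (ell s)) (Real.exp_pos _).le (fun l => by positivity) (fun l => by
      by_cases hl : sn l ≤ sn s
      · rw [if_pos hl, ← Real.exp_add]
        rw [← Real.exp_zero]
        apply Real.exp_le_exp.2
        have := (N.le_iff l s).1 hl
        linarith
      · rw [if_neg hl]
        positivity)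
  refine le_trans (le_of_eq ?_) h1
  rw [Finset.sum_congr rfl fun (i : {i // sn (sc i) ≤ sn s}) _ => if_pos i.2]
  simp

theorem NumL.Lam_ok {sc : ι → J}
    (hcard : ∀ l, ((univ.filter fun i => sc i = l).card : ℝ) ≤ Real.exp (ell l)) (s : J)
    {b : ℕ} (hb : 1 ≤ b) :
    (((b + 1 : ℕ) : ℝ)) * (A0 * ell s + Real.log (Fintype.card {i // sn (sc i) ≤ sn s} *
      ((b + 1 : ℕ) : ℝ))) + 3 ≤ LamF A0 b (ell s) := by
  have hx := N.ell2 s
  have hb1 : (1 : ℝ) ≤ b := by exact_mod_cast hb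
  have h1 : Real.log (Fintype.card {i // sn (sc i) ≤ sn s} * ((b + 1 : ℕ) : ℝ)) ≤
      2 * ell s + b := by
    rcases Nat.eq_zero_or_pos (Fintype.card {i // sn (sc i) ≤ sn s}) with h0 | h0
    · rw [h0]
      simp only [Nat.cast_zero, zero_mul, Real.log_zero]
      linarith
    · have h2 : (0 : ℝ) < Fintype.card {i // sn (sc i) ≤ sn s} := by exact_mod_cast h0
      rw [Real.log_le_iff_le_exp (by positivity), Real.exp_add]
      have h3 := N.card_sub (sc := sc) hcard s
      have h4 : 3 * ell s ≤ Real.exp (ell s) := by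
        have h5 := Real.pow_div_factorial_le_exp (ell s) (by linarith) 3
        have h6 : 0 ≤ (ell s) * (ell s - 2) := mul_nonneg (by linarith) (by linarith)
        have h8 := Real.pow_div_factorial_le_exp (ell s) (by linarith) 2
        have h9 := Real.pow_div_factorial_le_exp (ell s) (by linarith) 1
        have h7 := Real.quadratic_le_exp_of_nonneg (x := ell s) (by linarith)
        have h10 : Real.exp (ell s) = Real.exp (ell s / 2) * Real.exp (ell s / 2) := by
          rw [← Real.exp_add]; congr 1; ring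
        have h11 := Real.quadratic_le_exp_of_nonneg (x := ell s / 2) (by linarith)
        have h12 : (1 + ell s / 2 + (ell s / 2) ^ 2 / 2) * (1 + ell s / 2 + (ell s / 2) ^ 2 / 2) ≤
            Real.exp (ell s / 2) * Real.exp (ell s / 2) :=
          mul_le_mul h11 h11 (by positivity) (Real.exp_pos _).le
        rw [h10]
        nlinarith
      have h5 : ((b + 1 : ℕ) : ℝ) ≤ Real.exp b := by
        push_cast
        exact Real.add_one_le_exp _
      have h6 : Real.exp (2 * ell s) = Real.exp (ell s) * Real.exp (ell s) := by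
        rw [← Real.exp_add]; congr 1; ring
      rw [h6]
      refine mul_le_mul (h3.trans ?_) h5 (by positivity) (by positivity)
      exact mul_le_mul_of_nonneg_right h4 (Real.exp_pos _).le
  have hA := N.A01
  unfold LamF
  push_cast
  have h2 : ((b : ℝ) + 1) * (A0 * ell s + Real.log (Fintype.card {i // sn (sc i) ≤ sn s} *
      ((b : ℝ) + 1))) ≤ (2 * b) * (A0 * ell s + (2 * ell s + b)) := by
    push_cast at h1
    apply mul_le_mul (by linarith) (by linarith) _ (by positivity)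
    have h3 : 0 ≤ Real.log (Fintype.card {i // sn (sc i) ≤ sn s} * ((b : ℝ) + 1)) := by
      have := Real.log_natCast_nonneg (Fintype.card {i // sn (sc i) ≤ sn s} * (b + 1))
      push_cast at this
      exact this
    have h4 : 0 ≤ A0 * ell s := by positivity
    linarith
  have h3 : (2 * (b : ℝ)) * (A0 * ell s + (2 * ell s + b)) + 3 ≤ (2 * A0 + 9) * b ^ 2 * ell s := by
    have e1 : (b : ℝ) ≤ b ^ 2 := by nlinarith
    have e2 : 0 ≤ A0 * ell s := by positivity
    have e3 : (b : ℝ) * (A0 * ell s) ≤ b ^ 2 * (A0 * ell s) := mul_le_mul_of_nonneg_right e1 e2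
    have e4 : (b : ℝ) * ell s ≤ b ^ 2 * ell s := mul_le_mul_of_nonneg_right e1 (by linarith)
    have e5 : (b : ℝ) ^ 2 * 2 ≤ b ^ 2 * ell s := mul_le_mul_of_nonneg_left hx (by positivity)
    have e6 : (1 : ℝ) ≤ b ^ 2 := by nlinarith
    nlinarith
  linarith

theorem NumL.Lam_ge (s : J) {b : ℕ} (hb : 1 ≤ b) :
    ((b : ℝ) + 1) ≤ LamF A0 b (ell s) ∧ 11 ≤ LamF A0 b (ell s) := by
  have hx := N.ell2 s
  have hb1 : (1 : ℝ) ≤ b := by exact_mod_cast hb
  have hA := N.A01
  have e1 : (b : ℝ) ≤ b ^ 2 := by nlinarith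
  have h1 : 11 * (b : ℝ) ^ 2 * 2 ≤ LamF A0 b (ell s) := by
    unfold LamF
    apply mul_le_mul _ hx (by norm_num) (by positivity)
    exact mul_le_mul_of_nonneg_right (by linarith) (by positivity)
  constructor <;> nlinarith

end num

theorem exp_small {Λ B : ℝ} (h11 : 11 ≤ Λ) (hB : B ≤ Λ) :
    B * (6 * Λ * Real.exp (-(3 * Λ))) ≤ 1 / 1408 := by
  have h1 := Real.pow_div_factorial_le_exp (3 * Λ) (by linarith) 6
  have h2 : (3 * Λ) ^ 6 / (Nat.factorial 6 : ℝ) = 729 / 720 * Λ ^ 6 := by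
    norm_num [Nat.factorial]
    ring
  rw [h2] at h1
  have h3 : (11 : ℝ) ^ 4 ≤ Λ ^ 4 := pow_le_pow_left₀ (by norm_num) h11 4
  have h4 : 6 * Λ * Λ * 1408 ≤ Real.exp (3 * Λ) := by
    have h5 : Λ ^ 2 * 11 ^ 4 ≤ Λ ^ 2 * Λ ^ 4 := mul_le_mul_of_nonneg_left h3 (sq_nonneg _)
    nlinarith [sq_nonneg Λ]
  have hE : Real.exp (-(3 * Λ)) * Real.exp (3 * Λ) = 1 := by
    rw [← Real.exp_add]; simp
  have hE0 := Real.exp_pos (-(3 * Λ))
  have h6 : B * (6 * Λ * Real.exp (-(3 * Λ))) ≤ Λ * (6 * Λ * Real.exp (-(3 * Λ))) :=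
    mul_le_mul_of_nonneg_right hB (by positivity)
  have h7 : (6 * Λ * Λ * 1408) * Real.exp (-(3 * Λ)) ≤ 1 := by
    calc _ ≤ Real.exp (3 * Λ) * Real.exp (-(3 * Λ)) := mul_le_mul_of_nonneg_right h4 hE0.le
      _ = 1 := by rw [mul_comm, hE]
  nlinarith

end Vale.Agent.P042.H365
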