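import Vale.Agent.P042.H365.NumH
import Vale.Agent.P042.H48.Tot1

/-!
# P042, row C.4: typed norms of order at least three at one law, with numbers
-/

set_option linter.unusedSectionVars false

namespace Vale.Agent.P042.H365

open Finset Vale.Agent.P042.H232 Vale.Agent.P042.H461 Vale.Agent.P042.H416 Vale.Agent.P042.H742
open Vale.Agent.P042.H779 (marg m1)
open Vale.Agent.P042.H284 (Lt sum_Lt_nil sum_Lt_cons sum_Lt_perm pr pr_nil pr_cons pr_nonneg
  pr_perm BV BdT)

/-- the exponent of a leg -/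
noncomputable def phF (F x : ℝ) : ℝ := -(1 / 2) * x + max 0 (x - F)

theorem rate_eq (F x : ℝ) : rate F x = Real.exp (-max 0 (x - F)) := by
  unfold rate
  rcases le_total x F with h | h
  · rw [max_eq_left (by linarith), neg_zero, Real.exp_zero, min_eq_left]
    rw [← Real.exp_zero]
    exact Real.exp_le_exp.2 (by linarith)
  · rw [max_eq_right (by linarith), min_eq_right]
    · congr 1; ring
    · rw [← Real.exp_zero]
      exact Real.exp_le_exp.2 (by linarith)

theorem pr_exp {Λ : Type*} (c : ℝ) (f : Λ → ℝ) :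
    ∀ τ : List Λ, pr (fun l => c * Real.exp (f l)) τ =
      c ^ τ.length * Real.exp ((τ.map f).sum)
  | [] => by simp
  | l :: τ => by
    rw [pr_cons, pr_exp c f τ, List.length_cons, List.map_cons, List.sum_cons, Real.exp_add]
    ring

theorem fact_sq_le {n b : ℕ} (h : n ≤ b) : ((n.factorial : ℝ)) ^ 2 ≤ ((b : ℝ) ^ 2) ^ n := by
  have h1 : n.factorial ≤ b ^ n := (Nat.factorial_le_pow n).trans (Nat.pow_le_pow_left h n)
  have h2 : (n.factorial : ℝ) ≤ (b : ℝ) ^ n := by exact_mod_cast h1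
  calc ((n.factorial : ℝ)) ^ 2 ≤ ((b : ℝ) ^ n) ^ 2 :=
        pow_le_pow_left₀ (Nat.cast_nonneg _) h2 2
    _ = _ := by rw [← pow_mul, ← pow_mul, mul_comm]

/-- The bookkeeping of the constants. -/
theorem num_core {Kf σ A2 f : ℝ} {b n : ℕ} (hb : 1 ≤ b) (hKf : 128 * (b : ℝ) ≤ Kf) (hσ : 0 < σ)
    (hs : 1000 * Kf * σ * (b : ℝ) ^ 4 ≤ 1) (hn : n ≤ b) (hn1 : 1 ≤ n) {A : ℝ} (hA : A ^ 2 = A2)
    (hA2 : 0 ≤ A2) :
    (4 * σ * Kf) ^ n * Real.exp f * (2 * A * (n.factorial * (√((b + 1 : ℕ) : ℝ)) ^ n)) ^ 2 ≤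
      Real.exp f * A2 := by
  have hb1 : (1 : ℝ) ≤ b := by exact_mod_cast hb
  have hKf0 : 0 < Kf := by linarith
  have hsq : (√((b + 1 : ℕ) : ℝ) ^ n) ^ 2 = ((b : ℝ) + 1) ^ n := by
    rw [← pow_mul, mul_comm, pow_mul, Real.sq_sqrt (Nat.cast_nonneg _)]
    push_cast
    ring
  have e1 : (2 * A * (n.factorial * (√((b + 1 : ℕ) : ℝ)) ^ n)) ^ 2 =
      4 * A2 * ((n.factorial : ℝ) ^ 2 * ((b : ℝ) + 1) ^ n) := by
    rw [← hA, ← hsq]; ring
  rw [e1]
  have h1 : (n.factorial : ℝ) ^ 2 * ((b : ℝ) + 1) ^ n ≤ ((b : ℝ) ^ 2 * (b + 1)) ^ n := by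
    rw [mul_pow]
    exact mul_le_mul_of_nonneg_right (fact_sq_le hn) (by positivity)
  have h2 : 4 * σ * Kf * ((b : ℝ) ^ 2 * (b + 1)) ≤ 1 / 4 := by
    have : (b : ℝ) ^ 2 * (b + 1) ≤ 2 * (b : ℝ) ^ 4 := by
      have h3 : (b : ℝ) + 1 ≤ 2 * (b : ℝ) ^ 2 := by nlinarith
      calc (b : ℝ) ^ 2 * (b + 1) ≤ (b : ℝ) ^ 2 * (2 * (b : ℝ) ^ 2) :=
            mul_le_mul_of_nonneg_left h3 (by positivity)
        _ = _ := by ring
    have h4 : 0 ≤ 4 * σ * Kf := by positivity
    calc _ ≤ 4 * σ * Kf * (2 * (b : ℝ) ^ 4) := mul_le_mul_of_nonneg_left this h4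
      _ = (1000 * Kf * σ * (b : ℝ) ^ 4) * (8 / 1000) := by ring
      _ ≤ 1 * (8 / 1000) := mul_le_mul_of_nonneg_right hs (by norm_num)
      _ ≤ _ := by norm_num
  have h5 : 0 ≤ 4 * σ * Kf * ((b : ℝ) ^ 2 * (b + 1)) := by positivity
  have h6 : (4 * σ * Kf * ((b : ℝ) ^ 2 * (b + 1))) ^ n ≤ 1 / 4 := by
    calc _ ≤ (1 / 4 : ℝ) ^ n := pow_le_pow_left₀ h5 h2 n
      _ ≤ (1 / 4 : ℝ) ^ 1 := pow_le_pow_of_le_one (by norm_num) (by norm_num) hn1
      _ = _ := by norm_num
  calc (4 * σ * Kf) ^ n * Real.exp f * (4 * A2 * ((n.factorial : ℝ) ^ 2 * ((b : ℝ) + 1) ^ n))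
      ≤ (4 * σ * Kf) ^ n * Real.exp f * (4 * A2 * ((b : ℝ) ^ 2 * (b + 1)) ^ n) := by
        apply mul_le_mul_of_nonneg_left _ (by positivity)
        exact mul_le_mul_of_nonneg_left h1 (by positivity)
    _ = (4 * σ * Kf * ((b : ℝ) ^ 2 * (b + 1))) ^ n * (4 * A2 * Real.exp f) := by
        rw [mul_pow (4 * σ * Kf)]; ring
    _ ≤ (1 / 4) * (4 * A2 * Real.exp f) := by
        apply mul_le_mul_of_nonneg_right h6 (by positivity)
    _ = _ := by ring

theorem phF_le {G p x : ℝ} (hG0 : 0 < G) (hG1 : G ≤ 1 / 4) (hp : 0 ≤ p) (hx0 : 0 ≤ x)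
    (hx : x ≤ (2 - 4 * G) * p) : phF ((1 - G) * p) x ≤ -(G / 2) * x := by
  unfold phF
  rcases le_total x ((1 - G) * p) with h | h
  · rw [max_eq_left (by linarith)]
    nlinarith
  · rw [max_eq_right (by linarith)]
    have h1 : x * (1 + G) ≤ (2 - 4 * G) * p * (1 + G) :=
      mul_le_mul_of_nonneg_right hx (by linarith)
    have h2 : (2 - 4 * G) * p * (1 + G) ≤ 2 * (1 - G) * p := by
      have : 0 ≤ G * G * p := by positivity
      nlinarith
    linarith

theorem sum_map_add_mul {Λ : Type*} (f g : Λ → ℝ) (c : ℝ) : ∀ τ : List Λ,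
    (τ.map fun m => f m + c * g m).sum = (τ.map f).sum + c * (τ.map g).sum
  | [] => by simp
  | l :: τ => by
    simp only [List.map_cons, List.sum_cons, sum_map_add_mul f g c τ]
    ring

theorem sum_map_le {Λ : Type*} {f g : Λ → ℝ} : ∀ τ : List Λ, (∀ m ∈ τ, f m ≤ g m) →
    (τ.map f).sum ≤ (τ.map g).sum
  | [], _ => by simp
  | l :: τ, h => by
    simp only [List.map_cons, List.sum_cons]
    exact add_le_add (h l (by simp)) (sum_map_le τ fun m hm => h m (List.mem_cons_of_mem _ hm))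

theorem sum_map_const' {Λ : Type*} (c : ℝ) : ∀ τ : List Λ,
    (τ.map fun _ => c).sum = τ.length * c
  | [] => by simp
  | l :: τ => by
    simp only [List.map_cons, List.sum_cons, sum_map_const' c τ, List.length_cons]
    push_cast
    ring

theorem sum_map_smul {Λ : Type*} (c : ℝ) (f : Λ → ℝ) : ∀ τ : List Λ,
    (τ.map fun m => c * f m).sum = c * (τ.map f).sum
  | [] => by simp
  | l :: τ => by
    simp only [List.map_cons, List.sum_cons, sum_map_smul c f τ]
    ring

theorem mem_le_sum {Λ : Type*} {f : Λ → ℝ} : ∀ (τ : List Λ), (∀ m ∈ τ, 0 ≤ f m) →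
    ∀ m ∈ τ, f m ≤ (τ.map f).sum
  | [], _, m, hm => by simp at hm
  | l :: τ, h, m, hm => by
    simp only [List.map_cons, List.sum_cons]
    have h0 : 0 ≤ (τ.map f).sum := by
      have := sum_map_le (f := fun _ => (0 : ℝ)) (g := f) τ
        fun m hm => h m (List.mem_cons_of_mem _ hm)
      simpa using this
    rcases List.mem_cons.1 hm with h1 | h1
    · rw [h1]; linarith
    · have := mem_le_sum τ (fun m hm => h m (List.mem_cons_of_mem _ hm)) m h1
      have := h l (by simp)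
      linarith

/-- **Exponents, branch (I)**: the smallest leg is small and is the root. -/
theorem exp_one {Λ : Type*} {ell : Λ → ℝ} {G p : ℝ} (hG0 : 0 < G) (hG1 : G ≤ 1 / 4)
    (hp : 0 ≤ p) {l : Λ} {τ : List Λ} (hl0 : 0 ≤ ell l) (hl : ell l ≤ G / 8 * p)
    (hmin : ∀ m ∈ τ, ell l ≤ ell m) (hmax : ∀ m ∈ τ, ell m ≤ (2 - 4 * G) * p)
    (hlen : 2 ≤ τ.length) :
    (τ.map fun m => phF ((1 - G) * p) (ell m)).sum + 1 / 2 * ell l ≤
      -(3 * G / 16) * (ell l + (τ.map ell).sum) := by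
  have hx0 : ∀ m ∈ τ, 0 ≤ ell m := fun m hm => hl0.trans (hmin m hm)
  set T : ℝ := (τ.map ell).sum with hT
  have h2l : 2 * ell l ≤ T := by
    have h1 := sum_map_le (f := fun _ => ell l) (g := ell) τ hmin
    rw [sum_map_const'] at h1
    have h2 : (2 : ℝ) ≤ τ.length := by exact_mod_cast hlen
    have h3 : 2 * ell l ≤ τ.length * ell l := mul_le_mul_of_nonneg_right h2 hl0
    linarith
  have hT0 : 0 ≤ T := by linarith
  by_cases hall : ∀ m ∈ τ, ell m ≤ (1 - G) * p
  · have h1 : (τ.map fun m => phF ((1 - G) * p) (ell m)).sum ≤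
        (τ.map fun m => -(1 / 2) * ell m).sum := by
      refine sum_map_le τ fun m hm => ?_
      unfold phF
      rw [max_eq_left (by linarith [hall m hm]), add_zero]
    rw [sum_map_smul] at h1
    have h3 : 3 * G / 16 * (ell l + T) ≤ 3 * (1 / 4) / 16 * (ell l + T) := by
      apply mul_le_mul_of_nonneg_right _ (by linarith)
      linarith
    linarith
  · push Not at hall
    obtain ⟨m0, hm0, hm1⟩ := hall
    have h1 : (τ.map fun m => phF ((1 - G) * p) (ell m)).sum ≤
        (τ.map fun m => -(G / 2) * ell m).sum :=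
      sum_map_le τ fun m hm => phF_le hG0 hG1 hp (hx0 m hm) (hmax m hm)
    rw [sum_map_smul] at h1
    have h2 := mem_le_sum τ hx0 m0 hm0
    -- ell l ≤ (G/8) p ≤ (G/8) (4/3) ell m0
    have h3 : G / 8 * p ≤ G / 6 * ell m0 := by
      have h4 : 3 / 4 * p ≤ (1 - G) * p := mul_le_mul_of_nonneg_right (by linarith) hp
      have h5 : p ≤ 4 / 3 * ell m0 := by linarith
      calc G / 8 * p ≤ G / 8 * (4 / 3 * ell m0) := mul_le_mul_of_nonneg_left h5 (by linarith)
        _ = _ := by ring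
    have h4 : G / 6 * ell m0 ≤ G / 6 * T := mul_le_mul_of_nonneg_left h2 (by linarith)
    have h5 : 3 * G / 16 * ell l ≤ 3 * G / 16 * (T / 2) :=
      mul_le_mul_of_nonneg_left (by linarith) (by linarith)
    have h6 : 0 ≤ G * T := by positivity
    nlinarith

/-- **Exponents, branch (II)**: all legs are large, the root is the largest. -/
theorem exp_two {Λ : Type*} {ell : Λ → ℝ} {G p : ℝ} (hG0 : 0 < G)
    (hp : 0 ≤ p) {s : Λ} {τ : List Λ} (hs : ell s ≤ (2 - 4 * G) * p)
    (hmin : ∀ m ∈ τ, G / 8 * p ≤ ell m) (hmax : ∀ m ∈ τ, ell m ≤ ell s)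
    (hlen : 2 ≤ τ.length) :
    (τ.map fun m => phF (1 / 2 * ell s + G / 16 * p) (ell m)).sum +
      max 0 ((1 / 2 * ell s + G / 16 * p) - 1 / 2 * ell s) ≤
      -(G / 96) * (ell s + (τ.map ell).sum) := by
  have h1 : (τ.map fun m => phF (1 / 2 * ell s + G / 16 * p) (ell m)).sum ≤
      (τ.map fun _ => -(G / 16 * p)).sum := by
    refine sum_map_le τ fun m hm => ?_
    have h2 := hmin m hm
    have h3 := hmax m hm
    unfold phF
    rcases le_total (ell m) (1 / 2 * ell s + G / 16 * p) with h | h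
    · rw [max_eq_left (by linarith)]
      linarith
    · rw [max_eq_right (by linarith)]
      linarith
  rw [sum_map_const'] at h1
  have h2 : max 0 ((1 / 2 * ell s + G / 16 * p) - 1 / 2 * ell s) = G / 16 * p := by
    rw [max_eq_right]
    · ring
    · have : 0 ≤ G / 16 * p := by positivity
      linarith
  rw [h2]
  have hn : (2 : ℝ) ≤ τ.length := by exact_mod_cast hlen
  have hGp : 0 ≤ G * p := by positivity
  have h4 : (τ.map ell).sum ≤ (τ.map fun _ => 2 * p).sum := by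
    refine sum_map_le τ fun m hm => (hmax m hm).trans ?_
    nlinarith
  rw [sum_map_const'] at h4
  have h5 : ell s ≤ 2 * p := by nlinarith
  have h6 : G / 96 * (ell s + (τ.map ell).sum) ≤ G / 96 * (2 * p + τ.length * (2 * p)) :=
    mul_le_mul_of_nonneg_left (by linarith) (by positivity)
  have h7 : 0 ≤ (τ.length - 2 : ℝ) * (G * p) := mul_nonneg (by linarith) hGp
  nlinarith

variable {ι : Type*} [Fintype ι] [DecidableEq ι] {V : ι → Type*} [∀ i, Fintype (V i)]
  [∀ i, DecidableEq (V i)] {J : Type*} [DecidableEq J] {lam : ∀ i, V i → ℝ}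
  {mu : (∀ i, V i) → ℝ} {sc : ι → J} {ell : J → ℝ} {s : J} {b : ℕ}
  {p G h Kf σ L Λ ε κ δ : ℝ} {R E : ι → ℝ}

/-- the weights of the rows -/
noncomputable def rr (sc : ι → J) (ell : J → ℝ) (h Kf F : ℝ) (i : ι) : ℝ :=
  rate F (ell (sc i)) / Kf * Real.exp (-(2 * h * ell (sc i))) / 4

namespace TopH

variable (H : TopH lam mu sc ell s b p G h Kf σ L Λ ε κ δ R E)
include H

theorem b1' : (1 : ℝ) ≤ b := by exact_mod_cast H.b1

theorem Kf0 : 0 < Kf := by linarith [H.Kf1, H.b1']

theorem Kf128 : 128 ≤ Kf := by linarith [H.Kf1, H.b1']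

theorem sig : 128000 * σ ≤ 1 := by
  have h1 := H.s1
  have h2 : (1 : ℝ) ≤ (b : ℝ) ^ 4 := one_le_pow₀ H.b1'
  have h3 : 128 ≤ Kf * (b : ℝ) ^ 4 := by
    calc (128 : ℝ) = 128 * 1 := by ring
      _ ≤ Kf * (b : ℝ) ^ 4 := mul_le_mul H.Kf128 h2 zero_le_one H.Kf0.le
  have h4 : 1000 * σ * 128 ≤ 1000 * σ * (Kf * (b : ℝ) ^ 4) :=
    mul_le_mul_of_nonneg_left h3 (by have := H.s0; positivity)
  nlinarith

theorem rr_nonneg (F : ℝ) (i : ι) : 0 ≤ rr sc ell h Kf F i := by
  unfold rr
  have := rate_pos F (ell (sc i))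
  have := H.Kf0
  positivity

theorem x0 (i : J) : 0 ≤ ell i := by linarith [H.ell1 i]

theorem rr_le (F : ℝ) (i : ι) :
    rr sc ell h Kf F i ≤ rate F (ell (sc i)) / Kf / Real.exp (h * ell (sc i)) := by
  unfold rr
  have h1 := rate_pos F (ell (sc i))
  have h2 := H.Kf0
  have h3 : Real.exp (-(2 * h * ell (sc i))) ≤ Real.exp (-(h * ell (sc i))) := by
    apply Real.exp_le_exp.2
    have := mul_nonneg H.h0.le (H.x0 (sc i))
    nlinarith
  rw [div_eq_mul_inv (rate F (ell (sc i)) / Kf) (Real.exp (h * ell (sc i))), ← Real.exp_neg]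
  have h4 : 0 ≤ rate F (ell (sc i)) / Kf := by positivity
  have h5 : 0 ≤ Real.exp (-(2 * h * ell (sc i))) := (Real.exp_pos _).le
  calc _ ≤ rate F (ell (sc i)) / Kf * Real.exp (-(2 * h * ell (sc i))) := by
        have := mul_nonneg h4 h5
        linarith
    _ ≤ _ := mul_le_mul_of_nonneg_left h3 h4

theorem coord_le (F : ℝ) (i : ι) :
    4 * Real.exp (h * ell (sc i)) ^ 2 * (rr sc ell h Kf F i + rr sc ell h Kf F i) ≤
      (√(2 / Kf)) ^ 2 := by
  rw [Real.sq_sqrt (div_nonneg zero_le_two H.Kf0.le)]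
  unfold rr
  have h1 := rate_le_one F (ell (sc i))
  have h2 := H.Kf0
  have e1 : Real.exp (h * ell (sc i)) ^ 2 * Real.exp (-(2 * h * ell (sc i))) = 1 := by
    rw [← Real.exp_nat_mul, ← Real.exp_add]
    push_cast
    rw [show (2 : ℝ) * (h * ell (sc i)) + -(2 * h * ell (sc i)) = 0 by ring, Real.exp_zero]
  calc _ = 2 * (rate F (ell (sc i)) / Kf) * (Real.exp (h * ell (sc i)) ^ 2 *
        Real.exp (-(2 * h * ell (sc i)))) := by ring
    _ = 2 * rate F (ell (sc i)) / Kf := by rw [e1]; ring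
    _ ≤ 2 / Kf := by
        apply div_le_div_of_nonneg_right _ h2.le
        linarith

theorem small : 8 * (b : ℝ) * √(2 / Kf) ≤ √((b + 1 : ℕ) : ℝ) := by
  have h2 := H.Kf0
  have h3 := H.b1'
  have e : 8 * (b : ℝ) = √((8 * (b : ℝ)) ^ 2) := by
    rw [Real.sqrt_sq (by positivity)]
  rw [e, ← Real.sqrt_mul (by positivity)]
  apply Real.sqrt_le_sqrt
  push_cast
  have h4 : (8 * (b : ℝ)) ^ 2 * (2 / Kf) = 128 * (b : ℝ) * b / Kf := by ring
  rw [h4, div_le_iff₀ h2]
  have h5 : 128 * (b : ℝ) * b ≤ Kf * b := mul_le_mul_of_nonneg_right H.Kf1 (by positivity)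
  nlinarith

/-- weights of the letters against the weights of the rows -/
theorem rr_mul (F : ℝ) (i : ι) :
    σ * Real.exp (-(1 / 2) * ell (sc i) + h * ell (sc i)) =
      (4 * σ * Kf * Real.exp (phF F (ell (sc i)) + 3 * h * ell (sc i))) *
      rr sc ell h Kf F i := by
  unfold rr phF
  rw [rate_eq]
  have h2 := H.Kf0.ne'
  have e : Real.exp (-(1 / 2) * ell (sc i) + h * ell (sc i)) =
      Real.exp (-(1 / 2) * ell (sc i) + max 0 (ell (sc i) - F) + 3 * h * ell (sc i)) *
      (Real.exp (-max 0 (ell (sc i) - F)) * Real.exp (-(2 * h * ell (sc i)))) := by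
    rw [← Real.exp_add, ← Real.exp_add]
    congr 1
    ring
  rw [e]
  field_simp

theorem R_le (F : ℝ) (i : ι) :
    R i ≤ (4 * σ * Kf * Real.exp (phF F (ell (sc i)) + 3 * h * ell (sc i))) *
      rr sc ell h Kf F i := by
  rw [← H.rr_mul]
  exact H.R1 i

theorem E_le (F : ℝ) (i : ι) :
    E i ≤ (4 * σ * Kf * Real.exp (phF F (ell (sc i)) + 3 * h * ell (sc i))) *
      rr sc ell h Kf F i := by
  rw [← H.rr_mul]
  refine (H.E1 i).trans (mul_le_mul_of_nonneg_left (Real.exp_le_exp.2 ?_) H.s0.le)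
  have := H.x0 (sc i)
  linarith

variable {VV : J → Finset (Σ i, Option (V i))}

/-- **Typed norms by the rows of the root.** -/
theorem rows_num (hV : ∀ l ω, ω ∈ VV l ↔ sc ω.1 = l) {F : ℝ} (hF0 : 0 ≤ F)
    (hF : F ≤ (1 - G) * p) {l : J} {τ : List J} (hτ1 : 1 ≤ τ.length) (hτ : τ.length ≤ b) :
    ∑ ω ∈ Lt VV (l :: τ), Tn lam mu R E (ω : Multiset _) ^ 2 ≤
      Real.exp (((τ.map fun m => phF F (ell m) + 3 * h * ell m)).sum) *
        Real.exp (1 / 2 * ell l + 3 * h * ell l) := by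
  set A2 : ℝ := Real.exp (1 / 2 * ell l + 3 * h * ell l) with hA2
  have hA20 : 0 ≤ A2 := (Real.exp_pos _).le
  have hK : ∑ i with sc i = l, 4 * Real.exp (h * ell (sc i)) ^ 2 * (R i + E i) ≤ (√A2) ^ 2 := by
    rw [Real.sq_sqrt hA20]
    have h1 : ∀ i ∈ univ.filter (fun i => sc i = l),
        4 * Real.exp (h * ell (sc i)) ^ 2 * (R i + E i) ≤
          8 * σ * Real.exp (-(1 / 2) * ell l + 3 * h * ell l) := by
      intro i hi
      rw [Finset.mem_filter] at hi
      have h2 := H.R1 i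
      have h3 := H.E1 i
      rw [hi.2] at h2 h3 ⊢
      have h4 : Real.exp (-ell l + h * ell l) ≤ Real.exp (-(1 / 2) * ell l + h * ell l) :=
        Real.exp_le_exp.2 (by linarith [H.x0 l])
      have h5 : R i + E i ≤ 2 * (σ * Real.exp (-(1 / 2) * ell l + h * ell l)) := by
        have := mul_le_mul_of_nonneg_left h4 H.s0.le
        linarith
      have e : Real.exp (-(1 / 2) * ell l + 3 * h * ell l) =
          Real.exp (h * ell l) ^ 2 * Real.exp (-(1 / 2) * ell l + h * ell l) := by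
        rw [← Real.exp_nat_mul, ← Real.exp_add]
        congr 1
        push_cast
        ring
      rw [e]
      calc _ ≤ 4 * Real.exp (h * ell l) ^ 2 *
            (2 * (σ * Real.exp (-(1 / 2) * ell l + h * ell l))) :=
            mul_le_mul_of_nonneg_left h5 (by positivity)
        _ = _ := by ring
    refine (Finset.sum_le_sum h1).trans ?_
    rw [Finset.sum_const, nsmul_eq_mul]
    have h2 := H.card l
    have h3 : 0 ≤ 8 * σ * Real.exp (-(1 / 2) * ell l + 3 * h * ell l) := by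
      have := H.s0
      positivity
    calc _ ≤ Real.exp (ell l) * (8 * σ * Real.exp (-(1 / 2) * ell l + 3 * h * ell l)) :=
          mul_le_mul_of_nonneg_right h2 h3
      _ = 8 * σ * A2 := by
          rw [hA2, show 1 / 2 * ell l + 3 * h * ell l = ell l + (-(1 / 2) * ell l + 3 * h * ell l)
            by ring, Real.exp_add (ell l)]
          ring
      _ ≤ 1 * A2 := by
          apply mul_le_mul_of_nonneg_right _ hA20
          linarith [H.sig, H.s0]
      _ = A2 := one_mul _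
  have hb1 : ((b : ℕ) : ℝ) = b := rfl
  have key := typ_ext_rows (H.B F hF0 hF) (H.rr_nonneg F) (H.rr_le F) (H.rr_nonneg F)
    (b0 := b) le_rfl (s := √(2 / Kf)) (Real.sqrt_nonneg _) (H.coord_le F) H.small hV
    (fun i => (H.R0 i).le) (fun i => (H.E0 i).le)
    (q := fun m => 4 * σ * Kf * Real.exp (phF F (ell m) + 3 * h * ell m))
    (fun m => by have := H.s0; have := H.Kf0; positivity) (l := l) (τ := τ) hτ
    (fun i _ => H.R_le F i) (fun i _ => H.E_le F i) (A := √A2) (Real.sqrt_nonneg _) hK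
  refine key.trans ?_
  rw [pr_exp]
  exact num_core H.b1 H.Kf1 H.s0 H.s1 hτ hτ1 (Real.sq_sqrt hA20) hA20

/-- **Typed norms by the total at the top scale.** -/
theorem root_num (hV : ∀ l ω, ω ∈ VV l ↔ sc ω.1 = l) {F : ℝ} (hF0 : 0 ≤ F)
    (hF : F ≤ (1 - G) * p) {τ : List J} (hτ1 : 1 ≤ τ.length) (hτ : τ.length ≤ b) :
    ∑ ω ∈ Lt VV (s :: τ), Tn lam mu R E (ω : Multiset _) ^ 2 ≤
      Real.exp (((τ.map fun m => phF F (ell m) + 3 * h * ell m)).sum) *
        Real.exp (max 0 (F - 1 / 2 * ell s) + 3 * h * ell s) := by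
  set A2 : ℝ := Real.exp (max 0 (F - 1 / 2 * ell s) + 3 * h * ell s) with hA2
  have hA20 : 0 ≤ A2 := (Real.exp_pos _).le
  have hhs : 0 ≤ h * ell s := mul_nonneg H.h0.le (H.x0 s)
  have h0 : ∑ i with sc i = s, (R i * ∑ a, lam i a * g1 lam mu i a ^ 2 + E i) ≤ (√A2) ^ 2 := by
    rw [Real.sq_sqrt hA20]
    refine (H.lev s).trans (Real.exp_le_exp.2 ?_)
    have := le_max_left 0 (F - 1 / 2 * ell s)
    linarith
  set PP : ℝ := σ * Real.exp (F - 1 / 2 * ell s + 3 * h * ell s) with hPPd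
  have hB := H.B F hF0 hF
  have hI0 : ∀ i, 0 ≤ ∑ a, m1 mu i a * Iia (fun i => rate F (ell (sc i)) / Kf) mu i a := by
    intro i
    rw [H48.sum_Iia _ hB.law]
    exact Finset.sum_nonneg fun S _ => mul_nonneg
      (bw_nonneg (fun i => (hB.t0 i).le) hB.t1 S) (H48.MI_nonneg hB.law i S)
  have hPP : ∑ i with sc i = s, R i * Real.exp (h * ell (sc i)) *
      ∑ a, m1 mu i a * Iia (fun i => rate F (ell (sc i)) / Kf) mu i a ≤ PP := by
    have h1 : ∀ i ∈ univ.filter (fun i => sc i = s), R i * Real.exp (h * ell (sc i)) *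
        ∑ a, m1 mu i a * Iia (fun i => rate F (ell (sc i)) / Kf) mu i a ≤
        (σ * Real.exp (-(1 / 2) * ell s + 2 * h * ell s)) *
          ∑ a, m1 mu i a * Iia (fun i => rate F (ell (sc i)) / Kf) mu i a := by
      intro i hi
      rw [Finset.mem_filter] at hi
      have h2 := H.R1 i
      rw [hi.2] at h2 ⊢
      apply mul_le_mul_of_nonneg_right _ (hI0 i)
      have e : Real.exp (-(1 / 2) * ell s + 2 * h * ell s) =
          Real.exp (-(1 / 2) * ell s + h * ell s) * Real.exp (h * ell s) := by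
        rw [← Real.exp_add]
        congr 1
        ring
      rw [e]
      calc _ ≤ (σ * Real.exp (-(1 / 2) * ell s + h * ell s)) * Real.exp (h * ell s) :=
            mul_le_mul_of_nonneg_right h2 (Real.exp_pos _).le
        _ = _ := by ring
    refine (Finset.sum_le_sum h1).trans ?_
    rw [← Finset.mul_sum]
    have hs0 := H.s0
    calc _ ≤ (σ * Real.exp (-(1 / 2) * ell s + 2 * h * ell s)) * Real.exp (F + h * ell s) :=
          mul_le_mul_of_nonneg_left (H.T F hF0 hF) (by positivity)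
      _ = PP := by
          rw [hPPd, mul_assoc, ← Real.exp_add]
          congr 2
          ring
  have hPA : 12 * PP ≤ (√A2) ^ 2 := by
    rw [Real.sq_sqrt hA20, hPPd, hA2]
    have h1 : Real.exp (F - 1 / 2 * ell s + 3 * h * ell s) ≤
        Real.exp (max 0 (F - 1 / 2 * ell s) + 3 * h * ell s) :=
      Real.exp_le_exp.2 (by have := le_max_right 0 (F - 1 / 2 * ell s); linarith)
    have h2 := H.sig
    have h3 := H.s0
    calc 12 * (σ * Real.exp (F - 1 / 2 * ell s + 3 * h * ell s))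
        ≤ 1 * Real.exp (F - 1 / 2 * ell s + 3 * h * ell s) := by
          rw [← mul_assoc]
          apply mul_le_mul_of_nonneg_right _ (Real.exp_pos _).le
          linarith
      _ ≤ _ := by rw [one_mul]; exact h1
  have key := typ_ext_root hB (H.rr_nonneg F) (H.rr_le F) (H.rr_nonneg F)
    (b0 := b) le_rfl (s := √(2 / Kf)) (Real.sqrt_nonneg _) (H.coord_le F) H.small hV
    (fun i => (H.R0 i).le) (fun i => (H.E0 i).le)
    (q := fun m => 4 * σ * Kf * Real.exp (phF F (ell m) + 3 * h * ell m))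
    (fun m => by have := H.s0; have := H.Kf0; positivity) (l := s) (τ := τ) hτ
    (fun i _ => H.R_le F i) (fun i _ => H.E_le F i) (A := √A2) (Real.sqrt_nonneg _) h0 hPP hPA
  refine key.trans ?_
  rw [pr_exp]
  exact num_core H.b1 H.Kf1 H.s0 H.s1 hτ hτ1 (Real.sq_sqrt hA20) hA20

/-- **Typed norms of order at least three whose largest leg is the top scale.** -/
theorem hs_top (hV : ∀ l ω, ω ∈ VV l ↔ sc ω.1 = l) (hsp : ell s ≤ (2 - 4 * G) * p)
    {τ : List J} (hs : s ∈ τ) (htop : ∀ m ∈ τ, ell m ≤ ell s) (h3 : 3 ≤ τ.length)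
    (hτ : τ.length ≤ b) :
    ∑ ω ∈ Lt VV τ, Tn lam mu R E (ω : Multiset _) ^ 2 ≤
      Real.exp (-(G / 96 - 3 * h) * (τ.map ell).sum) := by
  classical
  have hG0 := H.G0
  have hG1 := H.G1
  have hp := H.p0
  have hGp : 0 ≤ G * p := by positivity
  -- the smallest leg
  have hne : τ.toFinset.Nonempty := ⟨s, List.mem_toFinset.2 hs⟩
  obtain ⟨l, hl, hlmin⟩ := Finset.exists_min_image τ.toFinset ell hne
  have hl' : l ∈ τ := List.mem_toFinset.1 hl
  have hlmin' : ∀ m ∈ τ, ell l ≤ ell m := fun m hm => hlmin m (List.mem_toFinset.2 hm)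
  by_cases hsmall : ell l ≤ G / 8 * p
  · -- branch (I)
    have hperm : τ.Perm (l :: τ.erase l) := List.perm_cons_erase hl'
    have hlen : (τ.erase l).length = τ.length - 1 := List.length_erase_of_mem hl'
    rw [typ_perm (V := VV) hperm fun S => Tn lam mu R E S ^ 2]
    have hF : (1 - G) * p ≤ (1 - G) * p := le_rfl
    have hF0 : 0 ≤ (1 - G) * p := mul_nonneg (by linarith) hp
    refine (H.rows_num hV hF0 hF (l := l) (τ := τ.erase l) (by omega) (by omega)).trans ?_
    rw [← Real.exp_add]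
    apply Real.exp_le_exp.2
    have hsum : (τ.map ell).sum = ell l + ((τ.erase l).map ell).sum := by
      rw [(hperm.map ell).sum_eq]
      simp
    have h1 := exp_one hG0 hG1 hp (H.x0 l) hsmall (τ := τ.erase l)
      (fun m hm => hlmin' m (List.mem_of_mem_erase hm))
      (fun m hm => (htop m (List.mem_of_mem_erase hm)).trans hsp) (by omega)
    have h2 : ((τ.erase l).map fun m => phF ((1 - G) * p) (ell m) + 3 * h * ell m).sum =
        ((τ.erase l).map fun m => phF ((1 - G) * p) (ell m)).sum +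
          3 * h * ((τ.erase l).map ell).sum := sum_map_add_mul _ _ _ _
    rw [h2, hsum]
    have h3 : 0 ≤ ((τ.erase l).map ell).sum := by
      have := sum_map_le (f := fun _ => (0 : ℝ)) (g := ell) (τ.erase l) fun m _ => H.x0 m
      simpa using this
    have h4 : 0 ≤ G * (ell l + ((τ.erase l).map ell).sum) :=
      mul_nonneg hG0.le (add_nonneg (H.x0 l) h3)
    nlinarith
  · -- branch (II)
    push Not at hsmall
    have hperm : τ.Perm (s :: τ.erase s) := List.perm_cons_erase hs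
    have hlen : (τ.erase s).length = τ.length - 1 := List.length_erase_of_mem hs
    rw [typ_perm (V := VV) hperm fun S => Tn lam mu R E S ^ 2]
    set F : ℝ := 1 / 2 * ell s + G / 16 * p with hFd
    have hF : F ≤ (1 - G) * p := by
      rw [hFd]
      nlinarith
    have hF0 : 0 ≤ F := by
      rw [hFd]
      have := H.x0 s
      nlinarith
    refine (H.root_num hV hF0 hF (τ := τ.erase s) (by omega) (by omega)).trans ?_
    rw [← Real.exp_add]
    apply Real.exp_le_exp.2
    have hsum : (τ.map ell).sum = ell s + ((τ.erase s).map ell).sum := by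
      rw [(hperm.map ell).sum_eq]
      simp
    have h1 := exp_two hG0 hp hsp (τ := τ.erase s)
      (fun m hm => hsmall.le.trans (hlmin' m (List.mem_of_mem_erase hm)))
      (fun m hm => htop m (List.mem_of_mem_erase hm)) (by omega)
    have h2 : ((τ.erase s).map fun m => phF F (ell m) + 3 * h * ell m).sum =
        ((τ.erase s).map fun m => phF F (ell m)).sum +
          3 * h * ((τ.erase s).map ell).sum := sum_map_add_mul _ _ _ _
    rw [h2, hsum]
    linarith

end TopH

end Vale.Agent.P042.H365
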