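import Vale.Agent.P042.H365.Marg
import Vale.Agent.P042.H365.HsTop
import Vale.Agent.P042.H284.Glue

/-!
# P042, row C.4: from the top scales to `BdT`

`TB` = the typed bounds with one top scale; the bounds of a law are those of its marginals.
-/

set_option linter.unusedSectionVars false

namespace Vale.Agent.P042.H365

open Finset Vale.Agent.P042.H232 Vale.Agent.P042.H461 Vale.Agent.P042.H416 Vale.Agent.P042.H742
open Vale.Agent.P042.H779 (marg m1)
open Vale.Agent.P042.H284 (Lt sum_Lt_nil sum_Lt_cons sum_Lt_perm pr pr_nil pr_cons pr_nonneg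
  pr_perm BV BdT VJ)

section abs

universe u v

variable {Ω : Type u} {J : Type v} [Fintype Ω]

/-- Typed bounds with top scale `s`. -/
structure TB (VV : J → Finset Ω) (ell : J → ℝ) (s : J) (b : ℕ) (g c1 c2 : ℝ)
    (T : Multiset Ω → ℝ) : Prop where
  two : ∀ l, ell l ≤ ell s → ∑ ω ∈ Lt VV [s, l], T (ω : Multiset Ω) ^ 2 ≤
    Real.exp (g * ell l - c2 * (ell s - ell l)) ^ 2
  op : ∀ l, ell l ≤ ell s → BV (Real.exp (g * ell l - (c1 + g) * ell s)) (VV s) (VV l)
    fun p q => T (p ::ₘ q ::ₘ 0)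
  hs : ∀ τ : List J, s ∈ τ → (∀ m ∈ τ, ell m ≤ ell s) → 3 ≤ τ.length → τ.length ≤ b →
    ∑ ω ∈ Lt VV τ, T (ω : Multiset Ω) ^ 2 ≤ Real.exp (-((c1 + g) * (τ.map ell).sum)) ^ 2

theorem Lt_empty {α : Type u} {VV : J → Finset α} : ∀ {τ : List J} {l : J}, l ∈ τ → VV l = ∅ →
    ∀ f : List α → ℝ, ∑ ω ∈ Lt VV τ, f ω = 0
  | [], l, hl, _, _ => by simp at hl
  | m :: τ, l, hl, h, f => by
    rw [sum_Lt_cons]
    rcases List.mem_cons.1 hl with h1 | h1
    · rw [← h1, h, Finset.sum_empty]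
    · exact Finset.sum_eq_zero fun a _ => Lt_empty h1 h _

theorem BV.mono {w w' : ℝ} {X Y : Finset Ω} {ζ : Ω → Ω → ℝ} (h : BV w X Y ζ) (hw : w ≤ w') :
    BV w' X Y ζ := fun u v => by
  refine (h u v).trans ?_
  have h1 : 0 ≤ √(∑ p ∈ X, u p ^ 2) * √(∑ q ∈ Y, v q ^ 2) := by positivity
  calc w * √(∑ p ∈ X, u p ^ 2) * √(∑ q ∈ Y, v q ^ 2) =
        w * (√(∑ p ∈ X, u p ^ 2) * √(∑ q ∈ Y, v q ^ 2)) := by ring
    _ ≤ w' * (√(∑ p ∈ X, u p ^ 2) * √(∑ q ∈ Y, v q ^ 2)) := mul_le_mul_of_nonneg_right hw h1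
    _ = _ := by ring

/-- The operator norm is at most the Hilbert-Schmidt norm. -/
theorem BV_of_hs {w : ℝ} (hw : 0 ≤ w) {X Y : Finset Ω} {ζ : Ω → Ω → ℝ}
    (h : ∑ p ∈ X, ∑ q ∈ Y, ζ p q ^ 2 ≤ w ^ 2) : BV w X Y ζ := fun u v => by
  have h1 : ∑ p ∈ X, ∑ q ∈ Y, u p * ζ p q * v q = ∑ z ∈ X ×ˢ Y, ζ z.1 z.2 * (u z.1 * v z.2) := by
    rw [Finset.sum_product]
    exact Finset.sum_congr rfl fun p _ => Finset.sum_congr rfl fun q _ => by ring
  rw [h1]
  have h2 := Finset.sum_mul_sq_le_sq_mul_sq (X ×ˢ Y) (fun z => ζ z.1 z.2)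
    (fun z => u z.1 * v z.2)
  have h3 : ∑ z ∈ X ×ˢ Y, (u z.1 * v z.2) ^ 2 = (∑ p ∈ X, u p ^ 2) * ∑ q ∈ Y, v q ^ 2 := by
    rw [Finset.sum_product, Finset.sum_mul]
    refine Finset.sum_congr rfl fun p _ => ?_
    rw [Finset.mul_sum]
    exact Finset.sum_congr rfl fun q _ => by ring
  have h4 : ∑ z ∈ X ×ˢ Y, ζ z.1 z.2 ^ 2 ≤ w ^ 2 := by
    rw [Finset.sum_product]
    exact h
  have hu0 : 0 ≤ ∑ p ∈ X, u p ^ 2 := Finset.sum_nonneg fun _ _ => sq_nonneg _
  have hv0 : 0 ≤ ∑ q ∈ Y, v q ^ 2 := Finset.sum_nonneg fun _ _ => sq_nonneg _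
  refine abs_le_of_sq_le_sq ?_ (by positivity)
  rw [h3] at h2
  calc _ ≤ _ := h2
    _ ≤ w ^ 2 * ((∑ p ∈ X, u p ^ 2) * ∑ q ∈ Y, v q ^ 2) :=
        mul_le_mul_of_nonneg_right h4 (mul_nonneg hu0 hv0)
    _ = _ := by
        rw [mul_pow, mul_pow, Real.sq_sqrt hu0, Real.sq_sqrt hv0]
        ring

/-- The bound of order two. -/
noncomputable def NN (ell : J → ℝ) (g c2 : ℝ) (l m : J) : ℝ :=
  Real.exp (g * min (ell l) (ell m) - c2 * |ell l - ell m|)

theorem NN0 (ell : J → ℝ) (g c2 : ℝ) (l m : J) : 0 ≤ NN ell g c2 l m := (Real.exp_pos _).le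

theorem NN1 {ell : J → ℝ} (h : ∀ l, 0 ≤ ell l) {g c2 : ℝ} (hg : 0 ≤ g) (hc : 0 ≤ c2) (l m : J) :
    NN ell g c2 l m ≤ Real.exp (g * ell l) * Real.exp (g * ell m) := by
  unfold NN
  rw [← Real.exp_add]
  apply Real.exp_le_exp.2
  have h1 : min (ell l) (ell m) ≤ ell l := min_le_left _ _
  have h2 := mul_le_mul_of_nonneg_left h1 hg
  have h3 := mul_nonneg hg (h m)
  have h4 := mul_nonneg hc (abs_nonneg (ell l - ell m))
  linarith

theorem NN2 {ell : J → ℝ} {g c2 : ℝ} {l m : J} (h : ell l ≤ ell m) :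
    NN ell g c2 l m ≤ Real.exp (g * ell l - c2 * (ell m - ell l)) := by
  unfold NN
  rw [min_eq_left h, abs_of_nonpos (by linarith)]
  apply Real.exp_le_exp.2
  linarith

theorem NN_eq {ell : J → ℝ} {g c2 : ℝ} {l s : J} (h : ell l ≤ ell s) :
    NN ell g c2 s l = Real.exp (g * ell l - c2 * (ell s - ell l)) := by
  unfold NN
  rw [min_eq_right h, abs_of_nonneg (by linarith)]

theorem NN_comm (ell : J → ℝ) (g c2 : ℝ) (l m : J) : NN ell g c2 l m = NN ell g c2 m l := by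
  unfold NN
  rw [min_comm, abs_sub_comm]

/-- **`BdT` from the top scales.** -/
theorem bdT_of_TB [DecidableEq J] {VV : J → Finset Ω} {ell : J → ℝ} {b : ℕ} {g c1 c2 : ℝ}
    {T : Multiset Ω → ℝ} {q : J → Prop} (hVV : ∀ l, ¬ q l → VV l = ∅)
    (hq : ∀ l, q l → TB VV ell l b g c1 c2 T)
    (hone : ∀ l, q l → ∑ ω ∈ Lt VV [l], T (ω : Multiset Ω) ^ 2 ≤ Real.exp (g * ell l) ^ 2)
    (hg : 0 ≤ g) (hc1 : 0 ≤ c1) :
    BdT VV b (fun l => Real.exp (g * ell l)) (fun l => Real.exp (-(c1 * ell l)))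
      (NN ell g c2) T where
  one l := by
    by_cases h : q l
    · exact hone l h
    · rw [Lt_empty (List.mem_singleton.2 rfl) (hVV l h)]
      positivity
  two l m := by
    by_cases hl : q l
    swap
    · rw [Lt_empty (l := l) (by simp) (hVV l hl)]
      exact sq_nonneg _
    by_cases hm : q m
    swap
    · rw [Lt_empty (l := m) (by simp) (hVV m hm)]
      exact sq_nonneg _
    rcases le_total (ell l) (ell m) with h | h
    · have h1 := (hq m hm).two l h
      rw [NN_comm, NN_eq h]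
      rw [typ_perm (V := VV) (List.Perm.swap m l []) fun S => T S ^ 2]
      exact h1
    · rw [NN_eq h]
      exact (hq l hl).two m h
  op l m := by
    have hw : Real.exp (g * ell l) * Real.exp (-(c1 * ell m)) / Real.exp (g * ell m) =
        Real.exp (g * ell l - (c1 + g) * ell m) := by
      rw [← Real.exp_add, ← Real.exp_sub]
      congr 1
      ring
    rw [hw]
    by_cases hl : q l
    swap
    · intro u v
      rw [hVV l hl]
      simp
    by_cases hm : q m
    swap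
    · intro u v
      rw [hVV m hm]
      simp
    rcases le_total (ell l) (ell m) with h | h
    · have h1 := ((hq m hm).op l h).swap
      have h2 : (fun p q => T (q ::ₘ p ::ₘ 0)) = fun p q => T ((p ::ₘ q ::ₘ 0 : Multiset Ω)) := by
        funext p q
        rw [Multiset.cons_swap]
      rw [h2] at h1
      exact h1
    · refine BV.mono ((hq l hl).op m h) ?_
      apply Real.exp_le_exp.2
      have h1 := mul_le_mul_of_nonneg_left h hg
      have h2 := mul_le_mul_of_nonneg_left h (add_nonneg hc1 hg)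
      linarith
  hs τ h3 hb := by
    have hpr : pr (fun l => Real.exp (-(c1 * ell l)) / Real.exp (g * ell l)) τ =
        Real.exp (-((c1 + g) * (τ.map ell).sum)) := by
      have h1 : (fun l => Real.exp (-(c1 * ell l)) / Real.exp (g * ell l)) =
          fun l => 1 * Real.exp (-(c1 + g) * ell l) := by
        funext l
        rw [← Real.exp_sub, one_mul]
        congr 1
        ring
      rw [h1, pr_exp, one_pow, one_mul, sum_map_smul]
      congr 1
      ring
    rw [hpr]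
    by_cases hall : ∀ l ∈ τ, q l
    · have hne : τ.toFinset.Nonempty := by
        rw [List.toFinset_nonempty_iff]
        rintro rfl
        simp at h3
      obtain ⟨s, hs, hmax⟩ := Finset.exists_max_image τ.toFinset ell hne
      have hs' := List.mem_toFinset.1 hs
      exact (hq s (hall s hs')).hs τ hs' (fun m hm => hmax m (List.mem_toFinset.2 hm)) h3 hb
    · push Not at hall
      obtain ⟨l, hl, hl'⟩ := hall
      rw [Lt_empty hl (hVV l hl')]
      positivity

end abs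

section tr

variable {ι : Type*} [Fintype ι] [DecidableEq ι] {V : ι → Type*} [∀ i, Fintype (V i)]
  [∀ i, DecidableEq (V i)] {p : ι → Prop} [DecidablePred p] {lam : ∀ i, V i → ℝ}
  {mu : (∀ i, V i) → ℝ}

/-- The embedding of the extended letters. -/
def eso (p : ι → Prop) (ω : Σ i : {i // p i}, Option (V i)) : Σ i, Option (V i) := ⟨ω.1, ω.2⟩

theorem eso_inj : Function.Injective (eso (V := V) p) := by
  rintro ⟨⟨i, hi⟩, a⟩ ⟨⟨j, hj⟩, b⟩ h
  have h1 : i = j := congrArg Sigma.fst h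
  subst h1
  have h2 : a = b := eq_of_heq (Sigma.mk.inj h).2
  subst h2
  rfl

theorem uo_eso (ω : Σ i : {i // p i}, Option (V i)) (x : ∀ i, V i) :
    uo lam (eso p ω) x = uo (lsub p lam) ω (rsub p x) := by
  obtain ⟨⟨i, hi⟩, a⟩ := ω
  cases a with
  | none => rfl
  | some a => rfl

theorem dst_eso (S : Multiset (Σ i : {i // p i}, Option (V i))) :
    Dst Sigma.fst (S.map (eso p)) ↔ Dst Sigma.fst S := by
  unfold Dst
  have h1 : (S.map (eso p)).map Sigma.fst = (S.map Sigma.fst).map Subtype.val := by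
    rw [Multiset.map_map, Multiset.map_map]
    rfl
  rw [h1]
  exact Multiset.nodup_map_iff_of_injective Subtype.val_injective

theorem Mo_eso (S : Multiset (Σ i : {i // p i}, Option (V i))) :
    Mo lam mu (S.map (eso p)) = Mo (lsub p lam) (msub p mu) S := by
  unfold Mo mom
  by_cases h : Dst Sigma.fst S
  · rw [if_pos h, if_pos ((dst_eso S).2 h)]
    unfold msub
    rw [sum_push]
    refine Finset.sum_congr rfl fun x _ => ?_
    rw [Multiset.map_map]
    congr 2
    exact Multiset.map_congr rfl fun ω _ => uo_eso ω x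
  · rw [if_neg h, if_neg fun h' => h ((dst_eso S).1 h')]

theorem wo_eso (R E : ι → ℝ) (ω : Σ i : {i // p i}, Option (V i)) :
    wo lam R E (eso p ω) = wo (lsub p lam) (fun i => R i) (fun i => E i) ω := by
  obtain ⟨⟨i, hi⟩, a⟩ := ω
  cases a with
  | none => rfl
  | some a => rfl

/-- **The normalised cumulants of the marginal law.** -/
theorem Tn_eso (hmu : ∑ x, mu x = 1) (R E : ι → ℝ)
    {S : Multiset (Σ i : {i // p i}, Option (V i))} (hS : S ≠ 0) :
    Tn lam mu R E (S.map (eso p)) =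
      Tn (lsub p lam) (msub p mu) (fun i => R i) (fun i => E i) S := by
  unfold Tn
  rw [cumT_map (M := Mo lam mu) (M' := Mo (lsub p lam) (msub p mu)) (eso p) Mo_eso
    (mom_zero Sigma.fst univ mu (uo lam) hmu) hS, Multiset.map_map]
  congr 2
  exact Multiset.map_congr rfl fun ω _ => congrArg Real.sqrt (wo_eso R E ω)

theorem sum_Lt_eso {Λ : Type*} {X : Λ → Finset (Σ i, Option (V i))}
    {X' : Λ → Finset (Σ i : {i // p i}, Option (V i))} :
    ∀ (τ : List Λ) (_ : ∀ l ∈ τ, X l = (X' l).map ⟨eso p, eso_inj⟩)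
      (F : List (Σ i, Option (V i)) → ℝ),
      ∑ ω ∈ Lt X τ, F ω = ∑ ω ∈ Lt X' τ, F (ω.map (eso p))
  | [], _, F => by
    rw [sum_Lt_nil, sum_Lt_nil]
    rfl
  | l :: τ, hτ, F => by
    rw [sum_Lt_cons, sum_Lt_cons, hτ l (by simp), Finset.sum_map]
    exact Finset.sum_congr rfl fun a _ =>
      sum_Lt_eso τ (fun l hl => hτ l (List.mem_cons_of_mem _ hl)) fun ω => F (eso p a :: ω)

theorem typ_eso (hmu : ∑ x, mu x = 1) (R E : ι → ℝ) {Λ : Type*}
    {X : Λ → Finset (Σ i, Option (V i))} {X' : Λ → Finset (Σ i : {i // p i}, Option (V i))}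
    {τ : List Λ} (hτ0 : τ ≠ []) (hτ : ∀ l ∈ τ, X l = (X' l).map ⟨eso p, eso_inj⟩) :
    ∑ ω ∈ Lt X τ, Tn lam mu R E (ω : Multiset _) ^ 2 =
      ∑ ω ∈ Lt X' τ, Tn (lsub p lam) (msub p mu) (fun i => R i) (fun i => E i)
        (ω : Multiset _) ^ 2 := by
  rw [sum_Lt_eso τ hτ]
  refine Finset.sum_congr rfl fun ω hω => ?_
  have h1 : (ω : Multiset (Σ i : {i // p i}, Option (V i))) ≠ 0 := by
    intro h
    have h2 := H284.length_of_mem_Lt hω
    have h3 : ω = [] := by simpa using h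
    rw [h3] at h2
    exact hτ0 (List.length_eq_zero_iff.1 h2.symm)
  rw [← Tn_eso hmu R E h1]
  rfl

theorem BV_eso (hmu : ∑ x, mu x = 1) (R E : ι → ℝ) {X Y : Finset (Σ i, Option (V i))}
    {X' Y' : Finset (Σ i : {i // p i}, Option (V i))} (hX : X = X'.map ⟨eso p, eso_inj⟩)
    (hY : Y = Y'.map ⟨eso p, eso_inj⟩) {w : ℝ}
    (h : BV w X' Y' fun a b => Tn (lsub p lam) (msub p mu) (fun i => R i) (fun i => E i)
      (a ::ₘ b ::ₘ 0)) : BV w X Y fun a b => Tn lam mu R E (a ::ₘ b ::ₘ 0) := by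
  intro u v
  rw [hX, hY, Finset.sum_map, Finset.sum_map, Finset.sum_map]
  have h1 := h (fun a => u (eso p a)) (fun a => v (eso p a))
  refine le_trans (le_of_eq ?_) h1
  congr 1
  refine Finset.sum_congr rfl fun a _ => ?_
  rw [Finset.sum_map]
  refine Finset.sum_congr rfl fun b _ => ?_
  have h2 := Tn_eso (p := p) (lam := lam) hmu R E (S := a ::ₘ b ::ₘ 0) (Multiset.cons_ne_zero)
  beta_reduce
  rw [← h2]
  rfl

end tr

end Vale.Agent.P042.H365
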