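import Vale.Agent.P042.H365.LawT
import Vale.Agent.P042.H232.BdFin
import Vale.Agent.P042.H284.SubK

/-!
# P042, row C.4: existence of `BTS` from the hypotheses on the laws
-/

set_option linter.unusedSectionVars false

namespace Vale.Agent.P042.H365

open Finset Vale.Agent.P042.H232 Vale.Agent.P042.H461 Vale.Agent.P042.H416 Vale.Agent.P042.H742
open Vale.Agent.P042.H779 (marg m1)
open Vale.Agent.P042.H284 (Lt sum_Lt_nil sum_Lt_cons sum_Lt_perm pr pr_nil pr_cons pr_nonneg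
  pr_perm BV BdT VJ BTS)

section top

variable {ι : Type*} [Fintype ι] [DecidableEq ι] {V : ι → Type*} [∀ i, Fintype (V i)]
  [∀ i, DecidableEq (V i)] {J : Type*} [DecidableEq J] {lam : ∀ i, V i → ℝ}
  {mu : (∀ i, V i) → ℝ} {sc : ι → J} {ell : J → ℝ} {s : J} {b : ℕ}
  {p G h Kf σ L Λ ε κ δ g c1 c2 : ℝ} {R E : ι → ℝ}

/-- **The typed bounds with one top scale at most `P^{2-4G}`.** -/
theorem tb_of_top (H : TopH lam mu sc ell s b p G h Kf σ L Λ ε κ δ R E)
    {VV : J → Finset (Σ i, Option (V i))} (hV : ∀ l ω, ω ∈ VV l ↔ sc ω.1 = l)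
    (hs : ell s ≤ (2 - 4 * G) * p) (hh : h ≤ 1 / 8) (hg : 8 * h ≤ g) (hc1 : 0 ≤ c1)
    (hc2 : 2 * c2 ≤ 1 / 2 - 4 * h) (hc : 4 * (c1 + g) ≤ G - 8 * h)
    (hcs : 2 * (c1 + g) ≤ G / 96 - 3 * h) :
    TB VV ell s b g c1 c2 (Tn lam mu R E) where
  two l hl := by
    have h1 := (fin_two H hV hg hh hc2 hl).1
    refine h1.trans (le_of_eq ?_)
    have h2 : Nn ell g c2 s l = NN ell g c2 s l := rfl
    rw [h2, NN_eq hl]
  op l hl := by
    have hg0 : 0 ≤ g := by linarith [H.h0]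
    have h1 := (fin_op H hs hV hg0 hc1 hc l s).swap
    have h2 : (fun p q => Tn lam mu R E (q ::ₘ p ::ₘ 0)) =
        fun p q => Tn lam mu R E ((p ::ₘ q ::ₘ 0 : Multiset _)) := by
      funext p q
      rw [Multiset.cons_swap]
    rw [h2] at h1
    refine BV.mono h1 (le_of_eq ?_)
    rw [← Real.exp_add, ← Real.exp_sub]
    congr 1
    ring
  hs τ hsτ htop h3 hb := by
    refine (H.hs_top hV hs hsτ htop h3 hb).trans ?_
    rw [← Real.exp_nat_mul]
    apply Real.exp_le_exp.2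
    have h1 : 0 ≤ (τ.map ell).sum := by
      have := sum_map_le (f := fun _ => (0 : ℝ)) (g := ell) τ fun m _ => H.x0 m
      simpa using this
    have h2 := mul_le_mul_of_nonneg_right hcs h1
    push_cast
    linarith

end top

section tr2

variable {ι : Type*} [Fintype ι] [DecidableEq ι] {V : ι → Type*} [∀ i, Fintype (V i)]
  [∀ i, DecidableEq (V i)] {p : ι → Prop} [DecidablePred p] {lam : ∀ i, V i → ℝ}
  {mu : (∀ i, V i) → ℝ}

theorem BV_eso' (hmu : ∑ x, mu x = 1) (R E : ι → ℝ) {X Y : Finset (Σ i, Option (V i))}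
    {X' Y' : Finset (Σ i : {i // p i}, Option (V i))} (hX : X = X'.map ⟨eso p, eso_inj⟩)
    (hY : Y = Y'.map ⟨eso p, eso_inj⟩) {w : ℝ}
    (h : BV w X Y fun a b => Tn lam mu R E (a ::ₘ b ::ₘ 0)) :
    BV w X' Y' fun a b => Tn (lsub p lam) (msub p mu) (fun i => R i) (fun i => E i)
      (a ::ₘ b ::ₘ 0) := by
  intro u v
  have h1 := h (Function.extend (eso p) u 0) (Function.extend (eso p) v 0)
  rw [hX, hY, Finset.sum_map, Finset.sum_map, Finset.sum_map] at h1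
  have hu : ∀ a, Function.extend (eso (V := V) p) u 0 (eso p a) = u a := fun a =>
    eso_inj.extend_apply u 0 a
  have hv : ∀ a, Function.extend (eso (V := V) p) v 0 (eso p a) = v a := fun a =>
    eso_inj.extend_apply v 0 a
  simp only [Function.Embedding.coeFn_mk, Finset.sum_map, hu, hv] at h1
  refine le_trans (le_of_eq ?_) h1
  congr 1
  refine Finset.sum_congr rfl fun a _ => Finset.sum_congr rfl fun b _ => ?_
  have h2 := Tn_eso (p := p) (lam := lam) hmu R E (S := a ::ₘ b ::ₘ 0) (Multiset.cons_ne_zero)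
  beta_reduce
  rw [← h2]
  rfl

variable {J : Type*} [Fintype J] [DecidableEq J] {sc : ι → J}

/-- the letters of one type -/
def VF (V : ι → Type*) [∀ i, Fintype (V i)] (sc : ι → J) (l : J) : Finset (Σ i, Option (V i)) :=
  univ.filter fun ω : Σ i, Option (V i) => sc ω.1 = l

theorem mem_VF (l : J) (ω : Σ i, Option (V i)) : ω ∈ VF V sc l ↔ sc ω.1 = l := by
  unfold VF
  rw [Finset.mem_filter]
  exact ⟨fun h => h.2, fun h => ⟨Finset.mem_univ _, h⟩⟩

/-- the letters of one type, of the marginal law -/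
def VS (V : ι → Type*) [∀ i, Fintype (V i)] (p : ι → Prop) [DecidablePred p] (sc : ι → J)
    (l : J) : Finset (Σ i : {i // p i}, Option (V i)) :=
  univ.filter fun ω : Σ i : {i // p i}, Option (V i) => sc ω.1 = l

theorem mem_VS (l : J) (ω : Σ i : {i // p i}, Option (V i)) : ω ∈ VS V p sc l ↔ sc ω.1 = l := by
  unfold VS
  rw [Finset.mem_filter]
  exact ⟨fun h => h.2, fun h => ⟨Finset.mem_univ _, h⟩⟩

theorem VF_eq {l : J} (h : ∀ i, sc i = l → p i) :
    VF V sc l = (VS V p sc l).map ⟨eso p, eso_inj⟩ := by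
  ext ω
  rw [mem_VF, Finset.mem_map]
  constructor
  · intro h1
    obtain ⟨i, a⟩ := ω
    exact ⟨⟨⟨i, h i h1⟩, a⟩, (mem_VS _ _).2 h1, rfl⟩
  · rintro ⟨ω', h1, rfl⟩
    exact (mem_VS _ _).1 h1

variable {ell : J → ℝ} {b : ℕ} {g c1 c2 : ℝ}

theorem tb_up (hmu : ∑ x, mu x = 1) (R E : ι → ℝ) {s : J}
    (hp : ∀ l, ell l ≤ ell s → ∀ i, sc i = l → p i)
    (H : TB (VS V p sc) ell s b g c1 c2
      (Tn (lsub p lam) (msub p mu) (fun i => R i) (fun i => E i))) :
    TB (VF V sc) ell s b g c1 c2 (Tn lam mu R E) where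
  two l hl := by
    rw [typ_eso (p := p) hmu R E (X' := VS V p sc) (by simp) (fun m hm => ?_)]
    · exact H.two l hl
    · rcases List.mem_cons.1 hm with h1 | h1
      · rw [h1]; exact VF_eq (hp s le_rfl)
      · rw [List.mem_singleton.1 h1]; exact VF_eq (hp l hl)
  op l hl := BV_eso (p := p) hmu R E (VF_eq (hp s le_rfl)) (VF_eq (hp l hl)) (H.op l hl)
  hs τ hs htop h3 hb := by
    rw [typ_eso (p := p) hmu R E (X' := VS V p sc) (by rintro rfl; simp at h3)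
      (fun m hm => VF_eq (hp m (htop m hm)))]
    exact H.hs τ hs htop h3 hb

theorem tb_down (hmu : ∑ x, mu x = 1) (R E : ι → ℝ) {s : J}
    (hp : ∀ l, ell l ≤ ell s → ∀ i, sc i = l → p i)
    (H : TB (VF V sc) ell s b g c1 c2 (Tn lam mu R E)) :
    TB (VS V p sc) ell s b g c1 c2
      (Tn (lsub p lam) (msub p mu) (fun i => R i) (fun i => E i)) where
  two l hl := by
    rw [← typ_eso (p := p) hmu R E (X := VF V sc) (X' := VS V p sc) (by simp) (fun m hm => ?_)]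
    · exact H.two l hl
    · rcases List.mem_cons.1 hm with h1 | h1
      · rw [h1]; exact VF_eq (hp s le_rfl)
      · rw [List.mem_singleton.1 h1]; exact VF_eq (hp l hl)
  op l hl := BV_eso' (p := p) hmu R E (VF_eq (hp s le_rfl)) (VF_eq (hp l hl)) (H.op l hl)
  hs τ hs htop h3 hb := by
    rw [← typ_eso (p := p) hmu R E (X := VF V sc) (X' := VS V p sc) (by rintro rfl; simp at h3)
      (fun m hm => VF_eq (hp m (htop m hm)))]
    exact H.hs τ hs htop h3 hb

end tr2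

section fin

variable {ι : Type*} [Fintype ι] [DecidableEq ι] {V : ι → Type*} [∀ i, Fintype (V i)]
  [∀ i, DecidableEq (V i)] {J : Type*} [Fintype J] [DecidableEq J]
  {lam : ∀ i, V i → ℝ} {mu mu' : (∀ i, V i) → ℝ} {sc : ι → J} {sn : J → ℕ} {ell : J → ℝ}
  {b0 : ℕ} {p G h A0 : ℝ} {Kf : ℕ → J → ℝ} {lm aa : J → ℝ} {cc : J → ι → ℝ}
  {ok : J → Finset ι → Prop}

/-- The numbers of the gains. -/
structure NumG (G h g c1 c2 : ℝ) : Prop where
  hh : h ≤ 1 / 8
  hg : 8 * h ≤ g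
  c10 : 0 ≤ c1
  c20 : g + c1 ≤ c2
  c21 : 2 * c2 ≤ 1 / 2 - 4 * h
  hc : 4 * (c1 + g) ≤ G - 8 * h
  hcs : 2 * (c1 + g) ≤ G / 96 - 3 * h

/-- the weights of the letters -/
noncomputable def RR (sc : ι → J) (ell : J → ℝ) (h σ : ℝ) (i : ι) : ℝ :=
  σ * Real.exp (-(1 / 2) * ell (sc i) + h * ell (sc i))

noncomputable def EE (sc : ι → J) (ell : J → ℝ) (h σ : ℝ) (i : ι) : ℝ :=
  σ * Real.exp (-ell (sc i) + h * ell (sc i))

/-- **`BdT` of a marginal law, from the hypotheses on the full law.** -/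
theorem bdT_law (H : LawH lam mu sc sn ell b0 p G h A0 Kf lm aa cc ok)
    (N : NumL sn ell p G h A0) {g c1 c2 : ℝ} (Ng : NumG G h g c1 c2) {b : ℕ} (hb : 1 ≤ b)
    (hb0 : b ≤ b0) (j : J) {σ : ℝ} (hσ : 0 < σ)
    (hs1 : ∀ s, sn s ≤ sn j → 1000 * Kf b s * σ * (b : ℝ) ^ 4 ≤ 1)
    (lev : ∀ l, ∑ i with sc i = l, (RR sc ell h σ i * ∑ a, lam i a * g1 lam mu i a ^ 2 +
      EE sc ell h σ i) ≤ Real.exp (2 * h * ell l))
    (hIII : ∀ s, sn s ≤ sn j → (2 - 4 * G) * p < ell s →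
      TB (VS V (fun i => sn (sc i) ≤ sn s) sc) ell s b g c1 c2
        (Tn (lsub (fun i => sn (sc i) ≤ sn s) lam) (msub (fun i => sn (sc i) ≤ sn s) mu)
          (fun i => RR sc ell h σ i) (fun i => EE sc ell h σ i))) :
    BdT (VS V (fun i => sn (sc i) ≤ sn j) sc) b (fun l => Real.exp (g * ell l))
      (fun l => Real.exp (-(c1 * ell l))) (NN ell g c2)
      (Tn (lsub (fun i => sn (sc i) ≤ sn j) lam) (msub (fun i => sn (sc i) ≤ sn j) mu)
        (fun i => RR sc ell h σ i) (fun i => EE sc ell h σ i)) := by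
  have hmu := H.law.2
  have R0 : ∀ i, 0 < RR sc ell h σ i := fun i => mul_pos hσ (Real.exp_pos _)
  have E0 : ∀ i, 0 < EE sc ell h σ i := fun i => mul_pos hσ (Real.exp_pos _)
  have hT : ∀ s, sn s ≤ sn j → _ := fun s hs => H.topH N hb hb0 s hσ (hs1 s hs) R0
    (fun i => le_rfl) E0 (fun i => le_rfl) lev
  have hg0 : 0 ≤ g := by linarith [Ng.hg, N.h0]
  refine bdT_of_TB (q := fun l => sn l ≤ sn j) ?_ ?_ ?_ hg0 Ng.c10
  · intro l hl
    rw [Finset.eq_empty_iff_forall_notMem]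
    intro ω hω
    rw [mem_VS] at hω
    have := ω.1.2
    rw [hω] at this
    exact hl this
  · intro s hs
    have h1 : TB (VS V (fun i => sn (sc i) ≤ sn s) sc) ell s b g c1 c2
        (Tn (lsub (fun i => sn (sc i) ≤ sn s) lam) (msub (fun i => sn (sc i) ≤ sn s) mu)
          (fun i => RR sc ell h σ i) (fun i => EE sc ell h σ i)) := by
      by_cases hsp : ell s ≤ (2 - 4 * G) * p
      · exact tb_of_top (hT s hs) (fun l ω => mem_VS l ω) hsp Ng.hh Ng.hg Ng.c10 Ng.c21 Ng.hc Ng.hcs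
      · exact hIII s hs (not_le.1 hsp)
    have h2 := tb_up hmu (RR sc ell h σ) (EE sc ell h σ)
      (fun l hl i hi => by rw [hi]; exact (N.le_iff l s).2 hl) h1
    exact tb_down hmu (RR sc ell h σ) (EE sc ell h σ)
      (fun l hl i hi => by rw [hi]; exact ((N.le_iff l s).2 hl).trans hs) h2
  · intro l hl
    have h1 := fin_one (hT j le_rfl) (VV := VS V (fun i => sn (sc i) ≤ sn j) sc)
      (fun l ω => mem_VS l ω) (g := g) (by linarith [Ng.hg, N.h0]) l
    exact h1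

/-- **Existence of `BTS`.** -/
theorem bts_of_law (H : LawH lam mu sc sn ell b0 p G h A0 Kf lm aa cc ok)
    (H' : LawH lam mu' sc sn ell b0 p G h A0 Kf lm aa cc ok)
    (N : NumL sn ell p G h A0) {g c1 c2 : ℝ} (Ng : NumG G h g c1 c2) {A1 : ℕ}
    (hKf : ∀ b s j, 1 ≤ b → b ≤ b0 → sn s ≤ sn j → Kf b s ≤ (b * ell j) ^ A1)
    {rho e : ι → ℝ} (hrho : ∀ i, 2 * rho i ≤ Real.exp (-(1 / 2) * ell (sc i) + h * ell (sc i)))
    (he : ∀ i, 2 * e i ≤ Real.exp (-ell (sc i) + h * ell (sc i)))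
    (lev : ∀ l, ∑ i with sc i = l, (RR sc ell h 1 i * ∑ a, lam i a * g1 lam mu i a ^ 2 +
      EE sc ell h 1 i) ≤ Real.exp (2 * h * ell l))
    (lev' : ∀ l, ∑ i with sc i = l, (RR sc ell h 1 i * ∑ a, lam i a * g1 lam mu' i a ^ 2 +
      EE sc ell h 1 i) ≤ Real.exp (2 * h * ell l)) {b : ℕ} (hb : 1 ≤ b)
    (hb0 : b ≤ b0) (j : J)
    (hIII : ∀ σ : ℝ, 0 < σ → (∀ s, sn s ≤ sn j → 1000 * Kf b s * σ * (b : ℝ) ^ 4 ≤ 1) →
      ∀ s, sn s ≤ sn j → (2 - 4 * G) * p < ell s →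
      TB (VS V (fun i => sn (sc i) ≤ sn s) sc) ell s b g c1 c2
        (Tn (lsub (fun i => sn (sc i) ≤ sn s) lam) (msub (fun i => sn (sc i) ≤ sn s) mu)
          (fun i => RR sc ell h σ i) (fun i => EE sc ell h σ i)) ∧
      TB (VS V (fun i => sn (sc i) ≤ sn s) sc) ell s b g c1 c2
        (Tn (lsub (fun i => sn (sc i) ≤ sn s) lam) (msub (fun i => sn (sc i) ≤ sn s) mu')
          (fun i => RR sc ell h σ i) (fun i => EE sc ell h σ i))) :
    ∃ (q : ι → Prop) (_ : DecidablePred q) (σ : ℝ)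
      (VV : J → Finset (Σ i : {i // q i}, Option (V i))) (R E : {i // q i} → ℝ) (NN : J → J → ℝ),
      BTS q lam rho e mu mu' sc ell g c1 c2 (A1 + 14) b j σ VV R E NN := by
  have hx := N.ell2 j
  have hb1 : (1 : ℝ) ≤ b := by exact_mod_cast hb
  set Q : ℝ := b * ell j with hQ
  have hQ2 : 2 ≤ Q := by nlinarith
  have hQb : (b : ℝ) ≤ Q := by nlinarith
  set σ : ℝ := (1000 * Q ^ A1 * (b : ℝ) ^ 4)⁻¹ with hσd
  have hpos : 0 < 1000 * Q ^ A1 * (b : ℝ) ^ 4 := by positivity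
  have hσ : 0 < σ := inv_pos.2 hpos
  have hσ1 : σ ≤ 1 := by
    apply inv_le_one_of_one_le₀
    have h1 : 1 ≤ Q ^ A1 := one_le_pow₀ (by linarith)
    have h2 : (1 : ℝ) ≤ (b : ℝ) ^ 4 := one_le_pow₀ hb1
    nlinarith [mul_le_mul h1 h2 zero_le_one (by positivity)]
  have hs1 : ∀ s, sn s ≤ sn j → 1000 * Kf b s * σ * (b : ℝ) ^ 4 ≤ 1 := by
    intro s hs
    have h1 := hKf b s j hb hb0 hs
    rw [hσd]
    rw [show 1000 * Kf b s * (1000 * Q ^ A1 * (b : ℝ) ^ 4)⁻¹ * (b : ℝ) ^ 4 =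
      (1000 * Kf b s * (b : ℝ) ^ 4) * (1000 * Q ^ A1 * (b : ℝ) ^ 4)⁻¹ by ring]
    rw [← div_eq_mul_inv, div_le_one hpos]
    apply mul_le_mul_of_nonneg_right _ (by positivity)
    exact mul_le_mul_of_nonneg_left h1 (by norm_num)
  have hlev : ∀ {ν : (∀ i, V i) → ℝ}, (∀ l, ∑ i with sc i = l, (RR sc ell h 1 i *
      ∑ a, lam i a * g1 lam ν i a ^ 2 + EE sc ell h 1 i) ≤ Real.exp (2 * h * ell l)) →
      ∀ l, ∑ i with sc i = l, (RR sc ell h σ i * ∑ a, lam i a * g1 lam ν i a ^ 2 +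
      EE sc ell h σ i) ≤ Real.exp (2 * h * ell l) := by
    intro ν hν l
    have e1 : ∑ i with sc i = l, (RR sc ell h σ i * ∑ a, lam i a * g1 lam ν i a ^ 2 +
        EE sc ell h σ i) = σ * ∑ i with sc i = l, (RR sc ell h 1 i *
        ∑ a, lam i a * g1 lam ν i a ^ 2 + EE sc ell h 1 i) := by
      rw [Finset.mul_sum]
      refine Finset.sum_congr rfl fun i _ => ?_
      unfold RR EE
      ring
    rw [e1]
    have h0 : 0 ≤ ∑ i with sc i = l, (RR sc ell h 1 i *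
        ∑ a, lam i a * g1 lam ν i a ^ 2 + EE sc ell h 1 i) := by
      refine Finset.sum_nonneg fun i _ => ?_
      have h4 : 0 ≤ ∑ a, lam i a * g1 lam ν i a ^ 2 :=
        Finset.sum_nonneg fun a _ => mul_nonneg (H.lam0 i a) (sq_nonneg _)
      unfold RR EE
      positivity
    exact (mul_le_of_le_one_left h0 hσ1).trans (hν l)
  refine ⟨fun i => sn (sc i) ≤ sn j, inferInstance, σ, VS V (fun i => sn (sc i) ≤ sn j) sc,
    fun i => RR sc ell h σ i, fun i => EE sc ell h σ i, NN ell g c2, ?_⟩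
  exact {
    hp := fun i hi => (N.le_iff _ _).2 hi
    hV := fun l ω => mem_VS l ω
    s0 := hσ
    s1 := by
      rw [hσd, inv_inv, pow_add]
      have h1 : (1000 : ℝ) ≤ Q ^ 10 := by
        calc (1000 : ℝ) ≤ 2 ^ 10 := by norm_num
          _ ≤ Q ^ 10 := pow_le_pow_left₀ (by norm_num) hQ2 10
      have h2 : (b : ℝ) ^ 4 ≤ Q ^ 4 := pow_le_pow_left₀ (by linarith) hQb 4
      calc 1000 * Q ^ A1 * (b : ℝ) ^ 4 = Q ^ A1 * (1000 * (b : ℝ) ^ 4) := by ring
        _ ≤ Q ^ A1 * (Q ^ 10 * Q ^ 4) := by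
            apply mul_le_mul_of_nonneg_left _ (by positivity)
            exact mul_le_mul h1 h2 (by positivity) (by positivity)
        _ = Q ^ A1 * Q ^ 14 := by rw [← pow_add]
    R0 := fun i => mul_pos hσ (Real.exp_pos _)
    E0 := fun i => mul_pos hσ (Real.exp_pos _)
    R1 := fun i => by
      have := mul_le_mul_of_nonneg_left (hrho i) hσ.le
      unfold RR
      linarith
    E1 := fun i => by
      have := mul_le_mul_of_nonneg_left (he i) hσ.le
      unfold EE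
      linarith
    bd := bdT_law H N Ng hb hb0 j hσ hs1 (hlev lev) fun s hs hsp => (hIII σ hσ hs1 s hs hsp).1
    bd' := bdT_law H' N Ng hb hb0 j hσ hs1 (hlev lev') fun s hs hsp => (hIII σ hσ hs1 s hs hsp).2
    N0 := fun l m => NN0 ell g c2 l m
    N1 := fun l m => NN1 (fun l => by linarith [N.ell2 l]) (by linarith [Ng.hg, N.h0])
      (by linarith [Ng.c20, Ng.hg, N.h0, Ng.c10]) l m
    N2 := fun l m h => NN2 h }

end fin

end Vale.Agent.P042.H365
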