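import Vale.Agent.P042.H365.LawH

/-!
# P042, row C.4: the top scales of a law
-/

set_option linter.unusedSectionVars false

namespace Vale.Agent.P042.H365

open Finset Vale.Agent.P042.H232 Vale.Agent.P042.H461 Vale.Agent.P042.H416 Vale.Agent.P042.H742
open Vale.Agent.P042.H779 (marg m1)
open Vale.Agent.P042.H779.Ab (Lo At)
open Vale.Agent.P042.H858 (ext0 bw_mono MEIK_sub I1M_sub tot_sub ext0_nonneg ext0_le)

variable {ι : Type*} [Fintype ι] [DecidableEq ι] {V : ι → Type*} [∀ i, Fintype (V i)]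
  [∀ i, DecidableEq (V i)] {J : Type*} [Fintype J] [DecidableEq J]

theorem g1_sub {p : ι → Prop} [DecidablePred p] {lam : ∀ i, V i → ℝ} {mu : (∀ i, V i) → ℝ}
    (i : {i // p i}) (a : V i) : g1 (lsub p lam) (msub p mu) i a = g1 lam mu i a := by
  unfold g1 msub
  rw [sum_push]
  rfl

/-- sums over the sites of a marginal law of one scale -/
theorem sum_sub_le {sc : ι → J} {p : ι → Prop} [DecidablePred p] (l : J) {f : ι → ℝ}
    (hf : ∀ i, 0 ≤ f i) :
    ∑ i ∈ univ.filter (fun i : {i // p i} => sc i = l), f i ≤ ∑ i with sc i = l, f i := by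
  have h1 : ∑ i ∈ univ.filter (fun i : {i // p i} => sc i = l), f i =
      ∑ i ∈ (univ.filter fun i : {i // p i} => sc i = l).map (Function.Embedding.subtype p), f i := by
    rw [Finset.sum_map]
    rfl
  rw [h1]
  apply Finset.sum_le_sum_of_subset_of_nonneg
  · intro i hi
    rw [Finset.mem_map] at hi
    obtain ⟨j, hj, rfl⟩ := hi
    rw [Finset.mem_filter] at hj ⊢
    exact ⟨Finset.mem_univ _, hj.2⟩
  · exact fun i _ _ => hf i

variable {lam : ∀ i, V i → ℝ} {mu : (∀ i, V i) → ℝ} {sc : ι → J} {sn : J → ℕ} {ell : J → ℝ}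
  {b0 : ℕ} {p G h A0 : ℝ} {Kf : ℕ → J → ℝ} {lm aa : J → ℝ} {cc : J → ι → ℝ}
  {ok : J → Finset ι → Prop}

theorem tF_le (H : LawH lam mu sc sn ell b0 p G h A0 Kf lm aa cc ok) {b : ℕ} (hb : 1 ≤ b)
    (hb0 : b ≤ b0) (s : J) (i : ι) :
    0 ≤ tF sc sn ell ((1 - G) * p) (Kf b s) s i ∧ tF sc sn ell ((1 - G) * p) (Kf b s) s i ≤ 1 := by
  have h1 := H.Kf1 b s hb hb0
  have h2 : (1 : ℝ) ≤ b := by exact_mod_cast hb
  unfold tF
  split_ifs
  · constructor
    · exact div_nonneg (rate_pos _ _).le (by linarith)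
    · rw [div_le_one (by linarith)]
      exact (rate_le_one _ _).trans (by linarith)
  · exact ⟨le_rfl, zero_le_one⟩

/-- `BHyp` at a marginal law. -/
theorem LawH.bhyp (H : LawH lam mu sc sn ell b0 p G h A0 Kf lm aa cc ok)
    (N : NumL sn ell p G h A0) {b : ℕ} (hb : 1 ≤ b) (hb0 : b ≤ b0) (s : J) {F : ℝ}
    (hF : F ≤ (1 - G) * p) :
    BHyp (V := fun i : {i // sn (sc i) ≤ sn s} => V i) (lsub _ lam) (msub _ mu)
      (fun i => rate F (ell (sc i)) / Kf b s) (fun i => Real.exp (h * ell (sc i))) (A0 * ell s)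
      (LamF A0 b (ell s)) (1 / (704 * LamF A0 b (ell s))) (LamF A0 b (ell s))
      (Real.exp (-(3 * LamF A0 b (ell s)))) (b + 1) := by
  have hA := N.A01
  have hx := N.ell2 s
  obtain ⟨hΛb, hΛ11⟩ := N.Lam_ge s hb
  have hb1 : (1 : ℝ) ≤ b := by exact_mod_cast hb
  have hK := H.Kf1 b s hb hb0
  refine bhyp_of_meik (msub_isLaw H.law) ?_ (I1M_sub _ (M := fun i => Real.exp (h * ell (sc i)))
    (D0 := b + 1) (fun A hA => H.i1 A (hA.trans (by omega))) H.law) ?_ ?_ ?_ ?_ ?_ ?_
    (MEIK_sub (fun i => sn (sc i) ≤ sn s) (H.mei b s hb hb0) H.law ?_ ?_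
      (fun i => (tF_le H hb hb0 s i).1) (fun i => (tF_le H hb hb0 s i).2)) ?_ ?_ ?_ ?_
  · -- the reference
    refine ⟨fun i a => H.lam0 i a, fun i => H.lam1 i, fun i a => ?_⟩
    rcases H.atoms i a with h1 | h1
    · exact Or.inl h1
    · refine Or.inr (le_trans (Real.exp_le_exp.2 ?_) h1)
      have h2 := (N.le_iff (sc i) s).1 i.2
      have := mul_le_mul_of_nonneg_left h2 (by linarith : 0 ≤ A0)
      linarith
  · intro i
    rw [← Real.exp_zero]
    apply Real.exp_le_exp.2
    have := N.ell2 (sc i)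
    have := N.h0
    positivity
  · intro i
    have := rate_pos F (ell (sc i))
    have : 0 < Kf b s := by linarith
    positivity
  · intro i
    rw [div_le_one (by linarith)]
    exact (rate_le_one _ _).trans (by linarith)
  · positivity
  · omega
  · exact N.Lam_ok H.card s hb
  · intro i
    have := rate_pos F (ell (sc i))
    have : 0 < Kf b s := by linarith
    positivity
  · intro i
    unfold tF
    rw [if_pos i.2]
    exact div_le_div_of_nonneg_right (rate_mono hF _) (by linarith)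
  · positivity
  · positivity
  · apply le_of_eq
    field_simp
  · have h1 := exp_small hΛ11 hΛb
    have h2 : 1 / (704 * LamF A0 b (ell s)) * LamF A0 b (ell s) = 1 / 704 := by
      field_simp
    rw [h2]
    push_cast
    have h3 : ((b : ℝ) + 1) * (1 / (1408 * (b + 1))) = 1 / 1408 := by field_simp
    rw [mul_add, h3]
    linarith

/-- The totals at the top scale of a marginal law. -/
theorem LawH.tot (H : LawH lam mu sc sn ell b0 p G h A0 Kf lm aa cc ok)
    (N : NumL sn ell p G h A0) {b : ℕ} (hb : 1 ≤ b) (hb0 : b ≤ b0) (s : J) {F : ℝ}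
    (hF0 : 0 ≤ F) (hF : F ≤ (1 - G) * p) :
    ∑ i ∈ univ.filter (fun i : {i // sn (sc i) ≤ sn s} => sc i = s), ∑ a : V i,
      m1 (msub (fun i => sn (sc i) ≤ sn s) mu) i a *
      Iia (V := fun i : {i // sn (sc i) ≤ sn s} => V i)
        (fun i => rate F (ell (sc i)) / Kf b s) (msub (fun i => sn (sc i) ≤ sn s) mu) i a ≤
      Real.exp (F + h * ell s) := by
  classical
  have hA := N.A01
  have hx := N.ell2 s
  have hb1 : (1 : ℝ) ≤ b := by exact_mod_cast hb
  have hK := H.Kf1 b s hb hb0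
  have hK0 : 0 < Kf b s := by linarith
  have hK1 : 1 ≤ Kf b s := by linarith
  have ht0 : ∀ i : {i // sn (sc i) ≤ sn s}, 0 ≤ rate F (ell (sc i)) / Kf b s := fun i =>
    div_nonneg (rate_pos _ _).le hK0.le
  have ht1 : ∀ i : {i // sn (sc i) ≤ sn s}, rate F (ell (sc i)) / Kf b s ≤ 1 := fun i => by
    rw [div_le_one hK0]
    exact (rate_le_one _ _).trans hK1
  have hlm : 0 < lm s := lt_of_lt_of_le (Real.exp_pos _) (H.lm0 s)
  have hbad : ∑ R, bw (ext0 (fun i => sn (sc i) ≤ sn s) fun i => rate F (ell (sc i)) / Kf b s) R *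
      (if ok s R then 0 else 1) ≤ Real.exp (-(2 * ell s)) := by
    refine le_trans (bw_mono (t := tF sc sn ell ((1 - G) * p) (Kf b s) s) ?_ ?_ ?_ ?_)
      (H.bad b s hb hb0 _)
    · exact ext0_nonneg _ ht0
    · intro i
      unfold ext0 tF
      by_cases hi : sn (sc i) ≤ sn s
      · rw [dif_pos hi, if_pos hi]
        exact div_le_div_of_nonneg_right (rate_mono hF _) hK0.le
      · rw [dif_neg hi, if_neg hi]
    · exact fun i => (tF_le H hb hb0 s i).2
    · intro R R' hRR
      by_cases h1 : ok s R'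
      · rw [if_pos h1, if_pos (H.okd s R R' hRR h1)]
      · rw [if_neg h1]
        split_ifs <;> norm_num
  have hHr : ∀ i ∈ At (fun i => sn (sc i)) (sn s), -H48.ne mu {i} ≤ A0 * ell s := by
    intro i hi
    have hi' : sn (sc i) = sn s := (Finset.mem_filter.1 hi).2
    have hsi : sc i = s := N.inj hi'
    have hRf : H779.Ab.Ref lam mu := by
      refine ⟨⟨H.law.1, H.law.2⟩, H.lam0, H.lam1, fun i a h1 => ?_⟩
      have h2 := H678.m1_le_M H.law H.i1 (by omega) i a
      rw [h1, mul_zero] at h2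
      exact le_antisymm h2 (H779.m1_nonneg ⟨H.law.1, H.law.2⟩ i a)
    apply H48.neg_ne_le hRf
    intro a
    have := H.atoms i a
    rw [hsi] at this
    exact this
  have key := tot_sub (fun i => sn (sc i) ≤ sn s) H.law (sc := fun i => sn (sc i)) (s := sn s)
    (fun i => Iff.rfl) (t' := fun i => rate F (ell (sc i)) / Kf b s) ht0 ht1
    (ok' := ok s) (lam := lm s) (a := aa s) (c := cc s) hlm (H.aa0 s) (H.cc0 s) (H.pins s)
    hbad (H := A0 * ell s) (by positivity) hHr
  have hfil : (univ.filter fun i : {i // sn (sc i) ≤ sn s} => sn (sc i) = sn s) =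
      univ.filter fun i : {i // sn (sc i) ≤ sn s} => sc i = s := by
    apply Finset.filter_congr
    intro i _
    exact ⟨fun h => N.inj h, fun h => by rw [h]⟩
  rw [hfil] at key
  refine key.trans ?_
  -- numbers
  set X : ℝ := Real.exp (h / 8 * ell s) with hX
  have hbig := N.big s
  have hX16 : 16 * (A0 + 3) * ell s ≤ X := hbig
  have hX1 : 16 ≤ X := by nlinarith
  have heF : 1 ≤ Real.exp F := by rw [← Real.exp_zero]; exact Real.exp_le_exp.2 hF0
  have hsum : ∑ i : {i // sn (sc i) ≤ sn s}, rate F (ell (sc i)) / Kf b s ≤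
      3 * ell s * Real.exp F := by
    refine N.sum_le (sc := sc) H.card s (f := fun l => rate F (ell l) / Kf b s)
      (c := Real.exp F) (Real.exp_pos _).le (fun l => div_nonneg (rate_pos _ _).le hK0.le) ?_
    intro l
    calc rate F (ell l) / Kf b s ≤ rate F (ell l) := div_le_self (rate_pos _ _).le hK1
      _ ≤ Real.exp (F - ell l) := rate_le _ _
      _ = _ := by rw [sub_eq_add_neg, Real.exp_add]
  have hsumc : ∑ i : {i // sn (sc i) ≤ sn s}, rate F (ell (sc i)) / Kf b s * cc s i ≤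
      3 * ell s * Real.exp F * X := by
    refine le_trans (Finset.sum_le_sum fun i _ => ?_) (le_of_eq_of_le (Finset.sum_mul _ _ _).symm
      (mul_le_mul_of_nonneg_right hsum (by positivity)))
    exact mul_le_mul_of_nonneg_left (H.cc1 s i i.2) (ht0 i)
  have hsumf : ∑ i ∈ univ.filter (fun i : {i // sn (sc i) ≤ sn s} => sc i = s), rate F (ell (sc i)) / Kf b s ≤
      3 * ell s * Real.exp F := by
    refine le_trans ?_ hsum
    exact Finset.sum_le_sum_of_subset_of_nonneg (Finset.filter_subset _ _) fun i _ _ => ht0 i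
  have hlmi : (lm s)⁻¹ ≤ X := by
    rw [hX, show h / 8 * ell s = -(-(h / 8 * ell s)) by ring, Real.exp_neg]
    exact inv_anti₀ (Real.exp_pos _) (H.lm0 s)
  have hcard : ((At (fun i => sn (sc i)) (sn s)).card : ℝ) ≤ Real.exp (ell s) := by
    refine le_trans (le_of_eq ?_) (H.card s)
    congr 2
    ext i
    simp only [At, Finset.mem_filter, Finset.mem_univ, true_and]
    exact ⟨fun h => N.inj h, fun h => by rw [h]⟩
  have haa := H.aa1 s
  have haa0 := H.aa0 s
  have t1 : (∑ i : {i // sn (sc i) ≤ sn s}, rate F (ell (sc i)) / Kf b s * cc s i + aa s) /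
      lm s ≤ 2 * X ^ 3 * Real.exp F := by
    rw [div_eq_mul_inv]
    have h1 : ∑ i : {i // sn (sc i) ≤ sn s}, rate F (ell (sc i)) / Kf b s * cc s i + aa s ≤
        2 * X ^ 2 * Real.exp F := by
      have h2 : 3 * ell s * Real.exp F * X ≤ X * Real.exp F * X :=
        mul_le_mul_of_nonneg_right (mul_le_mul_of_nonneg_right (by nlinarith) (by positivity))
          (by positivity)
      have h3 : X ≤ X * Real.exp F := le_mul_of_one_le_right (by positivity) heF
      have h4 : X * Real.exp F ≤ X * Real.exp F * X :=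
        le_mul_of_one_le_right (by positivity) (by linarith)
      linarith
    calc _ ≤ (2 * X ^ 2 * Real.exp F) * X :=
          mul_le_mul h1 hlmi (inv_nonneg.2 hlm.le) (by positivity)
      _ = _ := by ring
  have t2 : Real.exp (-(2 * ell s)) * ((At (fun i => sn (sc i)) (sn s)).card * (A0 * ell s)) ≤
      X ^ 2 * Real.exp F := by
    have h1 : Real.exp (-(2 * ell s)) * ((At (fun i => sn (sc i)) (sn s)).card : ℝ) ≤ 1 := by
      calc _ ≤ Real.exp (-(2 * ell s)) * Real.exp (ell s) :=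
            mul_le_mul_of_nonneg_left hcard (Real.exp_pos _).le
        _ = Real.exp (-ell s) := by rw [← Real.exp_add]; congr 1; ring
        _ ≤ 1 := by rw [← Real.exp_zero]; exact Real.exp_le_exp.2 (by linarith)
    have h2 : A0 * ell s ≤ X := by nlinarith
    have h3 : 0 ≤ A0 * ell s := by positivity
    calc _ = (Real.exp (-(2 * ell s)) * ((At (fun i => sn (sc i)) (sn s)).card : ℝ)) *
          (A0 * ell s) := by ring
      _ ≤ 1 * X := mul_le_mul h1 h2 h3 zero_le_one
      _ ≤ X ^ 2 * Real.exp F := by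
          have h4 : X ≤ X ^ 2 := by nlinarith
          have h5 : X ^ 2 ≤ X ^ 2 * Real.exp F := le_mul_of_one_le_right (by positivity) heF
          linarith
  have t3 : A0 * ell s * ∑ i ∈ univ.filter (fun i : {i // sn (sc i) ≤ sn s} => sc i = s),
      rate F (ell (sc i)) / Kf b s ≤ X ^ 2 * Real.exp F := by
    have h2 : A0 * ell s ≤ X := by nlinarith
    have h3 : 3 * ell s ≤ X := by nlinarith
    calc _ ≤ X * (X * Real.exp F) := by
          apply mul_le_mul h2 (hsumf.trans _) _ (by positivity)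
          · exact mul_le_mul_of_nonneg_right h3 (by positivity)
          · exact Finset.sum_nonneg fun i _ => ht0 i
      _ = _ := by ring
  have e1 : Real.exp (F + h * ell s) = X ^ 8 * Real.exp F := by
    rw [hX, ← Real.exp_nat_mul, ← Real.exp_add]
    congr 1
    push_cast
    ring
  rw [e1]
  have e2 : 4 * X ^ 3 ≤ X ^ 8 := by
    have h1 : (4 : ℝ) ≤ X ^ 5 := by
      calc (4 : ℝ) ≤ 16 ^ 5 := by norm_num
        _ ≤ X ^ 5 := pow_le_pow_left₀ (by norm_num) hX1 5
    calc 4 * X ^ 3 ≤ X ^ 5 * X ^ 3 := mul_le_mul_of_nonneg_right h1 (by positivity)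
      _ = _ := by ring
  have e3 : 4 * X ^ 3 * Real.exp F ≤ X ^ 8 * Real.exp F :=
    mul_le_mul_of_nonneg_right e2 (by positivity)
  have e4 : X ^ 2 * Real.exp F ≤ X ^ 3 * Real.exp F :=
    mul_le_mul_of_nonneg_right (pow_le_pow_right₀ (by linarith) (by norm_num)) (by positivity)
  linarith

/-- **The hypotheses at one top scale, from those on the full law.** -/
theorem LawH.topH (H : LawH lam mu sc sn ell b0 p G h A0 Kf lm aa cc ok)
    (N : NumL sn ell p G h A0) {b : ℕ} (hb : 1 ≤ b) (hb0 : b ≤ b0) (s : J) {σ : ℝ}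
    (hσ : 0 < σ) (hs1 : 1000 * Kf b s * σ * (b : ℝ) ^ 4 ≤ 1) {R E : ι → ℝ}
    (R0 : ∀ i, 0 < R i)
    (R1 : ∀ i, R i ≤ σ * Real.exp (-(1 / 2) * ell (sc i) + h * ell (sc i)))
    (E0 : ∀ i, 0 < E i) (E1 : ∀ i, E i ≤ σ * Real.exp (-ell (sc i) + h * ell (sc i)))
    (lev : ∀ l, ∑ i with sc i = l, (R i * ∑ a, lam i a * g1 lam mu i a ^ 2 + E i) ≤
      Real.exp (2 * h * ell l)) :
    TopH (V := fun i : {i // sn (sc i) ≤ sn s} => V i) (lsub _ lam) (msub _ mu)
      (fun i => sc i) ell s b p G h (Kf b s) σ (A0 * ell s)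
      (LamF A0 b (ell s)) (1 / (704 * LamF A0 b (ell s))) (LamF A0 b (ell s))
      (Real.exp (-(3 * LamF A0 b (ell s)))) (fun i => R i) (fun i => E i) where
  top i := (N.le_iff _ _).1 i.2
  ell1 l := by linarith [N.ell2 l]
  b1 := hb
  h0 := N.h0
  G0 := N.G0
  G1 := N.G1
  p0 := N.p0
  Kf1 := H.Kf1 b s hb hb0
  s0 := hσ
  s1 := hs1
  R0 i := R0 i
  R1 i := R1 i
  E0 i := E0 i
  E1 i := E1 i
  B F _ hF := H.bhyp N hb hb0 s hF
  T F hF0 hF := H.tot N hb hb0 s hF0 hF
  card l := by
    refine le_trans ?_ (H.card l)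
    have h1 := sum_sub_le (sc := sc) (p := fun i => sn (sc i) ≤ sn s) l (f := fun _ => (1 : ℝ))
      fun _ => zero_le_one
    simpa using h1
  lev l := by
    have h1 : ∀ i : {i // sn (sc i) ≤ sn s},
        R i * ∑ a : V i, lsub (fun i => sn (sc i) ≤ sn s) lam i a *
          g1 (lsub (fun i => sn (sc i) ≤ sn s) lam) (msub (fun i => sn (sc i) ≤ sn s) mu) i a ^ 2 +
          E i = (fun i : ι => R i * ∑ a, lam i a * g1 lam mu i a ^ 2 + E i) i := by
      intro i
      beta_reduce
      congr 2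
      exact Finset.sum_congr rfl fun a _ => by rw [g1_sub]; rfl
    rw [Finset.sum_congr rfl fun i _ => h1 i]
    refine (sum_sub_le (sc := sc) (p := fun i => sn (sc i) ≤ sn s) l
      (f := fun i : ι => R i * ∑ a, lam i a * g1 lam mu i a ^ 2 + E i) fun i => ?_).trans (lev l)
    have h2 := (R0 i).le
    have h3 := (E0 i).le
    have h4 : 0 ≤ ∑ a, lam i a * g1 lam mu i a ^ 2 :=
      Finset.sum_nonneg fun a _ => mul_nonneg (H.lam0 i a) (sq_nonneg _)
    positivity

end Vale.Agent.P042.H365
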