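import Vale.Agent.P042.H365.TLaw

/-!
# P042, typed seam [B] → [C]: the operator norm of the second cumulants, individual constants
-/

namespace Vale.Agent.P042.H365

open Finset Vale.Agent.P042.H232 Vale.Agent.P042.H461 Vale.Agent.P042.H416 Vale.Agent.P042.H742
  Vale.Agent.P042.H678
open Vale.Agent.P042.H779 (marg m1)
open Vale.Agent.P042.H284 (BV)

variable {ι : Type*} [Fintype ι] [DecidableEq ι] {V : ι → Type*} [∀ i, Fintype (V i)]
  [∀ i, DecidableEq (V i)] {lam : ∀ i, V i → ℝ} {mu : (∀ i, V i) → ℝ} {ρ t M : ι → ℝ}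

/-- Variance of a linear statistic from near-orthogonality in degree one. -/
theorem var_of_nearOrthM {D0 : ℕ} (hNO : NearOrthM lam t M D0 mu) (hD0 : 1 ≤ D0)
    (hmu : ∑ x, mu x = 1) (h1 : ∀ i, ∑ a, lam i a = 1) (φ : ∀ i, V i → ℝ) :
    ∑ x, mu x * (∑ i, (φ i (x i) - mn mu φ i)) ^ 2
      ≤ ∑ i, (t i / M i)⁻¹ * ∑ a, lam i a * (φ i a - mn mu φ i) ^ 2 := by
  classical
  set T : Finset ι → (∀ i, V i) → ℝ := fun D x =>
    ∑ i, if D = {i} then φ i (x i) - mn mu φ i else 0 with hT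
  have hTs : ∀ i x, T {i} x = φ i (x i) - mn mu φ i := by
    intro i x
    simp only [hT, Finset.singleton_inj]
    rw [Finset.sum_eq_single i]
    · rw [if_pos rfl]
    · intro j _ hj; rw [if_neg (Ne.symm hj)]
    · intro h; exact absurd (Finset.mem_univ _) h
  have hT0 : ∀ D x, D.card ≠ 1 → T D x = 0 := by
    intro D x hD
    simp only [hT]
    apply Finset.sum_eq_zero
    intro i _
    rw [if_neg]
    rintro rfl
    exact hD (Finset.card_singleton i)
  have hsum : ∀ G : Finset ι → ℝ, (∀ D : Finset ι, D.card ≠ 1 → G D = 0) →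
      ∑ D, G D = ∑ i, G {i} := by
    intro G hG
    symm
    rw [← Finset.sum_image (f := G) (g := fun i : ι => ({i} : Finset ι)) (s := univ)]
    · apply Finset.sum_subset (Finset.subset_univ _)
      intro D _ hD
      apply hG
      intro hc
      obtain ⟨i, rfl⟩ := Finset.card_eq_one.1 hc
      exact hD (Finset.mem_image_of_mem _ (Finset.mem_univ i))
    · intro i _ j _ hij
      exact Finset.singleton_injective hij
  have hfam : IsFam mu ∅ 1 T := by
    refine ⟨fun D hD => funext fun x => hT0 D x hD, fun D hD => absurd (by simp) hD, ?_, ?_⟩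
    · intro D x y hxy
      by_cases hc : D.card = 1
      · obtain ⟨i, rfl⟩ := Finset.card_eq_one.1 hc
        rw [hTs, hTs, hxy i (by simp)]
      · rw [hT0 D x hc, hT0 D y hc]
    · intro J hJ z
      have hJ0 : J = ∅ := Finset.card_eq_zero.1 (by omega)
      subst hJ0
      simp only [Finset.empty_subset, Finset.filter_true, Finset.piecewise_empty]
      rw [hsum (fun D => ∑ x, mu x * T D x)]
      · apply Finset.sum_eq_zero
        intro i _
        simp only [hTs, mul_sub, Finset.sum_sub_distrib]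
        rw [← Finset.sum_mul, hmu, one_mul]
        exact sub_self _
      · intro D hD
        apply Finset.sum_eq_zero
        intro x _
        rw [hT0 D x hD, mul_zero]
  by_cases hne : Nonempty (∀ i, V i)
  · obtain ⟨w⟩ := hne
    have h2 := hNO 1 ∅ w T (by simpa using hD0) hfam
    have h3 : pint mu ∅ w (fun x => (∑ D, T D x) ^ 2)
        = ∑ x, mu x * (∑ i, (φ i (x i) - mn mu φ i)) ^ 2 := by
      unfold pint
      refine Finset.sum_congr rfl fun x _ => ?_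
      rw [if_pos (by simp)]
      beta_reduce
      rw [hsum (fun D => T D x) (fun D hD => hT0 D x hD)]
      simp only [hTs]
    have h4 : H742.nrm lam (fun i => t i / M i) T
        = ∑ i, (t i / M i)⁻¹ * ∑ a, lam i a * (φ i a - mn mu φ i) ^ 2 := by
      unfold H742.nrm
      rw [hsum (fun D => (∏ i ∈ D, t i / M i)⁻¹ * ∑ x, W lam x * T D x ^ 2)]
      · refine Finset.sum_congr rfl fun i _ => ?_
        simp only [hTs, Finset.prod_singleton]
        rw [sum_W_one h1 i (fun a => (φ i a - mn mu φ i) ^ 2)]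
      · intro D hD
        have : ∑ x, W lam x * T D x ^ 2 = 0 := by
          apply Finset.sum_eq_zero
          intro x _
          rw [hT0 D x hD]; ring
        rw [this, mul_zero]
    rw [h3, h4] at h2
    refine h2.trans (le_of_eq ?_)
    simp [lw]
  · have hemp : IsEmpty (∀ i, V i) := not_nonempty_iff.1 hne
    simp at hmu


/-- The constant of the operator norm at the coordinate `i`. -/
noncomputable def Cop (ρ t M : ι → ℝ) (i : ι) : ℝ :=
  M i * (1 + M i) * (ρ i / t i) + M i * ρ i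

/-- **Operator norm of the second cumulant, individual constants.** -/
theorem op_lawT {D0 : ℕ} (hNO : NearOrthM lam t M D0 mu) (hD0 : 1 ≤ D0)
    (hmu0 : ∀ x, 0 ≤ mu x) (hmu : ∑ x, mu x = 1) (h0 : ∀ i a, 0 ≤ lam i a)
    (h1 : ∀ i, ∑ a, lam i a = 1) (hρ : ∀ i, 0 ≤ ρ i) (ht : ∀ i, 0 < t i) (hM1 : ∀ i, 1 ≤ M i)
    (hM : ∀ i a, m1 mu i a ≤ M i * lam i a) (u v : (Σ i, V i) → ℝ) :
    |∑ p, ∑ q, u p * (√(wm lam ρ p) * √(wm lam ρ q) *
        cumT (Mh lam mu) (p ::ₘ q ::ₘ 0)) * v q|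
      ≤ √(∑ p, Cop ρ t M p.1 * u p ^ 2) * √(∑ q, Cop ρ t M q.1 * v q ^ 2) := by
  have hM0 : ∀ i, 0 ≤ M i := fun i => zero_le_one.trans (hM1 i)
  have hb := bilin_eq (Sigma.fst : (Σ i, V i) → ι) univ mu (uh lam) hmu
    (fun p => √(wm lam ρ p)) u v
  -- the statistics are sums of one-coordinate functions
  have hPh : ∀ (u : (Σ i, V i) → ℝ) (i : ι) (x : ∀ i, V i),
      (∑ p : Σ i, V i, if p.1 = i then u p * √(wm lam ρ p) * uh lam p x else 0)
        = ph lam ρ u i (x i) := by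
    intro u i x
    rw [Fintype.sum_sigma, Finset.sum_eq_single i]
    · unfold ph uh ug
      refine Finset.sum_congr rfl fun a _ => ?_
      rw [if_pos rfl]
    · intro j _ hj
      apply Finset.sum_eq_zero
      intro a _
      rw [if_neg hj]
    · intro h; exact absurd (Finset.mem_univ _) h
  have hPs : ∀ (u : (Σ i, V i) → ℝ) (x : ∀ i, V i),
      ∑ p : Σ i, V i, u p * √(wm lam ρ p) * uh lam p x = ∑ i, ph lam ρ u i (x i) := by
    intro u x
    rw [← Finset.sum_congr rfl (fun i _ => hPh u i x), Finset.sum_comm]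
    refine Finset.sum_congr rfl fun p _ => ?_
    rw [Finset.sum_eq_single p.1]
    · rw [if_pos rfl]
    · intro i _ hi; rw [if_neg (Ne.symm hi)]
    · intro h; exact absurd (Finset.mem_univ _) h
  simp only [hPh, hPs] at hb
  -- sums of squares
  have hsi : ∀ (u : (Σ i, V i) → ℝ) (i : ι), 0 ≤ ∑ a, u ⟨i, a⟩ ^ 2 := fun u i =>
    Finset.sum_nonneg fun _ _ => sq_nonneg _
  -- second moments of the one-coordinate functions
  have hE2 : ∀ (u : (Σ i, V i) → ℝ) (i : ι), ∑ x, mu x * ph lam ρ u i (x i) ^ 2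
      ≤ M i * (ρ i * ∑ a, u ⟨i, a⟩ ^ 2) := by
    intro u i
    have h2 : ∑ x, mu x * ph lam ρ u i (x i) ^ 2 = ∑ a, m1 mu i a * ph lam ρ u i a ^ 2 := by
      unfold m1
      simp only [Finset.sum_mul]
      rw [Finset.sum_comm]
      refine Finset.sum_congr rfl fun x _ => ?_
      rw [Finset.sum_eq_single (x i)]
      · rw [if_pos rfl]
      · intro a _ ha; rw [if_neg (Ne.symm ha), zero_mul]
      · intro h; exact absurd (Finset.mem_univ _) h
    rw [h2]
    calc _ ≤ ∑ a, M i * (lam i a * ph lam ρ u i a ^ 2) := by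
          refine Finset.sum_le_sum fun a _ => ?_
          rw [← mul_assoc]
          exact mul_le_mul_of_nonneg_right (hM i a) (sq_nonneg _)
      _ = M i * ∑ a, lam i a * ph lam ρ u i a ^ 2 := by rw [Finset.mul_sum]
      _ ≤ _ := mul_le_mul_of_nonneg_left (ph_norm h0 h1 hρ u i) (hM0 i)
  have hmn : ∀ (u : (Σ i, V i) → ℝ) (i : ι), mn mu (ph lam ρ u) i ^ 2
      ≤ M i * (ρ i * ∑ a, u ⟨i, a⟩ ^ 2) := by
    intro u i
    refine le_trans ?_ (hE2 u i)
    have h3 := cs_w (univ : Finset (∀ i, V i)) (w := mu) (fun x _ => hmu0 x) (fun _ => 1)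
      (fun x => ph lam ρ u i (x i))
    simp only [one_pow, mul_one, one_mul, hmu, Real.sqrt_one] at h3
    have h4 : mn mu (ph lam ρ u) i ^ 2 = |∑ x, mu x * ph lam ρ u i (x i)| ^ 2 := by
      rw [sq_abs]; rfl
    rw [h4]
    have h5 : 0 ≤ ∑ x, mu x * ph lam ρ u i (x i) ^ 2 :=
      Finset.sum_nonneg fun x _ => mul_nonneg (hmu0 x) (sq_nonneg _)
    calc _ ≤ (√(∑ x, mu x * ph lam ρ u i (x i) ^ 2)) ^ 2 :=
          pow_le_pow_left₀ (abs_nonneg _) h3 2
      _ = _ := Real.sq_sqrt h5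
  -- the two quadratic forms
  set A : ((Σ i, V i) → ℝ) → ℝ := fun u =>
    ∑ i, M i * (1 + M i) * (ρ i / t i) * ∑ a, u ⟨i, a⟩ ^ 2 with hA
  set B : ((Σ i, V i) → ℝ) → ℝ := fun u => ∑ i, M i * ρ i * ∑ a, u ⟨i, a⟩ ^ 2 with hB
  have hA0 : ∀ u, 0 ≤ A u := fun u => Finset.sum_nonneg fun i _ => mul_nonneg (mul_nonneg
    (mul_nonneg (hM0 i) (by linarith [hM0 i])) (div_nonneg (hρ i) (ht i).le)) (hsi u i)
  have hB0 : ∀ u, 0 ≤ B u := fun u => Finset.sum_nonneg fun i _ => mul_nonneg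
    (mul_nonneg (hM0 i) (hρ i)) (hsi u i)
  have hAB : ∀ u, A u + B u = ∑ p : Σ i, V i, Cop ρ t M p.1 * u p ^ 2 := by
    intro u
    rw [Fintype.sum_sigma, ← Finset.sum_add_distrib]
    refine Finset.sum_congr rfl fun i _ => ?_
    show _ = ∑ a, Cop ρ t M i * u ⟨i, a⟩ ^ 2
    rw [← Finset.mul_sum]
    unfold Cop
    ring
  -- variance
  have hVar : ∀ (u : (Σ i, V i) → ℝ),
      ∑ x, mu x * (∑ i, (ph lam ρ u i (x i) - mn mu (ph lam ρ u) i)) ^ 2 ≤ A u := by
    intro u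
    refine (var_of_nearOrthM hNO hD0 hmu h1 (ph lam ρ u)).trans ?_
    refine Finset.sum_le_sum fun i _ => ?_
    have h3 : ∑ a, lam i a * (ph lam ρ u i a - mn mu (ph lam ρ u) i) ^ 2
        ≤ (1 + M i) * (ρ i * ∑ a, u ⟨i, a⟩ ^ 2) := by
      have h4 : ∑ a, lam i a * (ph lam ρ u i a - mn mu (ph lam ρ u) i) ^ 2
          = ∑ a, lam i a * ph lam ρ u i a ^ 2 + mn mu (ph lam ρ u) i ^ 2 := by
        have h5 : ∀ a, lam i a * (ph lam ρ u i a - mn mu (ph lam ρ u) i) ^ 2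
            = lam i a * ph lam ρ u i a ^ 2
              - 2 * mn mu (ph lam ρ u) i * (lam i a * ph lam ρ u i a)
              + mn mu (ph lam ρ u) i ^ 2 * lam i a := by
          intro a; ring
        simp only [h5]
        rw [Finset.sum_add_distrib, Finset.sum_sub_distrib, ← Finset.mul_sum, ← Finset.mul_sum,
          h1, ph_mean h1]
        ring
      rw [h4]
      have := ph_norm h0 h1 hρ u i
      have := hmn u i
      linarith
    have hMi : M i ≠ 0 := by linarith [hM1 i]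
    have hti := (ht i).ne'
    calc (t i / M i)⁻¹ * ∑ a, lam i a * (ph lam ρ u i a - mn mu (ph lam ρ u) i) ^ 2
        ≤ (t i / M i)⁻¹ * ((1 + M i) * (ρ i * ∑ a, u ⟨i, a⟩ ^ 2)) :=
          mul_le_mul_of_nonneg_left h3 (inv_nonneg.2 (div_nonneg (ht i).le (hM0 i)))
      _ = _ := by
          rw [inv_div]
          field_simp
  -- covariance
  have hCov : |∑ x, mu x * ((∑ i, ph lam ρ u i (x i)) * (∑ i, ph lam ρ v i (x i)))
      - (∑ x, mu x * ∑ i, ph lam ρ u i (x i)) * (∑ x, mu x * ∑ i, ph lam ρ v i (x i))|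
      ≤ √(A u) * √(A v) := by
    have hc : ∀ u : (Σ i, V i) → ℝ, ∑ x, mu x * ∑ i, ph lam ρ u i (x i)
        = ∑ i, mn mu (ph lam ρ u) i := by
      intro u
      unfold mn
      simp only [Finset.mul_sum]
      rw [Finset.sum_comm]
    have h3 : ∑ x, mu x * ((∑ i, ph lam ρ u i (x i)) * (∑ i, ph lam ρ v i (x i)))
      - (∑ x, mu x * ∑ i, ph lam ρ u i (x i)) * (∑ x, mu x * ∑ i, ph lam ρ v i (x i))
        = ∑ x, mu x * ((∑ i, (ph lam ρ u i (x i) - mn mu (ph lam ρ u) i))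
          * (∑ i, (ph lam ρ v i (x i) - mn mu (ph lam ρ v) i))) := by
      have h4 : ∀ x, mu x * ((∑ i, (ph lam ρ u i (x i) - mn mu (ph lam ρ u) i))
          * (∑ i, (ph lam ρ v i (x i) - mn mu (ph lam ρ v) i)))
          = mu x * ((∑ i, ph lam ρ u i (x i)) * (∑ i, ph lam ρ v i (x i)))
            - (∑ i, mn mu (ph lam ρ v) i) * (mu x * ∑ i, ph lam ρ u i (x i))
            - (∑ i, mn mu (ph lam ρ u) i) * (mu x * ∑ i, ph lam ρ v i (x i))
            + (∑ i, mn mu (ph lam ρ u) i) * (∑ i, mn mu (ph lam ρ v) i) * mu x := by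
        intro x
        rw [Finset.sum_sub_distrib, Finset.sum_sub_distrib]
        ring
      simp only [h4]
      rw [Finset.sum_add_distrib, Finset.sum_sub_distrib, Finset.sum_sub_distrib,
        ← Finset.mul_sum, ← Finset.mul_sum, ← Finset.mul_sum, hmu, hc, hc]
      ring
    rw [h3]
    refine (cs_w univ (fun x _ => hmu0 x) _ _).trans ?_
    exact mul_le_mul (Real.sqrt_le_sqrt (hVar u)) (Real.sqrt_le_sqrt (hVar v))
      (Real.sqrt_nonneg _) (Real.sqrt_nonneg _)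
  -- the diagonal terms
  have hDiag : |∑ i, ∑ x, mu x * (ph lam ρ u i (x i) * ph lam ρ v i (x i))|
      ≤ √(B u) * √(B v) := by
    have h3 : ∀ i, |∑ x, mu x * (ph lam ρ u i (x i) * ph lam ρ v i (x i))|
        ≤ √(M i * ρ i * ∑ a, u ⟨i, a⟩ ^ 2) * √(M i * ρ i * ∑ a, v ⟨i, a⟩ ^ 2) := by
      intro i
      refine (cs_w univ (fun x _ => hmu0 x) _ _).trans ?_
      refine mul_le_mul (Real.sqrt_le_sqrt ?_) (Real.sqrt_le_sqrt ?_)
        (Real.sqrt_nonneg _) (Real.sqrt_nonneg _)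
      · rw [mul_assoc]; exact hE2 u i
      · rw [mul_assoc]; exact hE2 v i
    refine (Finset.abs_sum_le_sum_abs _ _).trans ((Finset.sum_le_sum fun i _ => h3 i).trans ?_)
    have h5 := cs_w (univ : Finset ι) (w := fun _ => 1) (fun _ _ => zero_le_one)
      (fun i => √(M i * ρ i * ∑ a, u ⟨i, a⟩ ^ 2)) (fun i => √(M i * ρ i * ∑ a, v ⟨i, a⟩ ^ 2))
    simp only [one_mul] at h5
    refine (le_abs_self _).trans (h5.trans (le_of_eq ?_))
    rw [hB]
    congr 2
    · exact Finset.sum_congr rfl fun i _ => Real.sq_sqrt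
        (mul_nonneg (mul_nonneg (hM0 i) (hρ i)) (hsi u i))
    · exact Finset.sum_congr rfl fun i _ => Real.sq_sqrt
        (mul_nonneg (mul_nonneg (hM0 i) (hρ i)) (hsi v i))
  have hfin : ∑ p, ∑ q, u p * (√(wm lam ρ p) * √(wm lam ρ q) *
        cumT (Mh lam mu) (p ::ₘ q ::ₘ 0)) * v q
      = (∑ x, mu x * ((∑ i, ph lam ρ u i (x i)) * (∑ i, ph lam ρ v i (x i)))
      - (∑ x, mu x * ∑ i, ph lam ρ u i (x i)) * (∑ x, mu x * ∑ i, ph lam ρ v i (x i)))
      - ∑ i, ∑ x, mu x * (ph lam ρ u i (x i) * ph lam ρ v i (x i)) := hb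
  rw [hfin]
  refine (abs_sub _ _).trans ((add_le_add hCov hDiag).trans ?_)
  rw [← hAB, ← hAB]
  -- Cauchy-Schwarz for two terms
  have h7 := Real.sqrt_nonneg (A u)
  have h8 := Real.sqrt_nonneg (A v)
  have h9 := Real.sqrt_nonneg (B u)
  have h10 := Real.sqrt_nonneg (B v)
  rw [← Real.sqrt_mul (add_nonneg (hA0 u) (hB0 u))]
  apply Real.le_sqrt_of_sq_le
  have e1 := Real.sq_sqrt (hA0 u)
  have e2 := Real.sq_sqrt (hA0 v)
  have e3 := Real.sq_sqrt (hB0 u)
  have e4 := Real.sq_sqrt (hB0 v)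
  calc (√(A u) * √(A v) + √(B u) * √(B v)) ^ 2
      ≤ (√(A u) ^ 2 + √(B u) ^ 2) * (√(A v) ^ 2 + √(B v) ^ 2) := by
        nlinarith [sq_nonneg (√(A u) * √(B v) - √(B u) * √(A v))]
    _ = _ := by rw [e1, e2, e3, e4]

/-- **Operator norm between two sets of letters.** -/
theorem op_typ {D0 : ℕ} (hNO : NearOrthM lam t M D0 mu) (hD0 : 1 ≤ D0)
    (hmu0 : ∀ x, 0 ≤ mu x) (hmu : ∑ x, mu x = 1) (h0 : ∀ i a, 0 ≤ lam i a)
    (h1 : ∀ i, ∑ a, lam i a = 1) (hρ : ∀ i, 0 ≤ ρ i) (ht : ∀ i, 0 < t i) (hM1 : ∀ i, 1 ≤ M i)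
    (hM : ∀ i a, m1 mu i a ≤ M i * lam i a) {X Y : Finset (Σ i, V i)} {CX CY : ℝ}
    (hCX0 : 0 ≤ CX) (hCY0 : 0 ≤ CY)
    (hCX : ∀ p ∈ X, Cop ρ t M p.1 ≤ CX) (hCY : ∀ p ∈ Y, Cop ρ t M p.1 ≤ CY) :
    BV (√CX * √CY) X Y fun p q => scal (wm lam ρ) (cumT (Mh lam mu)) (p ::ₘ q ::ₘ 0) := by
  intro u v
  have h2 := op_lawT hNO hD0 hmu0 hmu h0 h1 hρ ht hM1 hM (fun p => if p ∈ X then u p else 0)
    (fun p => if p ∈ Y then v p else 0)
  have h3 : ∑ p, ∑ q, (if p ∈ X then u p else 0) * (√(wm lam ρ p) * √(wm lam ρ q) *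
        cumT (Mh lam mu) (p ::ₘ q ::ₘ 0)) * (if q ∈ Y then v q else 0) =
      ∑ p ∈ X, ∑ q ∈ Y, u p * scal (wm lam ρ) (cumT (Mh lam mu)) (p ::ₘ q ::ₘ 0) * v q := by
    rw [← Finset.sum_filter_add_sum_filter_not univ (fun p => p ∈ X)]
    have h4 : ∑ p with p ∉ X, ∑ q, (if p ∈ X then u p else 0) * (√(wm lam ρ p) * √(wm lam ρ q) *
        cumT (Mh lam mu) (p ::ₘ q ::ₘ 0)) * (if q ∈ Y then v q else 0) = 0 := by
      refine Finset.sum_eq_zero fun p hp => Finset.sum_eq_zero fun q _ => ?_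
      rw [if_neg (Finset.mem_filter.1 hp).2]
      ring
    rw [h4, add_zero, Finset.filter_mem_eq_inter, Finset.univ_inter]
    refine Finset.sum_congr rfl fun p hp => ?_
    rw [← Finset.sum_filter_add_sum_filter_not univ (fun q => q ∈ Y)]
    have h5 : ∑ q with q ∉ Y, (if p ∈ X then u p else 0) * (√(wm lam ρ p) * √(wm lam ρ q) *
        cumT (Mh lam mu) (p ::ₘ q ::ₘ 0)) * (if q ∈ Y then v q else 0) = 0 := by
      refine Finset.sum_eq_zero fun q hq => ?_
      rw [if_neg (Finset.mem_filter.1 hq).2, mul_zero]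
    rw [h5, add_zero, Finset.filter_mem_eq_inter, Finset.univ_inter]
    refine Finset.sum_congr rfl fun q hq => ?_
    rw [if_pos hp, if_pos hq]
    unfold scal
    simp only [Multiset.map_cons, Multiset.map_zero, Multiset.prod_cons, Multiset.prod_zero,
      mul_one]
    ring
  rw [h3] at h2
  have h6 : ∀ (Z : Finset (Σ i, V i)) (C : ℝ) (f : (Σ i, V i) → ℝ), 0 ≤ C →
      (∀ p ∈ Z, Cop ρ t M p.1 ≤ C) →
      √(∑ p, Cop ρ t M p.1 * (if p ∈ Z then f p else 0) ^ 2) ≤ √C * √(∑ p ∈ Z, f p ^ 2) := by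
    intro Z C f hC hCZ
    rw [← Real.sqrt_mul hC]
    apply Real.sqrt_le_sqrt
    rw [Finset.mul_sum, ← Finset.sum_filter_add_sum_filter_not univ (fun p => p ∈ Z)]
    have h4 : ∑ p with p ∉ Z, Cop ρ t M p.1 * (if p ∈ Z then f p else 0) ^ 2 = 0 := by
      refine Finset.sum_eq_zero fun p hp => ?_
      rw [if_neg (Finset.mem_filter.1 hp).2]
      ring
    rw [h4, add_zero, Finset.filter_mem_eq_inter, Finset.univ_inter]
    refine Finset.sum_le_sum fun p hp => ?_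
    rw [if_pos hp]
    exact mul_le_mul_of_nonneg_right (hCZ p hp) (sq_nonneg _)
  calc _ ≤ _ := h2
    _ ≤ (√CX * √(∑ p ∈ X, u p ^ 2)) * (√CY * √(∑ q ∈ Y, v q ^ 2)) :=
        mul_le_mul (h6 X CX u hCX0 hCX) (h6 Y CY v hCY0 hCY) (Real.sqrt_nonneg _)
          (mul_nonneg (Real.sqrt_nonneg _) (Real.sqrt_nonneg _))
    _ = _ := by ring

theorem BHyp.near {L Λ ε κ δ : ℝ} {D0 : ℕ} (h : BHyp lam mu t M L Λ ε κ δ D0) :
    NearOrthM lam t M D0 mu := by
  by_cases hne : Nonempty ι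
  · have hD : (1 : ℝ) ≤ D0 := by exact_mod_cast h.D1
    have hc : (0 : ℝ) < Fintype.card ι := by exact_mod_cast Fintype.card_pos
    refine near_orthM h.law h.ref h.i1 h.M1 h.t0 h.t1 h.eps h.kap h.L0 ?_ h.mei h.del h.sm
    refine le_trans ?_ h.lam'
    have h1 : Real.log (Fintype.card ι) ≤ Real.log (Fintype.card ι * D0) :=
      Real.log_le_log hc (by nlinarith)
    have := mul_le_mul_of_nonneg_left h1 (by linarith : (0 : ℝ) ≤ D0)
    linarith
  · have he : IsEmpty ι := not_nonempty_iff.1 hne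
    refine near_orthM h.law h.ref h.i1 h.M1 h.t0 h.t1 h.eps h.kap h.L0 ?_ h.mei h.del h.sm
    have h1 := h.lam'
    simp only [Fintype.card_eq_zero, Nat.cast_zero, zero_mul, Real.log_zero] at h1 ⊢
    exact h1

end Vale.Agent.P042.H365
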