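import Vale.Agent.P042.H161.LawHi
import Vale.Agent.P042.H276.RwRef
import Vale.Agent.P042.H276.RefSub

/-!
# P042, row C.4: the third branch with the change of the reference

`lam` is the reference of block [B] and of Theorem H, `lam2` the reference of the kernels,
`lam ≤ rr * lam2`: 161's third branch for the extended letters relative to `lam2`.
-/

set_option autoImplicit false
set_option linter.unusedSectionVars false

namespace Vale.Agent.P042.H365

open Finset Vale.Agent.P042.H461 Vale.Agent.P042.H416 Vale.Agent.P042.H742 Vale.Agent.P042.H232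
open Vale.Agent.P042.H779 (marg m1)
open Vale.Agent.P042.H284 (BV Lt pr pr_nonneg pr_perm BdT sum_Lt_cons sum_Lt_nil)
open Vale.Agent.P042.H161 (NumC HypH wx wx_pos tx_pos rx rx_le leg_num EE_le one_le_EE top_rws
  top_tots Tots Rws tn_mix tn_mix0 const_le bv_of_two Rws.mono Tots.mono)
open Vale.Agent.P042.H422 (RefPair Rws.ref Tots.ref)
open Vale.Agent.P042.H276 (g1_ref)

universe u

section main

variable {ι : Type*} [Fintype ι] [DecidableEq ι] {V : ι → Type*} [∀ i, Fintype (V i)]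
  [∀ i, DecidableEq (V i)] {J : Type u} [DecidableEq J] {lam lam2 : ∀ i, V i → ℝ}
  {mu : (∀ i, V i) → ℝ} {sc : ι → J} {ell : J → ℝ} {s : J} {b : ℕ}
  {p G h Kf σ L Λ ε κ δ C1 cs η Gn : ℝ} {R E Mp rr : ι → ℝ}
  {VV : J → Finset (Σ i, Option (V i))}

/-- **The third branch**, relative to the reference `lam2` of the kernels. -/
theorem hs2_aux (T : TopH lam mu sc ell s b p G h Kf σ L Λ ε κ δ (fun i => rr i * R i) E)
    (N : NumC p G h Kf C1 cs η) (HH : HypH lam mu sc ell b p h Kf cs Mp Gn)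
    (P : RefPair lam lam2 mu rr) (R0 : ∀ i, 0 < R i)
    (hrr : ∀ i, rr i ≤ Real.exp (h / 2 * ell (sc i)))
    (hMp : ∀ i, Mp i ≤ Real.exp (h / 2 * ell (sc i)))
    (lev2 : ∑ i with sc i = s, (R i * ∑ a, lam2 i a * g1 lam2 mu i a ^ 2 + E i) ≤
      Real.exp (2 * h * ell s))
    (htop : (2 - 4 * G) * p ≤ ell s) (hC : ell s ≤ C1 * p)
    (hV : ∀ l ω, ω ∈ VV l ↔ sc ω.1 = l) {τ : List J} (h1 : 1 ≤ τ.length) (hb : τ.length ≤ b) :
    ∑ ω ∈ Lt VV (s :: τ), Tn lam2 mu R E (ω : Multiset _) ^ 2 ≤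
      Real.exp (-(η / 4 - 2 * h) * ((s :: τ).map ell).sum) := by
  have hη := N.eta0
  have hηcs := N.eta_le
  have hη1 : η ≤ 1 / 24 := by have := N.cs1; linarith
  have hh0 := N.h0
  have hh1 := N.h1
  have hp := N.p0
  have hK := N.Kf1
  have hK0 : 0 < Kf := by linarith
  have hσ := T.s0
  have hG : G ≤ 1 / 8 := by have := N.G1; linarith
  have hF0 : 0 ≤ (1 - G) * p := mul_nonneg (by linarith) hp.le
  have hB := T.B ((1 - G) * p) hF0 le_rfl
  have hb1 : (1 : ℝ) ≤ b := by exact_mod_cast T.b1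
  have hell0 : ∀ l, 0 ≤ ell l := fun l => by have := T.ell1 l; linarith
  have hellC : ∀ i, ell (sc i) ≤ C1 * p := fun i => (T.top i).trans hC
  have hrr0 : ∀ i, 0 < rr i := fun i => by linarith [P.rr1 i]
  set w : ι → ℝ := fun i => wx p h Kf cs (ell (sc i)) with hw
  have hE1 : 1 ≤ H161.EE (H161.Lo sc ell p) w Mp :=
    one_le_EE (fun i => (wx_pos N _).le) HH.M1
  have hE2 : H161.EE (H161.Lo sc ell p) w Mp ≤ 1.3 := EE_le HH hK
  have hrws := top_rws T N HH
  have htot := top_tots T N HH htop hC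
  set EV := H161.EE (H161.Lo sc ell p) w Mp with hEV
  set r : ι → ℝ := fun i => rx p G h Kf cs η (ell (sc i)) with hr
  set K : ι → ℝ := fun i => 2 * Real.exp (h * ell (sc i)) * Mp i * EV with hKd
  set θ : ℝ := √(4 * ((b + 1 : ℕ) : ℝ) * EV) with hθ
  set E' : ι → ℝ := fun i => Real.exp (-(1 - η / 2) * ell (sc i)) / (4 * Kf) with hE'd
  set q : J → ℝ := fun l => 4 * Kf * σ * Real.exp (-(η / 2 - h) * ell l) with hqd
  have hr0 : ∀ i, 0 ≤ r i := hrws.r0
  have hrws2 := Rws.ref hrws P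
  have htot2 := Tots.ref htot P hr0 (fun i => (T.R0 i).le)
  have hRe : (fun i => rr i * R i / rr i) = R := by
    funext i
    rw [mul_comm, mul_div_assoc, div_self (hrr0 i).ne', mul_one]
  rw [hRe] at htot2
  have hexp1 : ∀ i, 1 ≤ Real.exp (h * ell (sc i)) := fun i =>
    Real.one_le_exp (mul_nonneg hh0 (hell0 _))
  have hK1 : ∀ i, Real.exp (h * ell (sc i)) ≤ K i := by
    intro i
    have h3 := HH.M1 i
    have h4 : 1 ≤ Mp i * EV := by nlinarith
    rw [hKd]
    beta_reduce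
    have h5 := hexp1 i
    calc Real.exp (h * ell (sc i)) ≤ Real.exp (h * ell (sc i)) * (2 * (Mp i * EV)) :=
          le_mul_of_one_le_right (Real.exp_pos _).le (by linarith)
      _ = _ := by ring
  have hK12 : ∀ i, 1 ≤ rr i * K i := fun i =>
    one_le_mul_of_one_le_of_one_le (P.rr1 i) ((hexp1 i).trans (hK1 i))
  have hK2 : ∀ i, K i ^ 2 ≤ 4 * EV ^ 2 * Real.exp (3 * h * ell (sc i)) := by
    intro i
    have h3 := HH.M1 i
    have h4 := hMp i
    have h6 : Mp i ^ 2 ≤ Real.exp (h / 2 * ell (sc i)) ^ 2 :=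
      pow_le_pow_left₀ (by linarith) h4 2
    have h7 : Real.exp (3 * h * ell (sc i)) =
        Real.exp (h * ell (sc i)) ^ 2 * Real.exp (h / 2 * ell (sc i)) ^ 2 := by
      rw [← Real.exp_nat_mul, ← Real.exp_nat_mul, ← Real.exp_add]
      congr 1
      push_cast
      ring
    rw [hKd, h7]
    beta_reduce
    calc (2 * Real.exp (h * ell (sc i)) * Mp i * EV) ^ 2
        = 4 * EV ^ 2 * Real.exp (h * ell (sc i)) ^ 2 * Mp i ^ 2 := by ring
      _ ≤ 4 * EV ^ 2 * Real.exp (h * ell (sc i)) ^ 2 * Real.exp (h / 2 * ell (sc i)) ^ 2 :=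
          mul_le_mul_of_nonneg_left h6 (by positivity)
      _ = _ := by ring
  have hg : ∀ i a, lam2 i a ≠ 0 → |g1 lam2 mu i a| ≤ rr i * K i := fun i a hla =>
    (g1_ref P hB i a hla).trans (mul_le_mul_of_nonneg_left (hK1 i) (hrr0 i).le)
  have hE'0 : ∀ i, 0 ≤ E' i := fun i => by rw [hE'd]; positivity
  set sc' : ℝ := EV * √(5 / Kf) with hsc
  have hcoord : ∀ i, (rr i * K i) ^ 2 * (r i / rr i + E' i) ≤ sc' ^ 2 := by
    intro i
    have hx := hell0 (sc i)
    have h3 : r i ≤ Real.exp (-(4 * h) * ell (sc i)) / Kf := rx_le N (hell0 _) (hellC i)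
    have hr2 : rr i ^ 2 ≤ Real.exp (h * ell (sc i)) := by
      have h4 := pow_le_pow_left₀ (hrr0 i).le (hrr i) 2
      refine h4.trans (le_of_eq ?_)
      rw [← Real.exp_nat_mul]
      congr 1
      push_cast
      ring
    have hr1 : rr i ≤ Real.exp (h * ell (sc i)) := (hrr i).trans
      (Real.exp_le_exp.2 (by have := mul_nonneg hh0 hx; linarith))
    have h4 : rr i * r i ≤ Real.exp (-(3 * h) * ell (sc i)) / Kf := by
      calc rr i * r i ≤ Real.exp (h * ell (sc i)) * (Real.exp (-(4 * h) * ell (sc i)) / Kf) :=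
            mul_le_mul hr1 h3 (hr0 i) (Real.exp_pos _).le
        _ = (Real.exp (h * ell (sc i)) * Real.exp (-(4 * h) * ell (sc i))) / Kf := by ring
        _ = _ := by
            rw [← Real.exp_add]
            congr 2
            ring
    have h5 : rr i ^ 2 * E' i ≤ Real.exp (-(3 * h) * ell (sc i)) / (4 * Kf) := by
      rw [hE'd]
      beta_reduce
      calc rr i ^ 2 * (Real.exp (-(1 - η / 2) * ell (sc i)) / (4 * Kf)) ≤
            Real.exp (h * ell (sc i)) * (Real.exp (-(1 - η / 2) * ell (sc i)) / (4 * Kf)) :=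
            mul_le_mul_of_nonneg_right hr2 (by positivity)
        _ = Real.exp (h * ell (sc i) + -(1 - η / 2) * ell (sc i)) / (4 * Kf) := by
            rw [Real.exp_add]
            ring
        _ ≤ _ := by
            refine div_le_div_of_nonneg_right (Real.exp_le_exp.2 ?_) (by positivity)
            have h6 : 4 * h * ell (sc i) ≤ η / 16 * ell (sc i) :=
              mul_le_mul_of_nonneg_right (by linarith) hx
            have h7 : η * ell (sc i) ≤ 1 / 24 * ell (sc i) := mul_le_mul_of_nonneg_right hη1 hx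
            nlinarith
    have h6 : (rr i * K i) ^ 2 * (r i / rr i + E' i) =
        K i ^ 2 * (rr i * r i + rr i ^ 2 * E' i) := by
      have := (hrr0 i).ne'
      field_simp
    rw [h6]
    have h7 : rr i * r i + rr i ^ 2 * E' i ≤
        5 / (4 * Kf) * Real.exp (-(3 * h) * ell (sc i)) := by
      refine (add_le_add h4 h5).trans (le_of_eq ?_)
      field_simp
      ring
    have h8 : 0 ≤ rr i * r i + rr i ^ 2 * E' i :=
      add_nonneg (mul_nonneg (hrr0 i).le (hr0 i)) (mul_nonneg (sq_nonneg _) (hE'0 i))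
    calc K i ^ 2 * (rr i * r i + rr i ^ 2 * E' i)
        ≤ (4 * EV ^ 2 * Real.exp (3 * h * ell (sc i))) *
          (5 / (4 * Kf) * Real.exp (-(3 * h) * ell (sc i))) :=
          mul_le_mul (hK2 i) h7 h8 (by positivity)
      _ = EV ^ 2 * (5 / Kf) * (Real.exp (3 * h * ell (sc i)) *
          Real.exp (-(3 * h) * ell (sc i))) := by
          field_simp
      _ = EV ^ 2 * (5 / Kf) := by
          rw [← Real.exp_add, show 3 * h * ell (sc i) + -(3 * h) * ell (sc i) = 0 by ring,
            Real.exp_zero, mul_one]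
      _ = sc' ^ 2 := by
          rw [hsc, mul_pow, Real.sq_sqrt (by positivity)]
  have hsc0 : 0 ≤ sc' := by rw [hsc]; positivity
  have hsmall : 8 * b * sc' ≤ θ := by
    rw [hθ]
    refine Real.le_sqrt_of_sq_le ?_
    have h3 : (8 * b * sc') ^ 2 = 320 * b ^ 2 * EV ^ 2 / Kf := by
      rw [hsc, mul_pow, mul_pow EV, Real.sq_sqrt (by positivity)]
      ring
    rw [h3, div_le_iff₀ hK0]
    have h4 := T.Kf1
    have h5 : 320 * (b : ℝ) ^ 2 * EV ^ 2 ≤ 320 * b ^ 2 * (EV * 1.3) := by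
      refine mul_le_mul_of_nonneg_left ?_ (by positivity)
      rw [pow_two]
      exact mul_le_mul_of_nonneg_left hE2 (by linarith)
    have h6 : 4 * ((b + 1 : ℕ) : ℝ) * EV * Kf ≥ 4 * b * EV * (128 * b) := by
      have h7 : (b : ℝ) ≤ ((b + 1 : ℕ) : ℝ) := by push_cast; linarith
      exact mul_le_mul (by gcongr) h4 (by positivity) (by positivity)
    nlinarith [mul_nonneg (sq_nonneg (b : ℝ)) (by linarith : (0:ℝ) ≤ EV)]
  have hq0 : ∀ l, 0 ≤ q l := fun l => by rw [hqd]; positivity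
  have hqR : ∀ i, sc i ∈ τ → R i ≤ q (sc i) * (r i / rr i) := by
    intro i _
    have h3 := leg_num N (hell0 (sc i)) (hellC i)
    have h4 : rr i * R i ≤ σ * Real.exp (-(1 / 2) * ell (sc i) + h * ell (sc i)) := T.R1 i
    have h5 : rr i * R i ≤ q (sc i) * r i := by
      calc rr i * R i ≤ σ * Real.exp (-(1 / 2) * ell (sc i) + h * ell (sc i)) := h4
        _ = σ * Real.exp (h * ell (sc i)) * Real.exp (-ell (sc i) / 2) := by
            rw [mul_assoc, ← Real.exp_add]
            congr 2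
            ring
        _ ≤ σ * Real.exp (h * ell (sc i)) *
              (4 * Kf * Real.exp (-(η / 2) * ell (sc i)) * r i) :=
            mul_le_mul_of_nonneg_left h3 (by positivity)
        _ = 4 * Kf * σ * (Real.exp (h * ell (sc i)) * Real.exp (-(η / 2) * ell (sc i))) * r i := by
            ring
        _ = q (sc i) * r i := by
            rw [← Real.exp_add, hqd]
            beta_reduce
            congr 3
            ring
    rw [← mul_div_assoc, le_div_iff₀ (hrr0 i), mul_comm]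
    exact h5
  have hqE : ∀ i, sc i ∈ τ → E i ≤ q (sc i) * E' i := by
    intro i _
    refine (T.E1 i).trans (le_of_eq ?_)
    rw [hqd, hE'd]
    beta_reduce
    have h3 : 4 * Kf * σ * Real.exp (-(η / 2 - h) * ell (sc i)) *
        (Real.exp (-(1 - η / 2) * ell (sc i)) / (4 * Kf)) =
        σ * (Real.exp (-(η / 2 - h) * ell (sc i)) * Real.exp (-(1 - η / 2) * ell (sc i))) := by
      field_simp
    rw [h3, ← Real.exp_add]
    congr 2
    ring
  have hprq : pr q τ = (4 * Kf * σ) ^ τ.length * Real.exp (-(η / 2 - h) * (τ.map ell).sum) :=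
    H161.pr_exp (4 * Kf * σ) (η / 2 - h) τ
  have hconst : ∀ A : ℝ, pr q τ * (2 * A * (τ.length.factorial * θ ^ τ.length)) ^ 2 ≤
      A ^ 2 * Real.exp (-(η / 2 - h) * (τ.map ell).sum) := by
    intro A
    have h3 := const_le (A := A) h1 hb hE1 hE2 hK hσ T.s1
    rw [hprq]
    calc _ = ((4 * Kf * σ) ^ τ.length * (2 * A * (τ.length.factorial * θ ^ τ.length)) ^ 2) *
          Real.exp (-(η / 2 - h) * (τ.map ell).sum) := by ring
      _ ≤ _ := mul_le_mul_of_nonneg_right h3 (Real.exp_pos _).le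
  have hsum0 : 0 ≤ (τ.map ell).sum := List.sum_nonneg fun x hx => by
    obtain ⟨l, _, rfl⟩ := List.mem_map.1 hx
    exact hell0 l
  rw [List.map_cons, List.sum_cons]
  by_cases hsτ : s ∈ τ
  · -- the top scale is repeated
    have hA : (0 : ℝ) ≤ Real.exp (h * ell s) := (Real.exp_pos _).le
    have hT' : Tots lam2 mu (fun i => r i / rr i) R (univ.filter fun i => sc i = s)
        (Real.exp (h * ell s)) θ (b + 1) :=
      Tots.mono P.n2 (fun i => (R0 i).le) htot2 hrws2.r0 (fun _ => le_rfl)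
        (Real.exp_pos _).le (Real.exp_le_exp.2 (by
          have h3 : 0 ≤ cs / 8 * p := mul_nonneg (by linarith [N.cs0]) hp.le
          have h4 := mul_nonneg hh0 (hell0 s)
          linarith)) (Real.sqrt_nonneg _) le_rfl
    have hl : ∑ i with sc i = s, (R i * ∑ a, lam2 i a * g1 lam2 mu i a ^ 2 + E i) ≤
        Real.exp (h * ell s) ^ 2 := by
      refine lev2.trans (le_of_eq ?_)
      rw [← Real.exp_nat_mul]
      congr 1
      push_cast
      ring
    have h3 := tn_mix P.m1' P.n2 P.s2 hrws2 hK12 hg hE'0 (b0 := b) le_rfl hsc0 hcoord hsmall hV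
      (fun i => (R0 i).le) (fun i => (T.E0 i).le) hq0 hb hqR hqE hA hl hT'
    refine h3.trans ((hconst _).trans ?_)
    rw [← Real.exp_nat_mul, ← Real.exp_add]
    refine Real.exp_le_exp.2 ?_
    have h4 : ell s ≤ (τ.map ell).sum := by
      refine List.single_le_sum ?_ _ (List.mem_map.2 ⟨s, hsτ, rfl⟩)
      intro x hx
      obtain ⟨l, _, rfl⟩ := List.mem_map.1 hx
      exact hell0 l
    push_cast
    have h5 : 0 ≤ η * ((τ.map ell).sum - ell s) := mul_nonneg hη.le (by linarith)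
    have h6 : 0 ≤ h * (τ.map ell).sum := mul_nonneg hh0 hsum0
    nlinarith
  · have hA : (0 : ℝ) ≤ Real.exp (-(cs / 8) * p) := (Real.exp_pos _).le
    have h3 := tn_mix0 P.m1' P.n2 P.s2 hrws2 hK12 hg hE'0 (b0 := b) le_rfl hsc0 hcoord hsmall hV
      (fun i => (R0 i).le) (fun i => (T.E0 i).le) hq0 hsτ h1 hb hqR hqE hA htot2
    refine h3.trans ((hconst _).trans ?_)
    rw [← Real.exp_nat_mul, ← Real.exp_add]
    refine Real.exp_le_exp.2 ?_
    push_cast
    have h4 : η * ell s ≤ cs / 12 * p := by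
      calc η * ell s ≤ η * (C1 * p) := mul_le_mul_of_nonneg_left hC hη.le
        _ = _ := by rw [← mul_assoc, N.etaC]
    have h5 : 0 ≤ η * (τ.map ell).sum := mul_nonneg hη.le hsum0
    have h6 : 0 ≤ h * (τ.map ell).sum := mul_nonneg hh0 hsum0
    have h7 : 0 ≤ h * ell s := mul_nonneg hh0 (hell0 s)
    have h8 : 0 ≤ cs * p := mul_nonneg N.cs0.le hp.le
    have h9 : 0 ≤ η * ell s := mul_nonneg hη.le (hell0 s)
    nlinarith

/-- **The third branch**, any order of the types. -/
theorem hs2 (T : TopH lam mu sc ell s b p G h Kf σ L Λ ε κ δ (fun i => rr i * R i) E)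
    (N : NumC p G h Kf C1 cs η) (HH : HypH lam mu sc ell b p h Kf cs Mp Gn)
    (P : RefPair lam lam2 mu rr) (R0 : ∀ i, 0 < R i)
    (hrr : ∀ i, rr i ≤ Real.exp (h / 2 * ell (sc i)))
    (hMp : ∀ i, Mp i ≤ Real.exp (h / 2 * ell (sc i)))
    (lev2 : ∑ i with sc i = s, (R i * ∑ a, lam2 i a * g1 lam2 mu i a ^ 2 + E i) ≤
      Real.exp (2 * h * ell s))
    (htop : (2 - 4 * G) * p ≤ ell s) (hC : ell s ≤ C1 * p)
    (hV : ∀ l ω, ω ∈ VV l ↔ sc ω.1 = l) {τ : List J} (hs : s ∈ τ) (h2 : 2 ≤ τ.length)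
    (hb : τ.length ≤ b + 1) :
    ∑ ω ∈ Lt VV τ, Tn lam2 mu R E (ω : Multiset _) ^ 2 ≤
      Real.exp (-(η / 4 - 2 * h) * (τ.map ell).sum) := by
  have h3 : τ.Perm (s :: τ.erase s) := List.perm_cons_erase hs
  have h4 : (τ.erase s).length = τ.length - 1 := List.length_erase_of_mem hs
  rw [typ_perm h3 (fun M => Tn lam2 mu R E M ^ 2), (h3.map ell).sum_eq]
  exact hs2_aux T N HH P R0 hrr hMp lev2 htop hC hV (by omega) (by omega)

/-- **The typed bounds with top scale `s`, `ell s ≥ (2 - 4 G) p`**, reference `lam2`. -/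
theorem tb_hi2 (T : TopH lam mu sc ell s b p G h Kf σ L Λ ε κ δ (fun i => rr i * R i) E)
    (N : NumC p G h Kf C1 cs η) (HH : HypH lam mu sc ell b p h Kf cs Mp Gn)
    (P : RefPair lam lam2 mu rr) (R0 : ∀ i, 0 < R i)
    (hrr : ∀ i, rr i ≤ Real.exp (h / 2 * ell (sc i)))
    (hMp : ∀ i, Mp i ≤ Real.exp (h / 2 * ell (sc i)))
    (lev2 : ∑ i with sc i = s, (R i * ∑ a, lam2 i a * g1 lam2 mu i a ^ 2 + E i) ≤
      Real.exp (2 * h * ell s))
    (htop : (2 - 4 * G) * p ≤ ell s) (hC : ell s ≤ C1 * p)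
    (hV : ∀ l ω, ω ∈ VV l ↔ sc ω.1 = l) {g c1 c2 : ℝ} (hg : 0 ≤ g) (hc : c1 + g ≤ η / 8 - h)
    (hc2 : c2 ≤ η / 8 - h) :
    TB VV ell s b g c1 c2 (Tn lam2 mu R E) := by
  have hell0 : ∀ l, 0 ≤ ell l := fun l => by have := T.ell1 l; linarith
  have hb1 := T.b1
  have hη := N.eta0
  have hh1 := N.h1
  refine ⟨fun l hl => ?_, fun l hl => ?_, fun τ hsτ hτs h3 hb => ?_⟩
  · refine (hs2 T N HH P R0 hrr hMp lev2 htop hC hV (τ := [s, l]) (by simp) (by simp)
      (by simp; omega)).trans ?_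
    rw [← Real.exp_nat_mul]
    refine Real.exp_le_exp.2 ?_
    have h4 : 0 ≤ g * ell l := mul_nonneg hg (hell0 l)
    have h5 : c2 * (ell s - ell l) ≤ (η / 8 - h) * (ell s - ell l) :=
      mul_le_mul_of_nonneg_right hc2 (by linarith)
    have h6 : 0 ≤ (η / 8 - h) * ell l := mul_nonneg (by linarith) (hell0 l)
    simp only [List.map_cons, List.map_nil, List.sum_cons, List.sum_nil]
    push_cast
    linarith
  · have hop : BV (Real.exp (-(η / 8 - h) * (ell s + ell l))) (VV s) (VV l)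
        fun x y => Tn lam2 mu R E (x ::ₘ y ::ₘ 0) := by
      refine bv_of_two (Real.exp_pos _).le ?_
      refine (hs2 T N HH P R0 hrr hMp lev2 htop hC hV (τ := [s, l]) (by simp) (by simp)
        (by simp; omega)).trans (le_of_eq ?_)
      rw [← Real.exp_nat_mul]
      congr 1
      simp
      ring
    refine BV.mono hop (Real.exp_le_exp.2 ?_)
    have h4 : 0 ≤ g * ell l := mul_nonneg hg (hell0 l)
    have h5 : (c1 + g) * ell s ≤ (η / 8 - h) * ell s :=
      mul_le_mul_of_nonneg_right hc (hell0 s)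
    have h6 : 0 ≤ (η / 8 - h) * ell l := mul_nonneg (by linarith) (hell0 l)
    linarith
  · refine (hs2 T N HH P R0 hrr hMp lev2 htop hC hV hsτ (by omega) (by omega)).trans ?_
    rw [← Real.exp_nat_mul]
    refine Real.exp_le_exp.2 ?_
    have h4 : 0 ≤ (τ.map ell).sum := List.sum_nonneg fun x hx => by
      obtain ⟨l, _, rfl⟩ := List.mem_map.1 hx
      exact hell0 l
    have := mul_le_mul_of_nonneg_right hc h4
    push_cast
    linarith

end main

end Vale.Agent.P042.H365
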