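import Vale.Agent.P042.H365.BTx
import Vale.Agent.P042.H365.Hi2
import Vale.Agent.P042.H276.PhSub

/-!
# P042, row C.4: existence of `BTS` for the reference of the kernels

`lam` = reference of the laws (block [B], Theorem H), `lam2` = reference of the kernels, equal to
`lam` on the scales at most `P^(2-4G)`.
-/

set_option autoImplicit false
set_option linter.unusedSectionVars false

namespace Vale.Agent.P042.H365

open Finset Vale.Agent.P042.H232 Vale.Agent.P042.H461 Vale.Agent.P042.H416 Vale.Agent.P042.H742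
open Vale.Agent.P042.H779 (marg m1)
open Vale.Agent.P042.H284 (Lt sum_Lt_nil sum_Lt_cons sum_Lt_perm pr pr_nil pr_cons pr_nonneg
  pr_perm BV BdT VJ BTS)
open Vale.Agent.P042.H161 (NumC HypH PH hypH_sub)
open Vale.Agent.P042.H422 (RefPair)
open Vale.Agent.P042.H276 (RefPair_sub PH_sub)

section one

variable {ι : Type*} [Fintype ι] [DecidableEq ι] {V : ι → Type*} [∀ i, Fintype (V i)]
  [∀ i, DecidableEq (V i)] {J : Type*} [DecidableEq J] {lam : ∀ i, V i → ℝ}
  {mu : (∀ i, V i) → ℝ} {sc : ι → J} {R E : ι → ℝ}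

/-- **Order one**, any reference. -/
theorem one_ref (hmu : ∑ x, mu x = 1) (h0 : ∀ i a, 0 ≤ lam i a) (R0 : ∀ i, 0 ≤ R i)
    (E0 : ∀ i, 0 ≤ E i) {VV : J → Finset (Σ i, Option (V i))}
    (hV : ∀ l ω, ω ∈ VV l ↔ sc ω.1 = l) (l : J) :
    ∑ ω ∈ Lt VV [l], Tn lam mu R E (ω : Multiset _) ^ 2 =
      ∑ i with sc i = l, (R i * ∑ a, lam i a * g1 lam mu i a ^ 2 + E i) := by
  have h2 := root_ext (lam := lam) (mu := mu) (R := R) (E := E) (r := R) (E' := E) hmu hV l 0
  rw [if_pos rfl] at h2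
  rw [H284.sum_Lt_cons]
  have h1 : ∑ ω ∈ VV l, wo lam R E ω * rowo lam mu (wo lam R E) 0 ω ^ 2 =
      ∑ a ∈ VV l, ∑ ω ∈ Lt VV [], Tn lam mu R E ((a :: ω : List _) : Multiset _) ^ 2 := by
    refine Finset.sum_congr rfl fun a _ => ?_
    rw [H284.sum_Lt_nil, tn_eq_scal, scal_sq (wo_nonneg h0 R0 E0)]
    unfold rowo
    rw [nrm_zero, sq_abs]
    have h2 : (((a :: [] : List _) : Multiset (Σ i, Option (V i)))) = a ::ₘ 0 := rfl
    rw [h2, if_pos (by simp [Dst])]
    simp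
  rw [← h1, h2, Finset.sum_add_distrib]
  congr 1
  refine Finset.sum_congr rfl fun i _ => ?_
  congr 1
  refine Finset.sum_congr rfl fun a _ => ?_
  unfold rowh
  rw [H232.row_zero hmu, sq_abs]

/-- order one of a marginal law -/
theorem lev_sub [Fintype J] {p : ι → Prop} [DecidablePred p] (h0 : ∀ i a, 0 ≤ lam i a) (R0 : ∀ i, 0 ≤ R i)
    (E0 : ∀ i, 0 ≤ E i) (l : J) :
    ∑ i ∈ univ.filter (fun i : {i // p i} => sc i = l),
      (R i * ∑ a : V i, lsub p lam i a * g1 (lsub p lam) (msub p mu) i a ^ 2 + E i) ≤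
      ∑ i with sc i = l, (R i * ∑ a, lam i a * g1 lam mu i a ^ 2 + E i) := by
  have h1 : ∀ i : {i // p i},
      R i * ∑ a : V i, lsub p lam i a * g1 (lsub p lam) (msub p mu) i a ^ 2 + E i =
        (fun i : ι => R i * ∑ a, lam i a * g1 lam mu i a ^ 2 + E i) i := by
    intro i
    beta_reduce
    congr 2
    exact Finset.sum_congr rfl fun a _ => by rw [g1_sub]; rfl
  rw [Finset.sum_congr rfl fun i _ => h1 i]
  refine sum_sub_le (sc := sc) (p := p) l
    (f := fun i : ι => R i * ∑ a, lam i a * g1 lam mu i a ^ 2 + E i) fun i => ?_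
  have h2 := R0 i
  have h3 := E0 i
  have h4 : 0 ≤ ∑ a, lam i a * g1 lam mu i a ^ 2 :=
    Finset.sum_nonneg fun a _ => mul_nonneg (h0 i a) (sq_nonneg _)
  positivity

end one

section fin

variable {ι : Type*} [Fintype ι] [DecidableEq ι] {V : ι → Type*} [∀ i, Fintype (V i)]
  [∀ i, DecidableEq (V i)] {J : Type*} [Fintype J] [DecidableEq J]
  {lam lam2 : ∀ i, V i → ℝ} {mu mu' : (∀ i, V i) → ℝ} {sc : ι → J} {sn : J → ℕ} {ell : J → ℝ}
  {b0 : ℕ} {p G h A0 C1 cs η Gn : ℝ} {Kf : ℕ → J → ℝ} {lm aa : J → ℝ} {cc : J → ι → ℝ}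
  {ok : J → Finset ι → Prop} {rr Mp : ι → ℝ}

/-- The hypotheses on the two references, on Theorem H at one law, and their numbers. -/
structure RefH (lam lam2 : ∀ i, V i → ℝ) (mu : (∀ i, V i) → ℝ) (sc : ι → J) (ell : J → ℝ)
    (b0 : ℕ) (p G h C1 cs η Gn : ℝ) (Kf : ℕ → J → ℝ) (rr Mp : ι → ℝ) : Prop where
  pair : RefPair lam lam2 mu rr
  rr1 : ∀ i, rr i ≤ Real.exp (h / 2 * ell (sc i))
  low : ∀ i, ell (sc i) ≤ (2 - 4 * G) * p → lam2 i = lam i
  num : NumC p G h 1 C1 cs η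
  top : ∀ j, ell j ≤ C1 * p
  Kf12 : ∀ b s, 1 ≤ b → b ≤ b0 → 12 * ell s ≤ Kf b s
  Gn0 : 0 < Gn
  Gn1 : Gn ≤ Real.exp ((1 - cs) * p)
  M1 : ∀ i, 1 ≤ Mp i
  M2 : ∀ i, Mp i ≤ Real.exp (h / 2 * ell (sc i))
  ph : PH lam (gr lam mu) (univ.filter fun i => p ≤ ell (sc i)) Mp Gn (b0 + 1)
  lev : ∀ l, ∑ i with sc i = l, (RR sc ell h 1 i * ∑ a, lam i a * g1 lam mu i a ^ 2 +
    EE sc ell h 1 i) ≤ Real.exp (2 * h * ell l)
  lev2 : ∀ l, ∑ i with sc i = l, (RR sc ell (h / 2) 1 i * ∑ a, lam2 i a * g1 lam2 mu i a ^ 2 +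
    EE sc ell h 1 i) ≤ Real.exp (2 * h * ell l)

theorem RR_mul (h σ : ℝ) (i : ι) : RR sc ell h σ i = σ * RR sc ell h 1 i := by
  unfold RR
  ring

theorem EE_mul (h σ : ℝ) (i : ι) : EE sc ell h σ i = σ * EE sc ell h 1 i := by
  unfold EE
  ring

/-- order one for smaller weights -/
theorem lev_mono {lam : ∀ i, V i → ℝ} {mu : (∀ i, V i) → ℝ} (h0 : ∀ i a, 0 ≤ lam i a)
    {R R' E E' : ι → ℝ} {B : ℝ} {l : J} (hR : ∀ i, sc i = l → R' i ≤ R i)
    (hE : ∀ i, sc i = l → E' i ≤ E i)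
    (lev : ∑ i with sc i = l, (R i * ∑ a, lam i a * g1 lam mu i a ^ 2 + E i) ≤ B) :
    ∑ i with sc i = l, (R' i * ∑ a, lam i a * g1 lam mu i a ^ 2 + E' i) ≤ B := by
  refine le_trans (Finset.sum_le_sum fun i hi => ?_) lev
  have hi' : sc i = l := (Finset.mem_filter.1 hi).2
  have h4 : 0 ≤ ∑ a, lam i a * g1 lam mu i a ^ 2 :=
    Finset.sum_nonneg fun a _ => mul_nonneg (h0 i a) (sq_nonneg _)
  exact add_le_add (mul_le_mul_of_nonneg_right (hR i hi') h4) (hE i hi')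

/-- **`BdT` of a marginal law, reference of the kernels.** -/
theorem bdT_law2 (H : LawH lam mu sc sn ell b0 p G h A0 Kf lm aa cc ok)
    (N : NumL sn ell p G h A0)
    (D : RefH lam lam2 mu sc ell b0 p G h C1 cs η Gn Kf rr Mp) {g c1 c2 : ℝ}
    (Ng : NumG G h g c1 c2) (hc1 : c1 + g ≤ η / 8 - h) (hc2 : c2 ≤ η / 8 - h) {b : ℕ}
    (hb : 1 ≤ b) (hb0 : b ≤ b0) (j : J) {σ : ℝ} (hσ : 0 < σ) (hσ1 : σ ≤ 1)
    (hs1 : ∀ s, sn s ≤ sn j → 1000 * Kf b s * σ * (b : ℝ) ^ 4 ≤ 1) :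
    BdT (VS V (fun i => sn (sc i) ≤ sn j) sc) b (fun l => Real.exp (g * ell l))
      (fun l => Real.exp (-(c1 * ell l))) (NN ell g c2)
      (Tn (lsub (fun i => sn (sc i) ≤ sn j) lam2) (msub (fun i => sn (sc i) ≤ sn j) mu)
        (fun i => RR sc ell (h / 2) σ i) (fun i => EE sc ell h σ i)) := by
  have hmu := H.law.2
  have hh0 := N.h0
  have hell0 : ∀ l, 0 ≤ ell l := fun l => by linarith [N.ell2 l]
  have R0 : ∀ i, 0 < RR sc ell (h / 2) σ i := fun i => mul_pos hσ (Real.exp_pos _)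
  have E0 : ∀ i, 0 < EE sc ell h σ i := fun i => mul_pos hσ (Real.exp_pos _)
  have hrr0 : ∀ i, 0 < rr i := fun i => by linarith [D.pair.rr1 i]
  -- the weights with the factor of the references
  have hRR : ∀ i, rr i * RR sc ell (h / 2) σ i ≤ RR sc ell h σ i := by
    intro i
    have h1 := D.rr1 i
    unfold RR
    calc rr i * (σ * Real.exp (-(1 / 2) * ell (sc i) + h / 2 * ell (sc i))) ≤
          Real.exp (h / 2 * ell (sc i)) *
            (σ * Real.exp (-(1 / 2) * ell (sc i) + h / 2 * ell (sc i))) :=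
          mul_le_mul_of_nonneg_right h1 (mul_pos hσ (Real.exp_pos _)).le
      _ = σ * (Real.exp (h / 2 * ell (sc i)) *
            Real.exp (-(1 / 2) * ell (sc i) + h / 2 * ell (sc i))) := by ring
      _ = _ := by
          rw [← Real.exp_add]
          congr 2
          ring
  have hR1 : ∀ i, RR sc ell (h / 2) σ i ≤ RR sc ell h σ i := fun i =>
    (le_mul_of_one_le_left (R0 i).le (D.pair.rr1 i)).trans (hRR i)
  have hRσ : ∀ i, RR sc ell h σ i ≤ RR sc ell h 1 i := fun i => by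
    rw [RR_mul]
    exact mul_le_of_le_one_left (mul_pos one_pos (Real.exp_pos _)).le hσ1
  have hRσ2 : ∀ i, RR sc ell (h / 2) σ i ≤ RR sc ell (h / 2) 1 i := fun i => by
    rw [RR_mul]
    exact mul_le_of_le_one_left (mul_pos one_pos (Real.exp_pos _)).le hσ1
  have hEσ : ∀ i, EE sc ell h σ i ≤ EE sc ell h 1 i := fun i => by
    rw [EE_mul]
    exact mul_le_of_le_one_left (mul_pos one_pos (Real.exp_pos _)).le hσ1
  have lev2 : ∀ l, ∑ i with sc i = l, (RR sc ell (h / 2) σ i *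
      ∑ a, lam2 i a * g1 lam2 mu i a ^ 2 + EE sc ell h σ i) ≤ Real.exp (2 * h * ell l) :=
    fun l => lev_mono D.pair.n2 (fun i _ => hRσ2 i) (fun i _ => hEσ i) (D.lev2 l)
  have hg0 : 0 ≤ g := by linarith [Ng.hg, N.h0]
  refine bdT_of_TB (q := fun l => sn l ≤ sn j) ?_ ?_ ?_ hg0 Ng.c10
  · intro l hl
    rw [Finset.eq_empty_iff_forall_notMem]
    intro ω hω
    rw [mem_VS] at hω
    have := ω.1.2
    rw [hω] at this
    exact hl this
  · intro s hs
    have h1 : TB (VS V (fun i => sn (sc i) ≤ sn s) sc) ell s b g c1 c2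
        (Tn (lsub (fun i => sn (sc i) ≤ sn s) lam2) (msub (fun i => sn (sc i) ≤ sn s) mu)
          (fun i => RR sc ell (h / 2) σ i) (fun i => EE sc ell h σ i)) := by
      by_cases hsp : ell s ≤ (2 - 4 * G) * p
      · have h3 := tb_of_top (H.topH N hb hb0 s hσ (hs1 s hs) R0 (fun i => hR1 i) E0
          (fun i => le_rfl) (fun l => lev_mono H.lam0 (fun i _ => (hR1 i).trans (hRσ i))
            (fun i _ => hEσ i) (D.lev l))) (fun l ω => mem_VS l ω) hsp Ng.hh Ng.hg Ng.c10 Ng.c21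
          Ng.hc Ng.hcs
        have h4 : lsub (fun i => sn (sc i) ≤ sn s) lam2 = lsub (fun i => sn (sc i) ≤ sn s) lam := by
          funext i
          exact D.low i (((N.le_iff _ _).1 i.2).trans hsp)
        rw [h4]
        exact h3
      · have hKf := H.Kf1 b s hb hb0
        have hb1 : (1 : ℝ) ≤ b := by exact_mod_cast hb
        have hK1 : 1 ≤ Kf b s := by linarith
        have T := H.topH N hb hb0 s hσ (hs1 s hs) (R := fun i => rr i * RR sc ell (h / 2) σ i)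
          (fun i => mul_pos (hrr0 i) (R0 i)) (fun i => hRR i) E0 (fun i => le_rfl)
          (fun l => lev_mono H.lam0 (fun i _ => (hRR i).trans (hRσ i)) (fun i _ => hEσ i)
            (D.lev l))
        have Nc : NumC p G h (Kf b s) C1 cs η := { D.num with Kf1 := hK1 }
        have hM2 : ∀ i, Mp i ≤ Real.exp (h * ell (sc i)) := fun i => (D.M2 i).trans
          (Real.exp_le_exp.2 (by
            have := mul_nonneg hh0.le (hell0 (sc i))
            linarith))
        have hPH := PH_sub (fun i => sn (sc i) ≤ sn s) (L := A0 * (C1 * p)) ⟨H.lam0, H.lam1, ?_⟩ D.ph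
        · have HH := hypH_sub (s := s) (b := b) N H.card (D.Kf12 b s hb hb0) D.Gn0
            (D.Gn1.trans (le_mul_of_one_le_left (Real.exp_pos _).le hK1)) D.M1 hM2
            (H276.PH.mono (lam := lsub (fun i => sn (sc i) ≤ sn s) lam)
              (fun i a => D.pair.n1 i a) hPH ?_ (fun i => by linarith [D.M1 i])
              (fun i => le_rfl) D.Gn0.le le_rfl (by omega))
          · exact tb_hi2 T Nc HH (RefPair_sub _ D.pair) (fun i => R0 i) (fun i => D.rr1 i)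
              (fun i => D.M2 i) ((lev_sub D.pair.n2 (fun i => (R0 i).le) (fun i => (E0 i).le)
                s).trans (lev2 s)) (not_le.1 hsp).le (D.top s) (fun l ω => mem_VS l ω) hg0 hc1 hc2
          · intro i hi
            rw [Finset.mem_filter] at hi
            rw [Finset.mem_subtype, Finset.mem_filter]
            exact ⟨Finset.mem_univ _, hi.2⟩
        · intro i a
          rcases H.atoms i a with h5 | h5
          · exact Or.inl h5
          · refine Or.inr (le_trans (Real.exp_le_exp.2 ?_) h5)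
            have := mul_le_mul_of_nonneg_left (D.top (sc i)) (by linarith [N.A01] : 0 ≤ A0)
            linarith
    have h2 := tb_up hmu (RR sc ell (h / 2) σ) (EE sc ell h σ)
      (fun l hl i hi => by rw [hi]; exact (N.le_iff l s).2 hl) h1
    exact tb_down hmu (RR sc ell (h / 2) σ) (EE sc ell h σ)
      (fun l hl i hi => by rw [hi]; exact ((N.le_iff l s).2 hl).trans hs) h2
  · intro l hl
    refine (one_ref (V := fun i : {i // sn (sc i) ≤ sn j} => V i)
      (lam := lsub (fun i => sn (sc i) ≤ sn j) lam2) (mu := msub (fun i => sn (sc i) ≤ sn j) mu)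
      (by rw [msub_sum]; exact hmu)
      (fun i a => D.pair.n2 i a) (fun i => (R0 i).le) (fun i => (E0 i).le)
      (sc := fun i : {i // sn (sc i) ≤ sn j} => sc i) (VV := VS V (fun i => sn (sc i) ≤ sn j) sc)
      (fun l ω => mem_VS l ω) l).le.trans ?_
    refine (lev_sub D.pair.n2 (fun i => (R0 i).le) (fun i => (E0 i).le) l).trans
      ((lev2 l).trans ?_)
    rw [← Real.exp_nat_mul]
    apply Real.exp_le_exp.2
    have h5 : h * ell l ≤ g * ell l := mul_le_mul_of_nonneg_right (by linarith [Ng.hg]) (hell0 l)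
    push_cast
    linarith

/-- **Existence of `BTS` for the reference of the kernels.** -/
theorem bts_of_law2 (H : LawH lam mu sc sn ell b0 p G h A0 Kf lm aa cc ok)
    (H' : LawH lam mu' sc sn ell b0 p G h A0 Kf lm aa cc ok)
    (N : NumL sn ell p G h A0)
    (D : RefH lam lam2 mu sc ell b0 p G h C1 cs η Gn Kf rr Mp)
    (D' : RefH lam lam2 mu' sc ell b0 p G h C1 cs η Gn Kf rr Mp) {g c1 c2 : ℝ}
    (Ng : NumG G h g c1 c2) (hc1 : c1 + g ≤ η / 8 - h) (hc2 : c2 ≤ η / 8 - h) {A1 : ℕ}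
    (hKf : ∀ b s j, 1 ≤ b → b ≤ b0 → sn s ≤ sn j → Kf b s ≤ (b * ell j) ^ A1)
    {rho e : ι → ℝ}
    (hrho : ∀ i, 2 * rho i ≤ Real.exp (-(1 / 2) * ell (sc i) + h / 2 * ell (sc i)))
    (he : ∀ i, 2 * e i ≤ Real.exp (-ell (sc i) + h * ell (sc i))) {b : ℕ} (hb : 1 ≤ b)
    (hb0 : b ≤ b0) (j : J) :
    ∃ (q : ι → Prop) (_ : DecidablePred q) (σ : ℝ)
      (VV : J → Finset (Σ i : {i // q i}, Option (V i))) (R E : {i // q i} → ℝ) (NN : J → J → ℝ),
      BTS q lam2 rho e mu mu' sc ell g c1 c2 (A1 + 14) b j σ VV R E NN := by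
  have hx := N.ell2 j
  have hb1 : (1 : ℝ) ≤ b := by exact_mod_cast hb
  set Q : ℝ := b * ell j with hQ
  have hQ2 : 2 ≤ Q := by nlinarith
  have hQb : (b : ℝ) ≤ Q := by nlinarith
  set σ : ℝ := (1000 * Q ^ A1 * (b : ℝ) ^ 4)⁻¹ with hσd
  have hpos : 0 < 1000 * Q ^ A1 * (b : ℝ) ^ 4 := by positivity
  have hσ : 0 < σ := inv_pos.2 hpos
  have hσ1 : σ ≤ 1 := by
    apply inv_le_one_of_one_le₀
    have h1 : 1 ≤ Q ^ A1 := one_le_pow₀ (by linarith)
    have h2 : (1 : ℝ) ≤ (b : ℝ) ^ 4 := one_le_pow₀ hb1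
    nlinarith [mul_le_mul h1 h2 zero_le_one (by positivity)]
  have hs1 : ∀ s, sn s ≤ sn j → 1000 * Kf b s * σ * (b : ℝ) ^ 4 ≤ 1 := by
    intro s hs
    have h1 := hKf b s j hb hb0 hs
    rw [hσd]
    rw [show 1000 * Kf b s * (1000 * Q ^ A1 * (b : ℝ) ^ 4)⁻¹ * (b : ℝ) ^ 4 =
      (1000 * Kf b s * (b : ℝ) ^ 4) * (1000 * Q ^ A1 * (b : ℝ) ^ 4)⁻¹ by ring]
    rw [← div_eq_mul_inv, div_le_one hpos]
    apply mul_le_mul_of_nonneg_right _ (by positivity)
    exact mul_le_mul_of_nonneg_left h1 (by norm_num)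
  refine ⟨fun i => sn (sc i) ≤ sn j, inferInstance, σ, VS V (fun i => sn (sc i) ≤ sn j) sc,
    fun i => RR sc ell (h / 2) σ i, fun i => EE sc ell h σ i, NN ell g c2, ?_⟩
  exact {
    hp := fun i hi => (N.le_iff _ _).2 hi
    hV := fun l ω => mem_VS l ω
    s0 := hσ
    s1 := by
      rw [hσd, inv_inv, pow_add]
      have h1 : (1000 : ℝ) ≤ Q ^ 10 := by
        calc (1000 : ℝ) ≤ 2 ^ 10 := by norm_num
          _ ≤ Q ^ 10 := pow_le_pow_left₀ (by norm_num) hQ2 10
      have h2 : (b : ℝ) ^ 4 ≤ Q ^ 4 := pow_le_pow_left₀ (by linarith) hQb 4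
      calc 1000 * Q ^ A1 * (b : ℝ) ^ 4 = Q ^ A1 * (1000 * (b : ℝ) ^ 4) := by ring
        _ ≤ Q ^ A1 * (Q ^ 10 * Q ^ 4) := by
            apply mul_le_mul_of_nonneg_left _ (by positivity)
            exact mul_le_mul h1 h2 (by positivity) (by positivity)
        _ = Q ^ A1 * Q ^ 14 := by rw [← pow_add]
    R0 := fun i => mul_pos hσ (Real.exp_pos _)
    E0 := fun i => mul_pos hσ (Real.exp_pos _)
    R1 := fun i => by
      have := mul_le_mul_of_nonneg_left (hrho i) hσ.le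
      unfold RR
      linarith
    E1 := fun i => by
      have := mul_le_mul_of_nonneg_left (he i) hσ.le
      unfold EE
      linarith
    bd := bdT_law2 H N D Ng hc1 hc2 hb hb0 j hσ hσ1 hs1
    bd' := bdT_law2 H' N D' Ng hc1 hc2 hb hb0 j hσ hσ1 hs1
    N0 := fun l m => NN0 ell g c2 l m
    N1 := fun l m => NN1 (fun l => by linarith [N.ell2 l]) (by linarith [Ng.hg, N.h0])
      (by linarith [Ng.c20, Ng.hg, N.h0, Ng.c10]) l m
    N2 := fun l m h => NN2 h }

end fin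

end Vale.Agent.P042.H365
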