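import Vale.Agent.P042.H365.TBd

/-!
# P042, typed seam [B] → [C]: typed norms of order two
-/

set_option linter.unusedSectionVars false

namespace Vale.Agent.P042.H365

open Finset Vale.Agent.P042.H232
open Vale.Agent.P042.H284 (Lt sum_Lt_nil sum_Lt_cons sum_Lt_perm pr pr_nil pr_cons pr_nonneg
  pr_perm BV BdT)

section two

universe u v

variable {Ω : Type u} {Λ : Type v} [Fintype Ω] {V : Λ → Finset Ω} {m m0 : Ω → ℝ} {q : Λ → ℝ}
  {ι : Type*} [DecidableEq ι] {c : Ω → ι}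

/-- **Typed norms of order two**, from the rows of order one at the letters of type `l`. -/
theorem typ_two {M T : Multiset Ω → ℝ} (h : IsCumC c M T) (hm : ∀ a, 0 ≤ m a)
    (hm0 : ∀ a, 0 ≤ m0 a) {l l' : Λ} {q : ℝ} (hq : 0 ≤ q) (hl' : ∀ a ∈ V l', m0 a ≤ q * m a) :
    ∑ ω ∈ Lt V [l, l'], scal m0 T (ω : Multiset Ω) ^ 2 ≤
      q * ∑ a ∈ V l, m0 a *
        nrm m 1 (fun S => if Dst c (a ::ₘ S) then T (a ::ₘ S) else 0) ^ 2 +
      ∑ a ∈ V l, ∑ b ∈ V l', if c a = c b then (m0 a * T {a} ^ 2) * (m0 b * T {b} ^ 2) else 0 := by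
  rw [sum_Lt_cons, Finset.mul_sum, ← Finset.sum_add_distrib]
  refine Finset.sum_le_sum fun a _ => ?_
  rw [sum_Lt_cons]
  have h1 : nrm m 1 (fun S => if Dst c (a ::ₘ S) then T (a ::ₘ S) else 0) ^ 2 =
      ∑ b, m b * (if c a = c b then 0 else T (a ::ₘ b ::ₘ 0)) ^ 2 := by
    rw [nrm_sq hm, I_succ]
    refine Finset.sum_congr rfl fun b _ => ?_
    rw [I_zero]
    congr 2
    by_cases hab : c a = c b
    · rw [if_pos hab, if_neg]
      unfold Dst
      simp [hab]
    · rw [if_neg hab, if_pos]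
      unfold Dst
      simpa using hab
  have h2 : ∀ b ∈ V l', ∑ ω ∈ Lt V [], scal m0 T ((a :: b :: ω : List Ω) : Multiset Ω) ^ 2 ≤
      m0 a * (q * (m b * (if c a = c b then 0 else T (a ::ₘ b ::ₘ 0)) ^ 2)) +
        if c a = c b then (m0 a * T {a} ^ 2) * (m0 b * T {b} ^ 2) else 0 := by
    intro b hb
    rw [sum_Lt_nil, scal_sq hm0]
    have e1 : (((a :: b :: [] : List Ω) : Multiset Ω)) = a ::ₘ b ::ₘ 0 := rfl
    rw [e1]
    simp only [Multiset.map_cons, Multiset.map_zero, Multiset.prod_cons, Multiset.prod_zero,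
      mul_one]
    by_cases hab : c a = c b
    · have h3 := h.rep' hab 0
      rw [sp_zero] at h3
      rw [if_pos hab, if_pos hab, h3,
        show (a ::ₘ (0 : Multiset Ω)) = {a} from rfl, show (b ::ₘ (0 : Multiset Ω)) = {b} from rfl]
      apply le_of_eq
      ring
    · rw [if_neg hab, if_neg hab, add_zero]
      have h4 : m0 a * m0 b ≤ m0 a * (q * m b) := mul_le_mul_of_nonneg_left (hl' b hb) (hm0 a)
      calc m0 a * m0 b * T (a ::ₘ b ::ₘ 0) ^ 2
          ≤ m0 a * (q * m b) * T (a ::ₘ b ::ₘ 0) ^ 2 :=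
            mul_le_mul_of_nonneg_right h4 (sq_nonneg _)
        _ = _ := by ring
  refine (Finset.sum_le_sum h2).trans ?_
  rw [Finset.sum_add_distrib]
  refine add_le_add ?_ le_rfl
  rw [h1]
  have hsub : ∑ b ∈ V l', m b * (if c a = c b then 0 else T (a ::ₘ b ::ₘ 0)) ^ 2 ≤
      ∑ b, m b * (if c a = c b then 0 else T (a ::ₘ b ::ₘ 0)) ^ 2 :=
    Finset.sum_le_sum_of_subset_of_nonneg (Finset.subset_univ _) fun y _ _ =>
      mul_nonneg (hm y) (sq_nonneg _)
  calc _ = q * (m0 a * ∑ b ∈ V l', m b * (if c a = c b then 0 else T (a ::ₘ b ::ₘ 0)) ^ 2) := by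
        rw [Finset.mul_sum, Finset.mul_sum]
        exact Finset.sum_congr rfl fun b _ => by ring
    _ ≤ _ := mul_le_mul_of_nonneg_left (mul_le_mul_of_nonneg_left hsub (hm0 a)) hq

end two

end Vale.Agent.P042.H365
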