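import Vale.Agent.P042.H365.Schwarz

/-!
# The coefficients of the logarithm beyond the controlled order
-/

namespace P042.H365

open Finset Metric Filter Polynomial

/-- The polynomial of a finite sequence. -/
noncomputable def cpoly (N : ℕ) (a : ℕ → ℂ) : ℂ[X] := ∑ m ∈ range (N + 1), C (a m) * X ^ m

/-- The polynomial of the first coefficients of a logarithm. -/
noncomputable def lpoly (M : ℕ) (c : ℕ → ℂ) : ℂ[X] := ∑ m ∈ Icc 1 M, C (c m) * X ^ m

theorem cpoly_coeff {N : ℕ} {a : ℕ → ℂ} (haN : ∀ m, N < m → a m = 0) (m : ℕ) :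
    (cpoly N a).coeff m = a m := by
  rw [cpoly, finsetSum_coeff]
  simp only [coeff_C_mul, coeff_X_pow]
  by_cases h : m < N + 1
  · rw [Finset.sum_eq_single m]
    · simp
    · intro b _ hb
      rw [if_neg (fun h => hb h.symm)]; simp
    · intro h'; exact absurd (Finset.mem_range.2 h) h'
  · rw [haN m (by omega)]
    apply Finset.sum_eq_zero
    intro b hb
    rw [if_neg (by have := Finset.mem_range.1 hb; omega)]; simp

theorem lpoly_coeff {M : ℕ} (c : ℕ → ℂ) {m : ℕ} (h1 : 1 ≤ m) (h2 : m ≤ M) :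
    (lpoly M c).coeff m = c m := by
  rw [lpoly, finsetSum_coeff]
  simp only [coeff_C_mul, coeff_X_pow]
  rw [Finset.sum_eq_single m]
  · simp
  · intro b _ hb
    rw [if_neg (fun h => hb h.symm)]; simp
  · intro h'; exact absurd (Finset.mem_Icc.2 ⟨h1, h2⟩) h'

theorem lpoly_coeff_of_lt {M : ℕ} (c : ℕ → ℂ) {m : ℕ} (h : M < m) :
    (lpoly M c).coeff m = 0 := by
  rw [lpoly, finsetSum_coeff]
  simp only [coeff_C_mul, coeff_X_pow]
  apply Finset.sum_eq_zero
  intro b hb
  rw [if_neg (by have := (Finset.mem_Icc.1 hb).2; omega)]; simp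

theorem cpoly_eval (N : ℕ) (a : ℕ → ℂ) (z : ℂ) :
    (cpoly N a).eval z = ∑ m ∈ range (N + 1), a m * z ^ m := by
  rw [cpoly, eval_finsetSum]; simp

theorem lpoly_eval (M : ℕ) (c : ℕ → ℂ) (z : ℂ) :
    (lpoly M c).eval z = ∑ m ∈ Icc 1 M, c m * z ^ m := by
  rw [lpoly, eval_finsetSum]; simp

theorem newton_dvd {N M : ℕ} {a c : ℕ → ℂ} (haN : ∀ m, N < m → a m = 0)
    (hrec : ∀ m, 1 ≤ m → m ≤ M → (m : ℂ) * a m = ∑ j ∈ Icc 1 m, (j : ℂ) * c j * a (m - j)) :
    X ^ M ∣ derivative (cpoly N a) - cpoly N a * derivative (lpoly M c) := by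
  rw [X_pow_dvd_iff]
  intro n hn
  rw [coeff_sub, coeff_derivative, cpoly_coeff haN, coeff_mul]
  have h1 := hrec (n + 1) (by omega) (by omega)
  have h2 : ∑ x ∈ antidiagonal n, (cpoly N a).coeff x.1 * (derivative (lpoly M c)).coeff x.2
      = ∑ j ∈ Icc 1 (n + 1), (j : ℂ) * c j * a (n + 1 - j) := by
    rw [Nat.sum_antidiagonal_eq_sum_range_succ_mk]
    have h3 : ∑ j ∈ Icc 1 (n + 1), (j : ℂ) * c j * a (n + 1 - j)
        = ∑ j ∈ range (n + 1), ((j : ℂ) + 1) * c (j + 1) * a (n - j) := by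
      rw [← Finset.sum_Ico_add_eq_sum_Icc (by omega)]
      rw [Finset.sum_Ico_eq_sum_range]
      simp only [Nat.add_sub_cancel]
      rw [Finset.sum_range_succ]
      congr 1
      · apply Finset.sum_congr rfl
        intro j hj
        have := Finset.mem_range.1 hj
        rw [show 1 + j = j + 1 by omega, show n + 1 - (j + 1) = n - j by omega]
        push_cast; ring
      · simp
    rw [h3, ← Finset.sum_range_reflect]
    apply Finset.sum_congr rfl
    intro j hj
    have hj' := Finset.mem_range.1 hj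
    simp only [coeff_derivative, cpoly_coeff haN]
    rw [show n.succ - 1 - j = n - j by omega, show n - (n - j) = j by omega,
      lpoly_coeff c (by omega) (by omega)]
    ring
  rw [h2, ← h1]
  push_cast
  ring

/-- The logarithm on the closed unit disc. -/
theorem near_log {N M : ℕ} {a c : ℕ → ℂ} (ha0 : a 0 = 1) (haN : ∀ m, N < m → a m = 0)
    (hrec : ∀ m, 1 ≤ m → m ≤ M → (m : ℂ) * a m = ∑ j ∈ Icc 1 m, (j : ℂ) * c j * a (m - j))
    {R Q A : ℝ} (hR : 1 < R)
    (hQ : ∀ z : ℂ, ‖z‖ < R → ‖∑ m ∈ range (N + 1), a m * z ^ m‖ ≤ Real.exp Q)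
    (hA : ∑ m ∈ Icc 1 M, ‖c m‖ * R ^ m ≤ A) {z : ℂ} (hz : ‖z‖ ≤ 1) :
    ‖(cpoly N a).eval z * Complex.exp (-(lpoly M c).eval z) - 1‖
      ≤ (1 + Real.exp (Q + A)) / R ^ (M + 1) := by
  have hrec' : ∀ m, 1 ≤ m → m ≤ M → (m : ℂ) * (a m * z ^ m)
      = ∑ j ∈ Icc 1 m, (j : ℂ) * (c j * z ^ j) * (a (m - j) * z ^ (m - j)) := by
    intro m h1 h2
    rw [← mul_assoc, hrec m h1 h2, Finset.sum_mul]
    refine Finset.sum_congr rfl fun j hj => ?_
    have hj' := Finset.mem_Icc.1 hj
    have : z ^ m = z ^ j * z ^ (m - j) := by rw [← pow_add]; congr 1; omega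
    rw [this]; ring
  have haN' : ∀ m, N < m → a m * z ^ m = 0 := fun m hm => by rw [haN m hm, zero_mul]
  have hd := newton_dvd (N := N) (M := M) (a := fun m => a m * z ^ m)
    (c := fun m => c m * z ^ m) haN' hrec'
  have hzR : ∀ w : ℂ, ‖w‖ < R → ‖z * w‖ < R := fun w hw => by
    rw [norm_mul]
    calc ‖z‖ * ‖w‖ ≤ 1 * ‖w‖ := mul_le_mul_of_nonneg_right hz (norm_nonneg _)
      _ < R := by rw [one_mul]; exact hw
  have key := schwarz_log (cpoly N fun m => a m * z ^ m) (lpoly M fun m => c m * z ^ m) M R A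
    (Real.exp Q) hR
    (by rw [cpoly_eval]; simp [Finset.sum_range_succ', ha0])
    (by rw [lpoly_eval]; apply Finset.sum_eq_zero; intro m hm
        rw [zero_pow (by have := (Finset.mem_Icc.1 hm).1; omega)]; simp)
    hd
    (fun w hw => by
      rw [cpoly_eval]
      have h := hQ (z * w) (hzR w hw)
      refine le_trans (le_of_eq ?_) h
      congr 1
      exact Finset.sum_congr rfl fun m _ => by rw [mul_pow]; ring)
    (fun w hw => by
      rw [lpoly_eval]
      refine (norm_sum_le _ _).trans (le_trans (Finset.sum_le_sum fun m _ => ?_) hA)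
      rw [norm_mul, norm_mul, norm_pow, norm_pow, mul_assoc, ← mul_pow]
      refine mul_le_mul_of_nonneg_left (pow_le_pow_left₀ (by positivity) ?_ _) (norm_nonneg _)
      rw [← norm_mul]
      exact (hzR w hw).le)
  rw [← Real.exp_add] at key
  have e1 : (cpoly N fun m => a m * z ^ m).eval 1 = (cpoly N a).eval z := by
    rw [cpoly_eval, cpoly_eval]; simp
  have e2 : (lpoly M fun m => c m * z ^ m).eval 1 = (lpoly M c).eval z := by
    rw [lpoly_eval, lpoly_eval]; simp
  rw [e1, e2] at key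
  exact key

/-- The logarithm of the series on the closed unit disc. -/
noncomputable def ell (N M : ℕ) (a c : ℕ → ℂ) (z : ℂ) : ℂ :=
  Complex.log ((cpoly N a).eval z * Complex.exp (-(lpoly M c).eval z))

theorem ell_props {N M : ℕ} {a c : ℕ → ℂ} (ha0 : a 0 = 1) (haN : ∀ m, N < m → a m = 0)
    (hrec : ∀ m, 1 ≤ m → m ≤ M → (m : ℂ) * a m = ∑ j ∈ Icc 1 m, (j : ℂ) * c j * a (m - j))
    {R Q A : ℝ} (hR : 1 < R)
    (hQ : ∀ z : ℂ, ‖z‖ < R → ‖∑ m ∈ range (N + 1), a m * z ^ m‖ ≤ Real.exp Q)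
    (hA : ∑ m ∈ Icc 1 M, ‖c m‖ * R ^ m ≤ A)
    (hM : 2 * (1 + Real.exp (Q + A)) ≤ R ^ (M + 1)) {z : ℂ} (hz : ‖z‖ ≤ 1) :
    ‖ell N M a c z‖ ≤ 3 / 2 * ((1 + Real.exp (Q + A)) / R ^ (M + 1)) ∧
    HasDerivAt (ell N M a c) ((derivative (cpoly N a)).eval z / (cpoly N a).eval z
      - (derivative (lpoly M c)).eval z) z ∧ (cpoly N a).eval z ≠ 0 := by
  have h1 := near_log ha0 haN hrec hR hQ hA hz
  have hRp : 0 < R ^ (M + 1) := by positivity
  have h2 : (1 + Real.exp (Q + A)) / R ^ (M + 1) ≤ 1 / 2 := by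
    rw [div_le_iff₀ hRp]; linarith
  set g : ℂ → ℂ := fun z => (cpoly N a).eval z * Complex.exp (-(lpoly M c).eval z) with hg
  have h3 : ‖g z - 1‖ ≤ 1 / 2 := h1.trans h2
  have hslit : g z ∈ Complex.slitPlane := by
    rw [Complex.mem_slitPlane_iff]
    left
    have := (abs_le.1 ((Complex.abs_re_le_norm (g z - 1)).trans h3)).1
    rw [Complex.sub_re, Complex.one_re] at this
    linarith
  have hPne : (cpoly N a).eval z ≠ 0 := by
    intro h0
    have : g z = 0 := by rw [hg]; simp only [h0, zero_mul]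
    rw [this] at hslit
    exact Complex.zero_notMem_slitPlane hslit
  refine ⟨?_, ?_, hPne⟩
  · have h4 := Complex.norm_log_one_add_half_le_self h3
    rw [show (1 : ℂ) + (g z - 1) = g z by ring] at h4
    exact h4.trans (mul_le_mul_of_nonneg_left h1 (by norm_num))
  · have hP := (cpoly N a).hasDerivAt z
    have hL := (lpoly M c).hasDerivAt z
    have hgd : HasDerivAt g ((derivative (cpoly N a)).eval z * Complex.exp (-(lpoly M c).eval z)
        + (cpoly N a).eval z * (Complex.exp (-(lpoly M c).eval z)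
          * (-(derivative (lpoly M c)).eval z))) z := hP.mul hL.neg.cexp
    have hlog := hgd.clog hslit
    refine hlog.congr_deriv ?_
    have hne := Complex.exp_ne_zero (-(lpoly M c).eval z)
    rw [hg]
    field_simp
    ring

theorem iteratedDeriv_poly (p : ℂ[X]) (n : ℕ) :
    iteratedDeriv n (fun z => p.eval z) = fun z => (derivative^[n] p).eval z := by
  induction n with
  | zero => simp [iteratedDeriv_zero]
  | succ n ih =>
    rw [iteratedDeriv_succ, ih]
    funext z
    rw [Polynomial.deriv, Function.iterate_succ_apply']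

theorem iteratedDeriv_poly_zero (p : ℂ[X]) (n : ℕ) :
    iteratedDeriv n (fun z => p.eval z) 0 = n.factorial * p.coeff n := by
  rw [iteratedDeriv_poly]
  beta_reduce
  rw [← coeff_zero_eq_eval_zero, coeff_iterate_derivative, zero_add,
    Nat.descFactorial_self, nsmul_eq_mul]

/-- **The logarithm beyond the controlled order.** -/
theorem log_coeff {N M : ℕ} {a c : ℕ → ℂ} (ha0 : a 0 = 1) (haN : ∀ m, N < m → a m = 0)
    (hrec : ∀ m : ℕ, 1 ≤ m → (m : ℂ) * a m = ∑ j ∈ Icc 1 m, (j : ℂ) * c j * a (m - j))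
    {R Q A : ℝ} (hR : 1 < R)
    (hQ : ∀ z : ℂ, ‖z‖ < R → ‖∑ m ∈ range (N + 1), a m * z ^ m‖ ≤ Real.exp Q)
    (hA : ∑ m ∈ Icc 1 M, ‖c m‖ * R ^ m ≤ A)
    (hM : 2 * (1 + Real.exp (Q + A)) ≤ R ^ (M + 1)) {m : ℕ} (hm : M < m) :
    ‖c m‖ ≤ 3 / 2 * ((1 + Real.exp (Q + A)) / R ^ (M + 1)) := by
  have hrec' : ∀ m : ℕ, 1 ≤ m → m ≤ M → (m : ℂ) * a m = ∑ j ∈ Icc 1 m, (j : ℂ) * c j * a (m - j) :=
    fun m h1 _ => hrec m h1
  set δ := 3 / 2 * ((1 + Real.exp (Q + A)) / R ^ (M + 1)) with hδ
  have hpr := fun z (hz : ‖z‖ ≤ 1) => ell_props ha0 haN hrec' hR hQ hA hM hz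
  have hdc : DiffContOnCl ℂ (ell N M a c) (ball 0 1) := by
    refine DifferentiableOn.diffContOnCl fun z hz => ?_
    have hz' : z ∈ closedBall (0 : ℂ) 1 := closure_ball_subset_closedBall hz
    rw [mem_closedBall_zero_iff] at hz'
    exact (hpr z hz').2.1.differentiableAt.differentiableWithinAt
  -- coefficients of `ell`
  set e : ℕ → ℂ := fun j => iteratedDeriv j (ell N M a c) 0 / (j.factorial : ℂ) with he
  have he_le : ∀ j, ‖e j‖ ≤ δ := by
    intro j
    have h := Complex.norm_iteratedDeriv_le_of_forall_mem_sphere_norm_le j one_pos hdc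
      (C := δ) (fun z hz => (hpr z (by rw [mem_sphere_zero_iff_norm] at hz; exact hz.le)).1)
    rw [one_pow, div_one] at h
    rw [he]
    beta_reduce
    rw [norm_div, Complex.norm_natCast, div_le_iff₀ (by positivity)]
    linarith
  have hcd : ∀ n : ℕ, ContDiffAt ℂ n (fun z => (cpoly N a).eval z) 0 := fun n =>
    ((cpoly N a).differentiable.contDiff (n := n)).contDiffAt
  have hdo : DifferentiableOn ℂ (ell N M a c) (ball 0 1) := hdc.differentiableOn
  have han : AnalyticAt ℂ (ell N M a c) 0 :=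
    hdo.analyticAt (isOpen_ball.mem_nhds (mem_ball_self one_pos))
  -- the differential equation
  have hode : (fun z => (cpoly N a).eval z * deriv (ell N M a c) z) =ᶠ[nhds 0]
      fun z => (derivative (cpoly N a) - cpoly N a * derivative (lpoly M c)).eval z := by
    filter_upwards [isOpen_ball.mem_nhds (mem_ball_self (x := (0 : ℂ)) one_pos)] with z hz
    rw [mem_ball_zero_iff] at hz
    have h := hpr z hz.le
    rw [h.2.1.deriv, eval_sub, eval_mul]
    field_simp [h.2.2]
  have hcoef : ∀ n : ℕ, ∑ i ∈ range (n + 1), a i * (((n - i : ℕ) : ℂ) + 1) * e (n - i + 1)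
      = (derivative (cpoly N a) - cpoly N a * derivative (lpoly M c)).coeff n := by
    intro n
    have h1 := hode.iteratedDeriv_eq n
    rw [iteratedDeriv_poly_zero, iteratedDeriv_fun_mul (hcd n) (han.deriv.contDiffAt)] at h1
    have hn0 : (n.factorial : ℂ) ≠ 0 := by exact_mod_cast n.factorial_ne_zero
    apply mul_left_cancel₀ hn0
    rw [← h1, Finset.mul_sum]
    refine Finset.sum_congr rfl fun i hi => ?_
    have hi' : i ≤ n := by simpa [Nat.lt_succ_iff] using hi
    rw [iteratedDeriv_poly_zero, cpoly_coeff haN, ← iteratedDeriv_succ']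
    have h3 : (n.choose i : ℂ) * i.factorial * (n - i).factorial = n.factorial := by
      exact_mod_cast Nat.choose_mul_factorial_mul_factorial hi'
    have h4 : iteratedDeriv (n - i + 1) (ell N M a c) 0
        = ((n - i + 1).factorial : ℂ) * e (n - i + 1) := by
      have h5 : ((n - i + 1).factorial : ℂ) ≠ 0 := by exact_mod_cast Nat.factorial_ne_zero _
      rw [he]
      field_simp
    rw [h4, ← h3, Nat.factorial_succ]
    push_cast
    ring
  have hcoef2 : ∀ n : ℕ, (derivative (cpoly N a) - cpoly N a * derivative (lpoly M c)).coeff n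
      = ∑ i ∈ range (n + 1), a i * (((n - i : ℕ) : ℂ) + 1)
        * (if n - i + 1 ≤ M then 0 else c (n - i + 1)) := by
    intro n
    rw [coeff_sub, coeff_derivative, cpoly_coeff haN, coeff_mul,
      Nat.sum_antidiagonal_eq_sum_range_succ_mk]
    have h1 := hrec (n + 1) (by omega)
    have h3 : ∑ j ∈ Icc 1 (n + 1), (j : ℂ) * c j * a (n + 1 - j)
        = ∑ i ∈ range (n + 1), a i * (((n - i : ℕ) : ℂ) + 1) * c (n - i + 1) := by
      rw [← Finset.sum_Ico_add_eq_sum_Icc (by omega)]
      rw [Finset.sum_Ico_eq_sum_range]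
      simp only [Nat.add_sub_cancel]
      have h4 : ∑ i ∈ range (n + 1), a i * (((n - i : ℕ) : ℂ) + 1) * c (n - i + 1)
        = ∑ j ∈ range (n + 1), a (n - j) * ((j : ℂ) + 1) * c (j + 1) := by
        rw [← Finset.sum_range_reflect]
        refine Finset.sum_congr rfl fun j hj => ?_
        have := Finset.mem_range.1 hj
        rw [show n + 1 - 1 - j = n - j by omega, show n - (n - j) = j by omega]
      rw [h4, Finset.sum_range_succ]
      congr 1
      · apply Finset.sum_congr rfl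
        intro j hj
        have := Finset.mem_range.1 hj
        rw [show 1 + j = j + 1 by omega, show n + 1 - (j + 1) = n - j by omega]
        push_cast; ring
      · simp
        ring
    rw [show a (n + 1) * ((n : ℂ) + 1) = ((n + 1 : ℕ) : ℂ) * a (n + 1) by push_cast; ring, h1, h3,
      ← Finset.sum_sub_distrib]
    refine Finset.sum_congr rfl fun i hi => ?_
    have hi' : i ≤ n := by simpa [Nat.lt_succ_iff] using hi
    simp only [coeff_derivative, cpoly_coeff haN]
    by_cases h5 : n - i + 1 ≤ M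
    · rw [if_pos h5, lpoly_coeff c (by omega) h5]
      ring
    · rw [if_neg h5, lpoly_coeff_of_lt c (by omega)]
      ring
  have hmain : ∀ n : ℕ, e (n + 1) = if n + 1 ≤ M then 0 else c (n + 1) := by
    intro n
    induction n using Nat.strong_induction_on with
    | _ n ih =>
      have h1 := (hcoef n).trans (hcoef2 n)
      rw [Finset.sum_range_succ', Finset.sum_range_succ'] at h1
      simp only [Nat.sub_zero, ha0, one_mul] at h1
      have h2 : ∑ i ∈ range n, a (i + 1) * (((n - (i + 1) : ℕ) : ℂ) + 1) * e (n - (i + 1) + 1)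
          = ∑ i ∈ range n, a (i + 1) * (((n - (i + 1) : ℕ) : ℂ) + 1)
            * (if n - (i + 1) + 1 ≤ M then 0 else c (n - (i + 1) + 1)) := by
        refine Finset.sum_congr rfl fun i hi => ?_
        have hi' := Finset.mem_range.1 hi
        rw [ih (n - (i + 1)) (by omega)]
      rw [h2] at h1
      have h3 := add_left_cancel h1
      have hne : (n : ℂ) + 1 ≠ 0 := by exact_mod_cast Nat.succ_ne_zero n
      exact mul_left_cancel₀ hne h3
  obtain ⟨n, rfl⟩ : ∃ n, m = n + 1 := ⟨m - 1, by omega⟩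
  have h1 := hmain n
  rw [if_neg (by omega)] at h1
  rw [← h1]
  exact he_le _

end P042.H365
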