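import Vale.Agent.P042.H365.TLaw

/-!
# P042: the cumulants of a marginal law are cumulants of the law
-/

namespace Vale.Agent.P042.H365

open Finset Vale.Agent.P042.H232 Vale.Agent.P042.H461 Vale.Agent.P042.H416 Vale.Agent.P042.H742
  Vale.Agent.P042.H678
open Vale.Agent.P042.H779 (marg m1)

section maps

variable {Ω Ω' : Type*}

theorem sp_map (f : Ω' → Ω) (S : Multiset Ω') (F : Multiset Ω → Multiset Ω → ℝ) :
    sp (S.map f) F = sp S fun x y => F (x.map f) (y.map f) := by
  induction S using Multiset.induction_on generalizing F with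
  | empty => simp
  | cons a S ih =>
    rw [Multiset.map_cons, sp_cons, sp_cons, ih, ih]
    simp only [Multiset.map_cons]

/-- Cumulants are natural. -/
theorem cumT_map {M : Multiset Ω → ℝ} {M' : Multiset Ω' → ℝ} (f : Ω' → Ω)
    (h : ∀ S, M (S.map f) = M' S) (h0 : M 0 = 1) {S : Multiset Ω'} (hS : S ≠ 0) :
    cumT M (S.map f) = cumT M' S := by
  have h0' : M' 0 = 1 := by rw [← h 0]; simpa using h0
  have h1 : IsCum M' fun S => cumT M (S.map f) :=
    { zero := h0'
      cons := fun a S => by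
        rw [← h, Multiset.map_cons, (isCum_cumT M h0).cons, sp_map]
        refine sp_congr fun x y _ => ?_
        rw [h, Multiset.map_cons] }
  exact h1.unique (isCum_cumT M' h0') S hS fun _ _ => rfl

end maps

variable {ι : Type*} [Fintype ι] [DecidableEq ι] {V : ι → Type*} [∀ i, Fintype (V i)]
  [∀ i, DecidableEq (V i)] (p : ι → Prop) [DecidablePred p]

/-- The restriction of the coordinates. -/
def rsub (x : ∀ i, V i) : ∀ i : {i // p i}, V i := fun i => x i

/-- The marginal law on the coordinates with `p`. -/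
noncomputable def msub (mu : (∀ i, V i) → ℝ) : (∀ i : {i // p i}, V i) → ℝ := push (rsub p) mu

/-- The embedding of the letters. -/
def esub (ω : Σ i : {i // p i}, V i) : Σ i, V i := ⟨ω.1, ω.2⟩

/-- The restriction of the reference. -/
def lsub (lam : ∀ i, V i → ℝ) (i : {i // p i}) : V i → ℝ := lam i

variable {p} {lam : ∀ i, V i → ℝ} {mu : (∀ i, V i) → ℝ}

omit [Fintype ι] [∀ i, Fintype (V i)] [DecidablePred p] in
theorem dst_esub (S : Multiset (Σ i : {i // p i}, V i)) :
    Dst Sigma.fst (S.map (esub p)) ↔ Dst Sigma.fst S := by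
  unfold Dst
  have h1 : (S.map (esub p)).map Sigma.fst = (S.map Sigma.fst).map Subtype.val := by
    rw [Multiset.map_map, Multiset.map_map]
    rfl
  rw [h1]
  exact Multiset.nodup_map_iff_of_injective Subtype.val_injective

theorem Mh_esub (S : Multiset (Σ i : {i // p i}, V i)) :
    Mh lam mu (S.map (esub p)) = Mh (lsub p lam) (msub p mu) S := by
  unfold Mh mom
  by_cases h : Dst Sigma.fst S
  · rw [if_pos h, if_pos ((dst_esub S).2 h)]
    unfold msub
    rw [sum_push]
    refine Finset.sum_congr rfl fun x _ => ?_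
    rw [Multiset.map_map]
    rfl
  · rw [if_neg h, if_neg fun h' => h ((dst_esub S).1 h')]

theorem Mg_esub (S : Multiset (Σ i : {i // p i}, V i)) :
    Mg lam mu (S.map (esub p)) = Mg (lsub p lam) (msub p mu) S := by
  unfold Mg mom
  by_cases h : Dst Sigma.fst S
  · rw [if_pos h, if_pos ((dst_esub S).2 h)]
    unfold msub
    rw [sum_push]
    refine Finset.sum_congr rfl fun x _ => ?_
    rw [Multiset.map_map]
    rfl
  · rw [if_neg h, if_neg fun h' => h ((dst_esub S).1 h')]

/-- **The cumulants of the marginal law.** -/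
theorem cumT_sub (hmu : ∑ x, mu x = 1) {S : Multiset (Σ i : {i // p i}, V i)} (hS : S ≠ 0) :
    cumT (Mh lam mu) (S.map (esub p)) = cumT (Mh (lsub p lam) (msub p mu)) S :=
  cumT_map (esub p) Mh_esub (mom_zero Sigma.fst univ mu (uh lam) hmu) hS

theorem msub_sum : ∑ x, msub p mu x = ∑ x, mu x := sum_push_one _ _

theorem msub_isLaw (h : IsLaw mu) : IsLaw (msub p mu) :=
  ⟨fun y => Finset.sum_nonneg fun x _ => h.1 x, by rw [msub_sum]; exact h.2⟩

theorem m1_sub (i : {i // p i}) (a : V i) : m1 (msub p mu) i a = m1 mu i a := by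
  unfold m1 msub
  have h1 : ∀ (f : (∀ i, V i) → ℝ) (i : ι) (a : V i),
      (∑ y, if y i = a then f y else 0) = ∑ y, f y * (if y i = a then 1 else 0) := by
    intro f i a
    exact Finset.sum_congr rfl fun y _ => by split_ifs <;> simp
  have h2 : (∑ y : ∀ i : {i // p i}, V i, if y i = a then push (rsub p) mu y else 0) =
      ∑ y, push (rsub p) mu y * (if y i = a then 1 else 0) :=
    Finset.sum_congr rfl fun y _ => by split_ifs <;> simp
  rw [h1, h2, sum_push]
  rfl

theorem esub_inj : Function.Injective (esub (V := V) p) := by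
  rintro ⟨⟨i, hi⟩, a⟩ ⟨⟨j, hj⟩, b⟩ h
  have h1 : i = j := congrArg Sigma.fst h
  subst h1
  have h2 : a = b := eq_of_heq (Sigma.mk.inj h).2
  subst h2
  rfl

/-- The typed sums of a marginal law. -/
theorem sum_Lt_sub {Λ : Type*} {X : Λ → Finset (Σ i, V i)}
    {X' : Λ → Finset (Σ i : {i // p i}, V i)} :
    ∀ (τ : List Λ) (_ : ∀ l ∈ τ, X l = (X' l).map ⟨esub p, esub_inj⟩)
      (F : List (Σ i, V i) → ℝ),
      ∑ ω ∈ H284.Lt X τ, F ω = ∑ ω ∈ H284.Lt X' τ, F (ω.map (esub p))
  | [], _, F => by
    rw [H284.sum_Lt_nil, H284.sum_Lt_nil]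
    rfl
  | l :: τ, hτ, F => by
    rw [H284.sum_Lt_cons, H284.sum_Lt_cons, hτ l (by simp), Finset.sum_map]
    exact Finset.sum_congr rfl fun a _ =>
      sum_Lt_sub τ (fun l hl => hτ l (List.mem_cons_of_mem _ hl)) fun ω => F (esub p a :: ω)

end Vale.Agent.P042.H365
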