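import Vale.Agent.P042.H365.Schwarz
import Vale.Agent.P042.H365.Bridge

/-!
helper365 (P042).  End of block [C]: the energies on the disk of radius `2` (alpha = 2), the bounds
of the cumulants `W b` up to order `M` (exploration, #7163) and the finishing lemma give the
positivity of the two replica sum, for arbitrary families of components and arbitrary truncations.
-/

set_option autoImplicit false
set_option linter.unusedSectionVars false

namespace Vale.Agent.P042.H365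

open Finset Function Vale.Agent.P042.H461

/-! ### numerics -/

theorem fac_step (m : ℕ) (hm : 2 ≤ m) (Y κ R : ℝ) :
    ((2 * (m + 1)).factorial : ℝ) / ((m + 1).factorial : ℝ) * Y ^ 2 * κ ^ (m + 1 - 2) * R ^ (m + 1)
      = (4 * m + 2) * κ * R *
        (((2 * m).factorial : ℝ) / (m.factorial : ℝ) * Y ^ 2 * κ ^ (m - 2) * R ^ m) := by
  obtain ⟨k, rfl⟩ : ∃ k, m = k + 2 := ⟨m - 2, by omega⟩
  rw [show 2 * (k + 2 + 1) = (2 * (k + 2) + 1) + 1 by ring, Nat.factorial_succ,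
    Nat.factorial_succ (2 * (k + 2)), Nat.factorial_succ (k + 2),
    show k + 2 + 1 - 2 = k + 1 by omega, show k + 2 - 2 = k by omega]
  have h1 : ((k + 2).factorial : ℝ) ≠ 0 := by positivity
  have h2 : ((k : ℝ) + 2 + 1) ≠ 0 := by positivity
  push_cast
  field_simp
  ring

theorem cum_term (c : ℕ → ℝ) (M : ℕ) (Y κ R : ℝ) (hκ : 0 ≤ κ) (hR : 0 ≤ R)
    (hc : ∀ b, 2 ≤ b → b ≤ M →
      |c b| ≤ ((2 * b).factorial : ℝ) / (b.factorial : ℝ) * Y ^ 2 * κ ^ (b - 2))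
    (hs : 8 * M * κ * R ≤ 1) (b : ℕ) (h2 : 2 ≤ b) (hb : b ≤ M) :
    |c b| * R ^ b ≤ 12 * Y ^ 2 * R ^ 2 * (1 / 2) ^ (b - 2) := by
  have key : ∀ b, 2 ≤ b → b ≤ M →
      ((2 * b).factorial : ℝ) / (b.factorial : ℝ) * Y ^ 2 * κ ^ (b - 2) * R ^ b
        ≤ 12 * Y ^ 2 * R ^ 2 * (1 / 2) ^ (b - 2) := by
    intro b hb2
    induction b, hb2 using Nat.le_induction with
    | base =>
      intro _
      have : ((2 * 2).factorial : ℝ) / ((2 : ℕ).factorial : ℝ) = 12 := by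
        norm_num [Nat.factorial]
      rw [this]; simp
    | succ m hm ih =>
      intro hmM
      have ih' := ih (by omega)
      rw [fac_step m hm]
      have h1 : ((m : ℝ) + 1) ≤ M := by exact_mod_cast hmM
      have h3 : (4 * m + 2) * κ * R ≤ 1 / 2 := by
        have : (4 * (m : ℝ) + 2) * (κ * R) ≤ 4 * M * (κ * R) :=
          mul_le_mul_of_nonneg_right (by linarith) (mul_nonneg hκ hR)
        nlinarith
      have h4 : 0 ≤ (4 * (m : ℝ) + 2) * κ * R := by positivity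
      have h5 : 0 ≤ 12 * Y ^ 2 * R ^ 2 * (1 / 2 : ℝ) ^ (m - 2) := by positivity
      calc (4 * (m : ℝ) + 2) * κ * R * _
          ≤ (4 * (m : ℝ) + 2) * κ * R * (12 * Y ^ 2 * R ^ 2 * (1 / 2) ^ (m - 2)) :=
            mul_le_mul_of_nonneg_left ih' h4
        _ ≤ 1 / 2 * (12 * Y ^ 2 * R ^ 2 * (1 / 2) ^ (m - 2)) := mul_le_mul_of_nonneg_right h3 h5
        _ = _ := by rw [show m + 1 - 2 = (m - 2) + 1 by omega, pow_succ]; ring
  exact (mul_le_mul_of_nonneg_right (hc b h2 hb) (pow_nonneg hR _)).trans (key b h2 hb)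

theorem cum_sum (c : ℕ → ℝ) (M : ℕ) (Y κ R : ℝ) (hY : 0 ≤ Y) (hκ : 0 ≤ κ) (hR : 0 ≤ R)
    (hc1 : |c 1| ≤ Y)
    (hc : ∀ b, 2 ≤ b → b ≤ M →
      |c b| ≤ ((2 * b).factorial : ℝ) / (b.factorial : ℝ) * Y ^ 2 * κ ^ (b - 2))
    (hs : 8 * M * κ * R ≤ 1) :
    ∑ m ∈ Icc 1 M, |c m| * R ^ m ≤ Y * R + 24 * Y ^ 2 * R ^ 2 := by
  rcases Nat.eq_zero_or_pos M with rfl | hM
  · simp; positivity
  have h1 : Icc 1 M = insert 1 (Icc 2 M) := by
    ext m; simp only [Finset.mem_Icc, Finset.mem_insert]; omega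
  rw [h1, Finset.sum_insert (by simp)]
  have h2 : |c 1| * R ^ 1 ≤ Y * R := by
    rw [pow_one]; exact mul_le_mul_of_nonneg_right hc1 hR
  have h3 : ∑ m ∈ Icc 2 M, |c m| * R ^ m
      ≤ ∑ m ∈ Icc 2 M, 12 * Y ^ 2 * R ^ 2 * (1 / 2) ^ (m - 2) :=
    Finset.sum_le_sum fun m hm => cum_term c M Y κ R hκ hR hc hs m (Finset.mem_Icc.1 hm).1
      (Finset.mem_Icc.1 hm).2
  have h4 : ∑ m ∈ Icc 2 M, ((1 : ℝ) / 2) ^ (m - 2) ≤ 2 := by
    have e1 : ∑ m ∈ Icc 2 M, ((1 : ℝ) / 2) ^ (m - 2) = ∑ j ∈ range (M - 1), (1 / 2) ^ j := by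
      rw [← Finset.Ico_succ_right_eq_Icc, Finset.sum_Ico_eq_sum_range]
      refine Finset.sum_congr (by simp) fun j _ => ?_
      congr 1
      omega
    rw [e1]
    exact (summable_geometric_two.sum_le_tsum _ (fun _ _ => by positivity)).trans
      (by rw [tsum_geometric_two])
  rw [← Finset.mul_sum] at h3
  have h5 : 0 ≤ 12 * Y ^ 2 * R ^ 2 := by positivity
  nlinarith

/-- size of `M` -/
theorem radius_num (Q A : ℝ) (M : ℕ) (hQ : 0 ≤ Q) (hA : 0 ≤ A) (hM : 3 * (Q + A) + 3 ≤ M) :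
    2 * (1 + Real.exp (Q + A)) ≤ (2 : ℝ) ^ (M + 1) := by
  have h1 : 1 ≤ Real.exp (Q + A) := Real.one_le_exp (by positivity)
  have h2 : (4 : ℝ) * Real.exp (Q + A) ≤ 2 ^ (M + 1) := by
    have h3 : (2 : ℝ) ^ (M + 1) = Real.exp (((M : ℝ) + 1) * Real.log 2) := by
      rw [mul_comm, Real.exp_mul, Real.exp_log (by norm_num)]
      exact_mod_cast rfl
    have h4 : (4 : ℝ) = Real.exp (2 * Real.log 2) := by
      rw [mul_comm, Real.exp_mul, Real.exp_log (by norm_num)]; norm_num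
    rw [h3, h4, ← Real.exp_add]
    apply Real.exp_le_exp.2
    have h5 := Real.log_two_gt_d9
    have h6 : 3 * (Q + A) + 3 - 1 ≤ (M : ℝ) - 1 := by linarith
    have h7 : 0 ≤ (M : ℝ) - 1 - (3 * (Q + A) + 2) := by linarith
    nlinarith [mul_nonneg h7 (by linarith : (0:ℝ) ≤ Real.log 2 - 0.69), add_nonneg hQ hA]
  linarith

variable {ι : Type*} [Fintype ι] [DecidableEq ι] {V : ι → Type*} [∀ i, Fintype (V i)]
  [∀ i, DecidableEq (V i)] {lam : ∀ i, V i → ℝ} {K : ∀ i, V i → V i → ℝ}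

/-- the polynomial in powers of `z` -/
theorem sum_by_card (D : Finset (Finset ι)) (f : Finset ι → ℝ) (z : ℂ) :
    ∑ B ∈ D, z ^ B.card * (f B : ℂ)
      = ∑ m ∈ range (Fintype.card ι + 1), ((∑ B ∈ D with B.card = m, f B : ℝ) : ℂ) * z ^ m := by
  have h1 : ∑ B ∈ D, z ^ B.card * (f B : ℂ)
      = ∑ m ∈ range (Fintype.card ι + 1), ∑ B ∈ D with B.card = m, z ^ B.card * (f B : ℂ) := by
    rw [Finset.sum_fiberwise_of_maps_to]
    intro B _
    exact Finset.mem_range.2 (Nat.lt_succ_of_le (Finset.card_le_univ B))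
  rw [h1]
  refine Finset.sum_congr rfl fun m _ => ?_
  push_cast
  rw [Finset.sum_mul]
  refine Finset.sum_congr rfl fun B hB => ?_
  rw [(Finset.mem_filter.1 hB).2]
  ring

/-- **End of block [C]**, families of components `h`, `h'` of two different laws, truncation `D`.
`c` are the cumulants (Newton recursion up to order `M`); signed form. -/
theorem fam_pos (h0 : ∀ i a, 0 ≤ lam i a) (h1 : ∀ i, ∑ a, lam i a = 1) {rho : ι → ℝ}
    (hr : ∀ i, 0 ≤ rho i)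
    (hK : ∀ i, ∀ u : V i → ℝ, ∑ a, lam i a * (∑ b, lam i b * (K i a b * u b)) ^ 2
      ≤ rho i ^ 2 * ∑ b, lam i b * u b ^ 2)
    (h h' : Finset ι → (∀ i, V i) → ℝ) (D : Finset (Finset ι)) (c : ℕ → ℝ) (M : ℕ) (R Q A : ℝ)
    (hR : 1 < R)
    (ha0 : ∑ B ∈ D with B.card = 0, ip lam (h B) (Tm lam K B (h' B)) = 1)
    (hrec : ∀ m, 1 ≤ m → m ≤ M →
      (m : ℝ) * ∑ B ∈ D with B.card = m, ip lam (h B) (Tm lam K B (h' B))
        = ∑ j ∈ Icc 1 m, (j : ℝ) * c j *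
            ∑ B ∈ D with B.card = m - j, ip lam (h B) (Tm lam K B (h' B)))
    (hG : ∑ B ∈ D, (∏ i ∈ B, (R * rho i)) * ip lam (h B) (h B) ≤ Real.exp Q)
    (hG' : ∑ B ∈ D, (∏ i ∈ B, (R * rho i)) * ip lam (h' B) (h' B) ≤ Real.exp Q)
    (hA : ∑ m ∈ Icc 1 M, |c m| * R ^ m ≤ A)
    (hM : 2 * (1 + Real.exp (Q + A)) ≤ R ^ (M + 1)) :
    1 / 2 * Real.exp (∑ m ∈ Icc 1 M, c m) ≤ ∑ B ∈ D, ip lam (h B) (Tm lam K B (h' B)) := by
  set a : ℕ → ℝ := fun m => ∑ B ∈ D with B.card = m, ip lam (h B) (Tm lam K B (h' B)) with ha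
  have e1 : ∑ B ∈ D, ip lam (h B) (Tm lam K B (h' B))
      = ∑ m ∈ range (Fintype.card ι + 1), a m := by
    rw [ha, Finset.sum_fiberwise_of_maps_to]
    intro B _
    exact Finset.mem_range.2 (Nat.lt_succ_of_le (Finset.card_le_univ B))
  rw [e1]
  refine _root_.P042.H365.pos_of_newton (Fintype.card ι) M a c ha0 ?_ hrec R Q hR
    (fun z hz => ?_) ?_
  · intro m hm
    rw [ha]
    apply Finset.sum_eq_zero
    intro B hB
    have := (Finset.mem_filter.1 hB).2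
    have := Finset.card_le_univ B
    omega
  · rw [← sum_by_card]
    refine (norm_sum_le' h0 h1 hr hK h h' D z hz.le).trans ?_
    calc _ ≤ √(Real.exp Q) * √(Real.exp Q) :=
          mul_le_mul (Real.sqrt_le_sqrt hG) (Real.sqrt_le_sqrt hG') (Real.sqrt_nonneg _)
            (Real.sqrt_nonneg _)
      _ = Real.exp Q := Real.mul_self_sqrt (Real.exp_pos _).le
  · refine le_trans ?_ hM
    have := Real.exp_le_exp.2 (add_le_add_right hA Q)
    linarith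

/-- the same with the explicit bounds of #7163 and `R = 2` -/
theorem fam_pos_num (h0 : ∀ i a, 0 ≤ lam i a) (h1 : ∀ i, ∑ a, lam i a = 1) {rho : ι → ℝ}
    (hr : ∀ i, 0 ≤ rho i)
    (hK : ∀ i, ∀ u : V i → ℝ, ∑ a, lam i a * (∑ b, lam i b * (K i a b * u b)) ^ 2
      ≤ rho i ^ 2 * ∑ b, lam i b * u b ^ 2)
    (h h' : Finset ι → (∀ i, V i) → ℝ) (D : Finset (Finset ι)) (c : ℕ → ℝ) (M : ℕ)
    (Q Y κ : ℝ) (hQ : 0 ≤ Q) (hY : 0 ≤ Y) (hκ : 0 ≤ κ)
    (ha0 : ∑ B ∈ D with B.card = 0, ip lam (h B) (Tm lam K B (h' B)) = 1)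
    (hrec : ∀ m, 1 ≤ m → m ≤ M →
      (m : ℝ) * ∑ B ∈ D with B.card = m, ip lam (h B) (Tm lam K B (h' B))
        = ∑ j ∈ Icc 1 m, (j : ℝ) * c j *
            ∑ B ∈ D with B.card = m - j, ip lam (h B) (Tm lam K B (h' B)))
    (hG : ∑ B ∈ D, (∏ i ∈ B, (2 * rho i)) * ip lam (h B) (h B) ≤ Real.exp Q)
    (hG' : ∑ B ∈ D, (∏ i ∈ B, (2 * rho i)) * ip lam (h' B) (h' B) ≤ Real.exp Q)
    (hc1 : |c 1| ≤ Y)
    (hc : ∀ b, 2 ≤ b → b ≤ M →
      |c b| ≤ ((2 * b).factorial : ℝ) / (b.factorial : ℝ) * Y ^ 2 * κ ^ (b - 2))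
    (hM : 3 * (Q + (2 * Y + 96 * Y ^ 2)) + 3 ≤ M) (hs : 16 * M * κ ≤ 1) :
    1 / 2 * Real.exp (-(Y + 24 * Y ^ 2)) ≤ ∑ B ∈ D, ip lam (h B) (Tm lam K B (h' B)) := by
  have h3 := cum_sum c M Y κ 2 hY hκ (by norm_num) hc1 hc (by linarith)
  have h4 := cum_sum c M Y κ 1 hY hκ (by norm_num) hc1 hc (by
    have : 0 ≤ (M : ℝ) * κ := by positivity
    nlinarith)
  have h5 := fam_pos h0 h1 hr hK h h' D c M 2 Q (2 * Y + 96 * Y ^ 2) (by norm_num) ha0 hrec hG hG'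
    (h3.trans (by nlinarith)) (radius_num Q _ M hQ (by positivity) hM)
  refine le_trans ?_ h5
  refine mul_le_mul_of_nonneg_left (Real.exp_le_exp.2 ?_) (by norm_num)
  have h6 : |∑ m ∈ Icc 1 M, c m| ≤ ∑ m ∈ Icc 1 M, |c m| * 1 ^ m := by
    refine (Finset.abs_sum_le_sum_abs _ _).trans (le_of_eq ?_)
    exact Finset.sum_congr rfl fun m _ => by rw [one_pow, mul_one]
  have h7 := (abs_le.1 (h6.trans h4)).1
  linarith

/-- **two replicas of two laws** `F`, `F'` (densities with respect to `lam`), centred kernels -/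
theorem pair_pos_num (h0 : ∀ i a, 0 ≤ lam i a) (h1 : ∀ i, ∑ a, lam i a = 1) {rho : ι → ℝ}
    (hr : ∀ i, 0 ≤ rho i)
    (hKl : ∀ i b, ∑ a, lam i a * K i a b = 0) (hKr : ∀ i a, ∑ b, lam i b * K i a b = 0)
    (hK : ∀ i, ∀ u : V i → ℝ, ∑ a, lam i a * (∑ b, lam i b * (K i a b * u b)) ^ 2
      ≤ rho i ^ 2 * ∑ b, lam i b * u b ^ 2)
    (F F' : (∀ i, V i) → ℝ) (hF : ∑ x, W lam x * F x = 1) (hF' : ∑ x, W lam x * F' x = 1)
    (c : ℕ → ℝ) (M : ℕ) (Q Y κ : ℝ) (hQ : 0 ≤ Q) (hY : 0 ≤ Y) (hκ : 0 ≤ κ)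
    (hrec : ∀ m, 1 ≤ m → m ≤ M →
      (m : ℝ) * ∑ B : Finset ι with B.card = m, ip lam (Hc lam F B) (Tm lam K B (Hc lam F' B))
        = ∑ j ∈ Icc 1 m, (j : ℝ) * c j *
            ∑ B : Finset ι with B.card = m - j, ip lam (Hc lam F B) (Tm lam K B (Hc lam F' B)))
    (hG : ∑ B : Finset ι, (∏ i ∈ B, (2 * rho i)) * ip lam (Hc lam F B) (Hc lam F B) ≤ Real.exp Q)
    (hG' : ∑ B : Finset ι, (∏ i ∈ B, (2 * rho i)) * ip lam (Hc lam F' B) (Hc lam F' B)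
      ≤ Real.exp Q)
    (hc1 : |c 1| ≤ Y)
    (hc : ∀ b, 2 ≤ b → b ≤ M →
      |c b| ≤ ((2 * b).factorial : ℝ) / (b.factorial : ℝ) * Y ^ 2 * κ ^ (b - 2))
    (hM : 3 * (Q + (2 * Y + 96 * Y ^ 2)) + 3 ≤ M) (hs : 16 * M * κ ≤ 1) :
    1 / 2 * Real.exp (-(Y + 24 * Y ^ 2))
      ≤ ∑ x, ∑ y, W lam x * F x * (W lam y * F' y) * ∏ i, (1 + K i (x i) (y i)) := by
  have e1 : ∑ x, ∑ y, W lam x * F x * (W lam y * F' y) * ∏ i, (1 + K i (x i) (y i))
      = ∑ B : Finset ι, ip lam (Hc lam F B) (Tm lam K B (Hc lam F' B)) := by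
    have := Z_eq (lam := lam) (K := K) h1 hKl hKr F F' 1
    simp only [one_pow, one_mul] at this
    have h2 : ((∑ x, ∑ y, W lam x * F x * (W lam y * F' y) * ∏ i, (1 + K i (x i) (y i)) : ℝ) : ℂ)
        = ((∑ B : Finset ι, ip lam (Hc lam F B) (Tm lam K B (Hc lam F' B)) : ℝ) : ℂ) := by
      push_cast
      rw [← this]
      push_cast
      rfl
    exact_mod_cast h2
  rw [e1]
  refine fam_pos_num h0 h1 hr hK (Hc lam F) (Hc lam F') univ c M Q Y κ hQ hY hκ ?_ hrec hG hG' hc1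
    hc hM hs
  have e2 : (univ : Finset (Finset ι)).filter (fun B => B.card = 0) = {∅} := by
    ext B; simp [Finset.card_eq_zero]
  rw [e2, Finset.sum_singleton, ← KB_eq h1 hKl hKr]
  simp only [Finset.prod_empty, mul_one]
  rw [← Finset.sum_mul_sum, hF, hF', one_mul]

end Vale.Agent.P042.H365
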