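import Mathlib

/-!
helper365 (P042).  The finishing lemma of helper436 (#7057 (B)): a polynomial `p` with `p 0 = 1`,
bounded by `exp Q` on a disk of radius `R > 1`, whose formal logarithm has Taylor coefficients
`c m` with `A = ∑_{1 ≤ m ≤ M} |c m| R^m` and `2 (1 + exp (Q + A)) ≤ R^(M+1)`, satisfies
`p 1 ≥ exp (∑_{1 ≤ m ≤ M} c m) / 2 > 0`.
-/

namespace P042.H365

open Finset Metric Filter Asymptotics Polynomial

/-- complex polynomials: `‖p(1) exp(-L(1)) - 1‖ ≤ (1 + B exp A) / R^(M+1)`. -/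
theorem schwarz_log (P L : ℂ[X]) (M : ℕ) (R A B : ℝ) (hR : 1 < R)
    (hP0 : P.eval 0 = 1) (hL0 : L.eval 0 = 0)
    (hd : X ^ M ∣ derivative P - P * derivative L)
    (hB : ∀ z : ℂ, ‖z‖ < R → ‖P.eval z‖ ≤ B)
    (hA : ∀ z : ℂ, ‖z‖ < R → ‖L.eval z‖ ≤ A) :
    ‖P.eval 1 * Complex.exp (- L.eval 1) - 1‖ ≤ (1 + B * Real.exp A) / R ^ (M + 1) := by
  obtain ⟨q, hq⟩ := hd
  set f : ℂ → ℂ := fun z => P.eval z * Complex.exp (- L.eval z) with hf
  have hf0 : f 0 = 1 := by simp [hf, hP0, hL0]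
  have hder : ∀ z, HasDerivAt f (z ^ M * (q.eval z * Complex.exp (- L.eval z))) z := by
    intro z
    have h1 : HasDerivAt (fun z : ℂ => P.eval z) ((derivative P).eval z) z := P.hasDerivAt z
    have h2 : HasDerivAt (fun z : ℂ => L.eval z) ((derivative L).eval z) z := L.hasDerivAt z
    have h3 : HasDerivAt (fun z : ℂ => Complex.exp (- L.eval z))
        (Complex.exp (- L.eval z) * (-(derivative L).eval z)) z := h2.neg.cexp
    have h4 := h1.mul h3
    have h5 : (derivative P).eval z = P.eval z * (derivative L).eval z + z ^ M * q.eval z := by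
      have := congrArg (Polynomial.eval z) hq
      simp only [eval_sub, eval_mul, eval_pow, eval_X] at this
      linear_combination this
    refine h4.congr_deriv ?_
    rw [h5]; ring
  have hB0 : 0 ≤ B := le_trans (norm_nonneg _) (hB 0 (by simp; linarith))
  have hmaps : Set.MapsTo f (ball 0 R) (closedBall (f 0) (1 + B * Real.exp A)) := by
    intro z hz
    have hz' : ‖z‖ < R := by simpa using hz
    rw [mem_closedBall, dist_eq_norm, hf0]
    have h1 : ‖f z‖ ≤ B * Real.exp A := by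
      rw [hf]; simp only [norm_mul]
      apply mul_le_mul (hB z hz') _ (norm_nonneg _) hB0
      rw [Complex.norm_exp]
      apply Real.exp_le_exp.2
      have := hA z hz'
      have h2 := Complex.abs_re_le_norm (- L.eval z)
      rw [norm_neg] at h2
      exact (le_abs_self _).trans (h2.trans this)
    calc ‖f z - 1‖ ≤ ‖f z‖ + ‖(1:ℂ)‖ := norm_sub_le _ _
      _ ≤ 1 + B * Real.exp A := by simp; linarith
  have hdiff : Differentiable ℂ f := fun z => (hder z).differentiableAt
  have hlit : (fun w => f w - f 0) =o[nhds 0] (fun w : ℂ => ‖w - 0‖ ^ M) := by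
    -- a bound of the derivative on the closed unit ball
    have hcont : Continuous fun z : ℂ => q.eval z * Complex.exp (- L.eval z) := by
      fun_prop
    obtain ⟨K, hK⟩ := (isCompact_closedBall (0:ℂ) 1).exists_bound_of_continuousOn hcont.continuousOn
    have hK0 : 0 ≤ K := le_trans (norm_nonneg _) (hK 0 (by simp))
    have hbig : (fun w => f w - f 0) =O[nhds 0] (fun w : ℂ => ‖w‖ ^ (M + 1)) := by
      apply IsBigO.of_bound K
      filter_upwards [closedBall_mem_nhds (0:ℂ) one_pos] with w hw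
      have hw' : ‖w‖ ≤ 1 := by simpa using hw
      have := (convex_closedBall (0:ℂ) ‖w‖).norm_image_sub_le_of_norm_hasDerivWithin_le
        (f := f) (f' := fun z => z ^ M * (q.eval z * Complex.exp (- L.eval z)))
        (C := ‖w‖ ^ M * K) (fun z _ => (hder z).hasDerivWithinAt)
        (fun z hz => by
          have hz' : ‖z‖ ≤ ‖w‖ := by simpa using hz
          rw [norm_mul, norm_pow]
          apply mul_le_mul (pow_le_pow_left₀ (norm_nonneg _) hz' _) (hK z _) (norm_nonneg _)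
            (by positivity)
          simpa using hz'.trans hw')
        (x := 0) (y := w) (by simp) (by simp)
      rw [sub_zero] at this
      rw [Real.norm_of_nonneg (by positivity)]
      calc ‖f w - f 0‖ ≤ ‖w‖ ^ M * K * ‖w‖ := this
        _ = K * ‖w‖ ^ (M + 1) := by ring
    simp only [sub_zero]
    refine hbig.trans_isLittleO ?_
    rw [isLittleO_iff]
    intro c hc
    filter_upwards [closedBall_mem_nhds (0:ℂ) hc] with w hw
    have hw' : ‖w‖ ≤ c := by simpa using hw
    rw [Real.norm_of_nonneg (by positivity), Real.norm_of_nonneg (by positivity), pow_succ,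
      mul_comm]
    exact mul_le_mul_of_nonneg_right hw' (by positivity)
  have key := Complex.dist_le_mul_div_pow_of_mapsTo_ball_of_isLittleO (f := f) (c := 0) (z := 1)
    hdiff.differentiableOn hmaps hlit (by simpa using hR)
  rw [dist_eq_norm, hf0] at key
  simpa [hf, div_eq_mul_inv] using key

/-- real coefficients, Newton recursion. -/
theorem pos_of_newton (N M : ℕ) (a c : ℕ → ℝ) (ha0 : a 0 = 1) (haN : ∀ m, N < m → a m = 0)
    (hrec : ∀ m, 1 ≤ m → m ≤ M → (m : ℝ) * a m = ∑ j ∈ Icc 1 m, (j : ℝ) * c j * a (m - j))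
    (R Q : ℝ) (hR : 1 < R)
    (hQ : ∀ z : ℂ, ‖z‖ < R → ‖∑ m ∈ range (N + 1), (a m : ℂ) * z ^ m‖ ≤ Real.exp Q)
    (hM : 2 * (1 + Real.exp (Q + ∑ m ∈ Icc 1 M, |c m| * R ^ m)) ≤ R ^ (M + 1)) :
    1 / 2 * Real.exp (∑ m ∈ Icc 1 M, c m) ≤ ∑ m ∈ range (N + 1), a m := by
  set P : ℂ[X] := ∑ m ∈ range (N + 1), C (a m : ℂ) * X ^ m with hP
  set L : ℂ[X] := ∑ m ∈ Icc 1 M, C (c m : ℂ) * X ^ m with hL
  set A : ℝ := ∑ m ∈ Icc 1 M, |c m| * R ^ m with hAdef
  have hPc : ∀ m, P.coeff m = (a m : ℂ) := by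
    intro m
    rw [hP, finsetSum_coeff]
    simp only [coeff_C_mul, coeff_X_pow]
    by_cases h : m < N + 1
    · rw [Finset.sum_eq_single m]
      · simp
      · intro b _ hb
        rw [if_neg (fun h => hb h.symm)]; simp
      · intro h'; exact absurd (Finset.mem_range.2 h) h'
    · rw [haN m (by omega)]
      simp only [Complex.ofReal_zero]
      apply Finset.sum_eq_zero
      intro b hb
      rw [if_neg (by have := Finset.mem_range.1 hb; omega)]; simp
  have hLc : ∀ m, 1 ≤ m → m ≤ M → L.coeff m = (c m : ℂ) := by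
    intro m h1 h2
    rw [hL, finsetSum_coeff]
    simp only [coeff_C_mul, coeff_X_pow]
    rw [Finset.sum_eq_single m]
    · simp
    · intro b _ hb
      rw [if_neg (fun h => hb h.symm)]; simp
    · intro h'; exact absurd (Finset.mem_Icc.2 ⟨h1, h2⟩) h'
  have hPe : ∀ z : ℂ, P.eval z = ∑ m ∈ range (N + 1), (a m : ℂ) * z ^ m := by
    intro z; rw [hP, eval_finsetSum]; simp
  have hLe : ∀ z : ℂ, L.eval z = ∑ m ∈ Icc 1 M, (c m : ℂ) * z ^ m := by
    intro z; rw [hL, eval_finsetSum]; simp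
  have hd : X ^ M ∣ derivative P - P * derivative L := by
    rw [X_pow_dvd_iff]
    intro n hn
    rw [coeff_sub, coeff_derivative, hPc, coeff_mul]
    have h1 := hrec (n + 1) (by omega) (by omega)
    have h2 : ∑ x ∈ antidiagonal n, P.coeff x.1 * (derivative L).coeff x.2
        = ((∑ j ∈ Icc 1 (n + 1), (j : ℝ) * c j * a (n + 1 - j) : ℝ) : ℂ) := by
      rw [Nat.sum_antidiagonal_eq_sum_range_succ_mk]
      have h3 : ∑ j ∈ Icc 1 (n + 1), (j : ℝ) * c j * a (n + 1 - j)
          = ∑ j ∈ range (n + 1), ((j : ℝ) + 1) * c (j + 1) * a (n - j) := by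
        rw [← Finset.sum_Ico_add_eq_sum_Icc (by omega)]
        rw [Finset.sum_Ico_eq_sum_range]
        simp only [Nat.add_sub_cancel]
        rw [Finset.sum_range_succ]
        congr 1
        · apply Finset.sum_congr rfl
          intro j hj
          have := Finset.mem_range.1 hj
          rw [show 1 + j = j + 1 by omega, show n + 1 - (j + 1) = n - j by omega]
          push_cast; ring
        · simp
      rw [h3, ← Finset.sum_range_reflect]
      push_cast
      apply Finset.sum_congr rfl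
      intro j hj
      have hj' := Finset.mem_range.1 hj
      simp only [coeff_derivative, hPc]
      rw [show n - (n - j) = j by omega, hLc (j + 1) (by omega) (by omega)]
      ring
    rw [h2, ← h1]
    push_cast
    ring
  have key := schwarz_log P L M R A (Real.exp Q) hR
    (by rw [hPe]; simp [Finset.sum_range_succ', ha0])
    (by rw [hLe]; apply Finset.sum_eq_zero; intro m hm
        rw [zero_pow (by have := (Finset.mem_Icc.1 hm).1; omega)]; simp)
    hd
    (fun z hz => by rw [hPe]; exact hQ z hz)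
    (fun z hz => by
      rw [hLe, hAdef]
      refine (norm_sum_le _ _).trans (Finset.sum_le_sum fun m _ => ?_)
      rw [norm_mul, norm_pow, Complex.norm_real, Real.norm_eq_abs]
      exact mul_le_mul_of_nonneg_left (pow_le_pow_left₀ (norm_nonneg _) hz.le _) (abs_nonneg _))
  rw [← Real.exp_add] at key
  set p1 : ℝ := ∑ m ∈ range (N + 1), a m with hp1
  set l1 : ℝ := ∑ m ∈ Icc 1 M, c m with hl1
  have e1 : P.eval 1 = (p1 : ℂ) := by rw [hPe, hp1]; push_cast; simp
  have e2 : L.eval 1 = (l1 : ℂ) := by rw [hLe, hl1]; push_cast; simp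
  rw [e1, e2] at key
  have e3 : (p1 : ℂ) * Complex.exp (-(l1 : ℂ)) - 1 = ((p1 * Real.exp (-l1) - 1 : ℝ) : ℂ) := by
    push_cast; ring
  rw [e3, Complex.norm_real, Real.norm_eq_abs] at key
  have hRpos : 0 < R ^ (M + 1) := by positivity
  have h4 : (1 + Real.exp (Q + A)) / R ^ (M + 1) ≤ 1 / 2 := by
    rw [div_le_iff₀ hRpos]; linarith
  have h5 : 1 / 2 ≤ p1 * Real.exp (-l1) := by
    have := (abs_le.1 (key.trans h4)).1
    linarith
  calc 1 / 2 * Real.exp l1 ≤ p1 * Real.exp (-l1) * Real.exp l1 :=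
        mul_le_mul_of_nonneg_right h5 (Real.exp_pos _).le
    _ = p1 := by rw [mul_assoc, ← Real.exp_add]; simp

/-- the generating polynomial of a finite signed sum of products. -/
theorem sum_prod_eq {ι Ω : Type*} [Fintype ι] [DecidableEq ι] [Fintype Ω] (w : Ω → ℝ)
    (ξ : ι → Ω → ℝ) (z : ℂ) :
    ∑ ω, (w ω : ℂ) * ∏ i, (1 + z * (ξ i ω : ℂ))
      = ∑ m ∈ range (Fintype.card ι + 1),
        ((∑ B ∈ powersetCard m (univ : Finset ι), ∑ ω, w ω * ∏ i ∈ B, ξ i ω : ℝ) : ℂ) * z ^ m := by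
  have h1 : ∀ ω, (w ω : ℂ) * ∏ i, (1 + z * (ξ i ω : ℂ))
      = ∑ m ∈ range (Fintype.card ι + 1), ∑ B ∈ powersetCard m (univ : Finset ι),
        ((w ω * ∏ i ∈ B, ξ i ω : ℝ) : ℂ) * z ^ m := by
    intro ω
    rw [Finset.prod_one_add, Finset.sum_powerset, Finset.mul_sum, Finset.card_univ]
    apply Finset.sum_congr rfl
    intro m _
    rw [Finset.mul_sum]
    apply Finset.sum_congr rfl
    intro B hB
    rw [Finset.prod_mul_distrib, Finset.prod_const, (Finset.mem_powersetCard.1 hB).2]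
    push_cast; ring
  simp only [h1]
  rw [Finset.sum_comm]
  apply Finset.sum_congr rfl
  intro m _
  rw [Finset.sum_comm]
  push_cast
  rw [Finset.sum_mul]
  apply Finset.sum_congr rfl
  intro B _
  rw [Finset.sum_mul]

/-- **Final form for [C].**  `Z = ∑_ω w ω ∏_i (1 + ξ_i ω)`, total mass `1`; elementary symmetric
averages `a m = ∑_{|B| = m} ∑_ω w ω ∏_{i ∈ B} ξ_i ω`, cumulants `c m` given by the Newton
recursion up to order `M`. -/
theorem Z_pos {ι Ω : Type*} [Fintype ι] [DecidableEq ι] [Fintype Ω] (w : Ω → ℝ)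
    (ξ : ι → Ω → ℝ) (hw : ∑ ω, w ω = 1) (a c : ℕ → ℝ) (M : ℕ)
    (ha : ∀ m, a m = ∑ B ∈ powersetCard m (univ : Finset ι), ∑ ω, w ω * ∏ i ∈ B, ξ i ω)
    (hrec : ∀ m, 1 ≤ m → m ≤ M → (m : ℝ) * a m = ∑ j ∈ Icc 1 m, (j : ℝ) * c j * a (m - j))
    (R Q : ℝ) (hR : 1 < R)
    (hQ : ∀ z : ℂ, ‖z‖ < R → ‖∑ ω, (w ω : ℂ) * ∏ i, (1 + z * (ξ i ω : ℂ))‖ ≤ Real.exp Q)
    (hM : 2 * (1 + Real.exp (Q + ∑ m ∈ Icc 1 M, |c m| * R ^ m)) ≤ R ^ (M + 1)) :
    1 / 2 * Real.exp (∑ m ∈ Icc 1 M, c m) ≤ ∑ ω, w ω * ∏ i, (1 + ξ i ω) := by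
  have h1 : ∀ z : ℂ, ∑ ω, (w ω : ℂ) * ∏ i, (1 + z * (ξ i ω : ℂ))
      = ∑ m ∈ range (Fintype.card ι + 1), (a m : ℂ) * z ^ m := by
    intro z
    rw [sum_prod_eq]
    apply Finset.sum_congr rfl
    intro m _
    rw [ha m]
  have h2 : ∑ ω, w ω * ∏ i, (1 + ξ i ω) = ∑ m ∈ range (Fintype.card ι + 1), a m := by
    have := h1 1
    have h3 : ((∑ ω, w ω * ∏ i, (1 + ξ i ω) : ℝ) : ℂ)
        = ((∑ m ∈ range (Fintype.card ι + 1), a m : ℝ) : ℂ) := by
      push_cast
      simpa using this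
    exact_mod_cast h3
  rw [h2]
  refine pos_of_newton (Fintype.card ι) M a c ?_ ?_ hrec R Q hR (fun z hz => ?_) hM
  · rw [ha]; simp [hw]
  · intro m hm
    rw [ha, Finset.powersetCard_eq_empty.2 (by simpa using hm)]; simp
  · rw [← h1]; exact hQ z hz

end P042.H365
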