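import Vale.Agent.P042.H365.TClos
import Vale.Agent.P042.H284.TMain

/-!
# P042, typed seam [B] → [C]: norms of typed tuples of letters from rows and rooted totals
-/

namespace Vale.Agent.P042.H365

open Finset Vale.Agent.P042.H232
open Vale.Agent.P042.H284 (Lt sum_Lt_nil sum_Lt_cons sum_Lt_perm pr pr_nil pr_cons pr_nonneg
  pr_perm BV BdT)

universe u v

variable {Ω : Type u} {Λ : Type v}

/-- The function `T` with square roots of weights on the letters. -/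
noncomputable def scal (m0 : Ω → ℝ) (T : Multiset Ω → ℝ) (S : Multiset Ω) : ℝ :=
  T S * (S.map fun ω => √(m0 ω)).prod

theorem prod_sqrt_sq {m0 : Ω → ℝ} (hm0 : ∀ a, 0 ≤ m0 a) (S : Multiset Ω) :
    (S.map fun ω => √(m0 ω)).prod ^ 2 = (S.map m0).prod := by
  induction S using Multiset.induction_on with
  | empty => simp
  | cons a S ih =>
    rw [Multiset.map_cons, Multiset.prod_cons, mul_pow, ih, Real.sq_sqrt (hm0 a),
      Multiset.map_cons, Multiset.prod_cons]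

theorem scal_sq {m0 : Ω → ℝ} (hm0 : ∀ a, 0 ≤ m0 a) (T : Multiset Ω → ℝ) (S : Multiset Ω) :
    scal m0 T S ^ 2 = (S.map m0).prod * T S ^ 2 := by
  unfold scal
  rw [mul_pow, prod_sqrt_sq hm0, mul_comm]

variable [Fintype Ω] {V : Λ → Finset Ω} {m m0 : Ω → ℝ} {q : Λ → ℝ}

/-- Typed sums with small weights are at most untyped sums. -/
theorem typ_le (hm : ∀ a, 0 ≤ m a) (hm0 : ∀ a, 0 ≤ m0 a) (hq : ∀ l, 0 ≤ q l) :
    ∀ (τ : List Λ) (_ : ∀ l ∈ τ, ∀ a ∈ V l, m0 a ≤ q l * m a) (F : Multiset Ω → ℝ)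
      (_ : ∀ S, 0 ≤ F S),
      ∑ ω ∈ Lt V τ, ((ω : Multiset Ω).map m0).prod * F ω ≤ pr q τ * I m τ.length F
  | [], _, F, _ => by
    rw [sum_Lt_nil]
    simp
  | l :: τ, hτ, F, hF => by
    rw [sum_Lt_cons, List.length_cons, I_succ, pr_cons]
    have h1 : ∀ a ∈ V l, ∑ ω ∈ Lt V τ, (((a :: ω : List Ω) : Multiset Ω).map m0).prod *
        F ((a :: ω : List Ω) : Multiset Ω) ≤
        q l * pr q τ * (m a * I m τ.length fun S => F (a ::ₘ S)) := by
      intro a ha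
      have h2 := typ_le hm hm0 hq τ (fun l' hl' => hτ l' (List.mem_cons_of_mem _ hl'))
        (fun S => F (a ::ₘ S)) (fun S => hF _)
      have h3 : ∑ ω ∈ Lt V τ, (((a :: ω : List Ω) : Multiset Ω).map m0).prod *
          F ((a :: ω : List Ω) : Multiset Ω) =
          m0 a * ∑ ω ∈ Lt V τ, ((ω : Multiset Ω).map m0).prod * F (a ::ₘ (ω : Multiset Ω)) := by
        rw [Finset.mul_sum]
        refine Finset.sum_congr rfl fun ω _ => ?_
        rw [← Multiset.cons_coe, Multiset.map_cons, Multiset.prod_cons]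
        ring
      rw [h3]
      have h4 : 0 ≤ pr q τ * I m τ.length fun S => F (a ::ₘ S) :=
        mul_nonneg (pr_nonneg hq τ) (I_nonneg hm _ fun S => hF _)
      calc _ ≤ m0 a * (pr q τ * I m τ.length fun S => F (a ::ₘ S)) :=
            mul_le_mul_of_nonneg_left h2 (hm0 a)
        _ ≤ (q l * m a) * (pr q τ * I m τ.length fun S => F (a ::ₘ S)) :=
            mul_le_mul_of_nonneg_right (hτ l (by simp) a ha) h4
        _ = _ := by ring
    refine (Finset.sum_le_sum h1).trans ?_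
    rw [← Finset.mul_sum]
    refine mul_le_mul_of_nonneg_left ?_ (mul_nonneg (hq l) (pr_nonneg hq τ))
    exact Finset.sum_le_sum_of_subset_of_nonneg (Finset.subset_univ _) fun a _ _ =>
      mul_nonneg (hm a) (I_nonneg hm _ fun S => hF _)

/-- Typed sums with a root. -/
theorem typ_root (hm : ∀ a, 0 ≤ m a) (hm0 : ∀ a, 0 ≤ m0 a) (hq : ∀ l, 0 ≤ q l) {l : Λ}
    {τ : List Λ} (hτ : ∀ l ∈ τ, ∀ a ∈ V l, m0 a ≤ q l * m a) (T : Multiset Ω → ℝ) :
    ∑ ω ∈ Lt V (l :: τ), scal m0 T (ω : Multiset Ω) ^ 2 ≤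
      pr q τ * ∑ a ∈ V l, m0 a * rw' m T τ.length a ^ 2 := by
  rw [sum_Lt_cons, Finset.mul_sum]
  refine Finset.sum_le_sum fun a ha => ?_
  have h2 := typ_le hm hm0 hq τ hτ (fun S => T (a ::ₘ S) ^ 2) (fun S => sq_nonneg _)
  have h3 : ∑ ω ∈ Lt V τ, scal m0 T ((a :: ω : List Ω) : Multiset Ω) ^ 2 =
      m0 a * ∑ ω ∈ Lt V τ, ((ω : Multiset Ω).map m0).prod * T (a ::ₘ (ω : Multiset Ω)) ^ 2 := by
    rw [Finset.mul_sum]
    refine Finset.sum_congr rfl fun ω _ => ?_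
    rw [scal_sq hm0, ← Multiset.cons_coe, Multiset.map_cons, Multiset.prod_cons]
    ring
  rw [h3]
  have h4 : rw' m T τ.length a ^ 2 = I m τ.length fun S => T (a ::ₘ S) ^ 2 := by
    unfold rw'
    rw [nrm_sq hm]
  rw [h4]
  calc _ ≤ m0 a * (pr q τ * I m τ.length fun S => T (a ::ₘ S) ^ 2) :=
        mul_le_mul_of_nonneg_left h2 (hm0 a)
    _ = _ := by ring

/-- Typed sums do not depend on the order of the types. -/
theorem typ_perm {τ τ' : List Λ} (h : τ.Perm τ') (F : Multiset Ω → ℝ) :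
    ∑ ω ∈ Lt V τ, F (ω : Multiset Ω) = ∑ ω ∈ Lt V τ', F (ω : Multiset Ω) :=
  sum_Lt_perm V h (fun ω => F (ω : Multiset Ω)) fun t u htu => by
    rw [Multiset.coe_eq_coe.2 htu]

variable {ι : Type*} [DecidableEq ι] {c : Ω → ι}

/-- A system of weights `m`, row constants `K`, ratio `θ` and order `b0` for which the distinct
rows of `T` are bounded. -/
structure Sys (c : Ω → ι) (T : Multiset Ω → ℝ) (m K : Ω → ℝ) (s θ : ℝ) (b0 : ℕ) : Prop where
  m0 : ∀ a, 0 ≤ m a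
  K0 : ∀ a, 0 ≤ K a
  s0 : 0 ≤ s
  th : 0 ≤ θ
  coord : ∀ x, ∑ y, (if c y = c x then (1 : ℝ) else 0) * (m y * K y ^ 2) ≤ s ^ 2
  small : 8 * b0 * s ≤ θ
  row : ∀ e ≤ b0, ∀ a, nrm m e (fun S => if Dst c (a ::ₘ S) then T (a ::ₘ S) else 0)
      ≤ K a * (e.factorial * θ ^ e)

/-- **Typed norms, root `l`, total of the distinct rows at the root.** -/
theorem typ_bound {M T : Multiset Ω → ℝ} (h : IsCumC c M T) {K : Ω → ℝ} {s θ : ℝ} {b0 : ℕ}
    (hS : Sys c T m K s θ b0) (hm0 : ∀ a, 0 ≤ m0 a) (hq : ∀ l, 0 ≤ q l) {l : Λ} {τ : List Λ}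
    (hτ : ∀ l ∈ τ, ∀ a ∈ V l, m0 a ≤ q l * m a) (hlen : τ.length ≤ b0) {A : ℝ} (hA : 0 ≤ A)
    (hN : ∀ e ≤ b0, √(∑ a ∈ V l, m0 a *
      nrm m e (fun S => if Dst c (a ::ₘ S) then T (a ::ₘ S) else 0) ^ 2)
      ≤ A * (e.factorial * θ ^ e)) :
    ∑ ω ∈ Lt V (l :: τ), scal m0 T (ω : Multiset Ω) ^ 2 ≤
      pr q τ * (2 * A * (τ.length.factorial * θ ^ τ.length)) ^ 2 := by
  classical
  set g : Ω → ℝ := fun a => if a ∈ V l then m0 a else 0 with hg
  have hg0 : ∀ a, 0 ≤ g a := fun a => by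
    rw [hg]; beta_reduce; split_ifs; exacts [hm0 a, le_rfl]
  have hgs : ∀ f : Ω → ℝ, ∑ a, g a * f a = ∑ a ∈ V l, m0 a * f a := by
    intro f
    rw [← Finset.sum_filter_add_sum_filter_not univ (fun a => a ∈ V l)]
    have h1 : ∑ a with a ∉ V l, g a * f a = 0 := by
      refine Finset.sum_eq_zero fun a ha => ?_
      rw [hg]; beta_reduce
      rw [if_neg (Finset.mem_filter.1 ha).2, zero_mul]
    rw [h1, add_zero, Finset.filter_mem_eq_inter, Finset.univ_inter]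
    refine Finset.sum_congr rfl fun a ha => ?_
    rw [hg]; beta_reduce
    rw [if_pos ha]
  have h1 := rooted_closed h hS.m0 hS.s0 hS.th hS.K0 hg0 hA hS.coord b0 hS.small hS.row
    (fun e he => by rw [hgs]; exact hN e he) τ.length hlen
  refine (typ_root hS.m0 hm0 hq hτ T).trans ?_
  refine mul_le_mul_of_nonneg_left ?_ (pr_nonneg hq τ)
  rw [← hgs]
  have h2 : 0 ≤ ∑ a, g a * rw' m T τ.length a ^ 2 :=
    Finset.sum_nonneg fun a _ => mul_nonneg (hg0 a) (sq_nonneg _)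
  calc _ = rt' m g T τ.length ^ 2 := (Real.sq_sqrt h2).symm
    _ ≤ _ := pow_le_pow_left₀ (rt'_nonneg _ _ _ _) h1 2

/-- **Typed norms, root `l`, bounded by the rows only.** -/
theorem typ_bound_rows {M T : Multiset Ω → ℝ} (h : IsCumC c M T) {K : Ω → ℝ} {s θ : ℝ} {b0 : ℕ}
    (hS : Sys c T m K s θ b0) (hm0 : ∀ a, 0 ≤ m0 a) (hq : ∀ l, 0 ≤ q l) {l : Λ} {τ : List Λ}
    (hτ : ∀ l ∈ τ, ∀ a ∈ V l, m0 a ≤ q l * m a) (hlen : τ.length ≤ b0) {A : ℝ} (hA : 0 ≤ A)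
    (hK : ∑ a ∈ V l, m0 a * K a ^ 2 ≤ A ^ 2) :
    ∑ ω ∈ Lt V (l :: τ), scal m0 T (ω : Multiset Ω) ^ 2 ≤
      pr q τ * (2 * A * (τ.length.factorial * θ ^ τ.length)) ^ 2 := by
  refine typ_bound h hS hm0 hq hτ hlen hA fun e he => ?_
  have hth := hS.th
  have h1 : ∑ a ∈ V l, m0 a * nrm m e (fun S => if Dst c (a ::ₘ S) then T (a ::ₘ S) else 0) ^ 2 ≤
      (A * (e.factorial * θ ^ e)) ^ 2 := by
    calc _ ≤ ∑ a ∈ V l, (m0 a * K a ^ 2) * (e.factorial * θ ^ e) ^ 2 := by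
          refine Finset.sum_le_sum fun a _ => ?_
          rw [mul_assoc, ← mul_pow]
          exact mul_le_mul_of_nonneg_left
            (pow_le_pow_left₀ (nrm_nonneg _ _) (hS.row e he a) 2) (hm0 a)
      _ = (∑ a ∈ V l, m0 a * K a ^ 2) * (e.factorial * θ ^ e) ^ 2 := by rw [Finset.sum_mul]
      _ ≤ A ^ 2 * (e.factorial * θ ^ e) ^ 2 := mul_le_mul_of_nonneg_right hK (sq_nonneg _)
      _ = _ := by ring
  exact Real.sqrt_le_iff.2 ⟨by positivity, h1⟩

/-- The second cumulants: the operator norm between two types from the distinct part. -/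
theorem typ_op {M T : Multiset Ω → ℝ} (h : IsCumC c M T) (hm0 : ∀ a, 0 ≤ m0 a) {X Y : Finset Ω}
    {w sd : ℝ} (hsd0 : 0 ≤ sd)
    (hsd : ∀ x, ∑ y, (if c y = c x then (1 : ℝ) else 0) * (m0 y * T {y} ^ 2) ≤ sd)
    (hop : BV w X Y fun p q => if c p = c q then 0 else scal m0 T (p ::ₘ q ::ₘ 0)) :
    BV (w + sd) X Y fun p q => scal m0 T (p ::ₘ q ::ₘ 0) := by
  classical
  intro u v
  have hsame : ∀ p q, c p = c q → scal m0 T (p ::ₘ q ::ₘ 0) =
      -((√(m0 p) * T {p}) * (√(m0 q) * T {q})) := by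
    intro p q hpq
    have h1 := h.rep' hpq 0
    rw [sp_zero] at h1
    unfold scal
    rw [h1]
    simp only [Multiset.map_cons, Multiset.map_zero, Multiset.prod_cons, Multiset.prod_zero,
      mul_one]
    rw [show (p ::ₘ (0 : Multiset Ω)) = {p} from rfl, show (q ::ₘ (0 : Multiset Ω)) = {q} from rfl]
    ring
  have hsplit : ∑ p ∈ X, ∑ q ∈ Y, u p * scal m0 T (p ::ₘ q ::ₘ 0) * v q =
      (∑ p ∈ X, ∑ q ∈ Y, u p * (if c p = c q then 0 else scal m0 T (p ::ₘ q ::ₘ 0)) * v q) -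
      ∑ p ∈ X, ∑ q ∈ Y, (if c p = c q then (1 : ℝ) else 0) *
        ((u p * (√(m0 p) * T {p})) * (v q * (√(m0 q) * T {q}))) := by
    rw [← Finset.sum_sub_distrib]
    refine Finset.sum_congr rfl fun p _ => ?_
    rw [← Finset.sum_sub_distrib]
    refine Finset.sum_congr rfl fun q _ => ?_
    by_cases hpq : c p = c q
    · rw [if_pos hpq, if_pos hpq, hsame p q hpq]
      ring
    · rw [if_neg hpq, if_neg hpq]
      ring
  have hsec : |∑ p ∈ X, ∑ q ∈ Y, (if c p = c q then (1 : ℝ) else 0) *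
        ((u p * (√(m0 p) * T {p})) * (v q * (√(m0 q) * T {q})))| ≤
      sd * √(∑ p ∈ X, u p ^ 2) * √(∑ q ∈ Y, v q ^ 2) := by
    -- Cauchy-Schwarz over pairs
    have h1 : |∑ p ∈ X, ∑ q ∈ Y, (if c p = c q then (1 : ℝ) else 0) *
        ((u p * (√(m0 p) * T {p})) * (v q * (√(m0 q) * T {q})))| =
        |∑ z ∈ X ×ˢ Y, ((if c z.1 = c z.2 then (1 : ℝ) else 0) * (u z.1 * (√(m0 z.2) * T {z.2}))) *
          ((if c z.1 = c z.2 then (1 : ℝ) else 0) * (v z.2 * (√(m0 z.1) * T {z.1})))| := by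
      rw [Finset.sum_product]
      congr 1
      refine Finset.sum_congr rfl fun p _ => Finset.sum_congr rfl fun q _ => ?_
      by_cases hpq : c p = c q
      · simp only [if_pos hpq]; ring
      · simp only [if_neg hpq]; ring
    rw [h1]
    have h2 := Finset.sum_mul_sq_le_sq_mul_sq (X ×ˢ Y)
      (fun z => (if c z.1 = c z.2 then (1 : ℝ) else 0) * (u z.1 * (√(m0 z.2) * T {z.2})))
      (fun z => (if c z.1 = c z.2 then (1 : ℝ) else 0) * (v z.2 * (√(m0 z.1) * T {z.1})))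
    have h3 : ∑ z ∈ X ×ˢ Y, ((if c z.1 = c z.2 then (1 : ℝ) else 0) *
        (u z.1 * (√(m0 z.2) * T {z.2}))) ^ 2 ≤ sd * ∑ p ∈ X, u p ^ 2 := by
      rw [Finset.sum_product, Finset.mul_sum]
      refine Finset.sum_le_sum fun p _ => ?_
      have h4 : ∑ q ∈ Y, ((if c p = c q then (1 : ℝ) else 0) * (u p * (√(m0 q) * T {q}))) ^ 2 =
          (∑ q ∈ Y, (if c q = c p then (1 : ℝ) else 0) * (m0 q * T {q} ^ 2)) * u p ^ 2 := by
        rw [Finset.sum_mul]
        refine Finset.sum_congr rfl fun q _ => ?_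
        by_cases hpq : c p = c q
        · rw [if_pos hpq, if_pos hpq.symm]
          have := Real.sq_sqrt (hm0 q)
          calc _ = (√(m0 q)) ^ 2 * T {q} ^ 2 * u p ^ 2 := by ring
            _ = _ := by rw [this]; ring
        · rw [if_neg hpq, if_neg (Ne.symm hpq)]; ring
      rw [h4]
      refine mul_le_mul_of_nonneg_right (le_trans ?_ (hsd p)) (sq_nonneg _)
      exact Finset.sum_le_sum_of_subset_of_nonneg (Finset.subset_univ _) fun y _ _ =>
        mul_nonneg (by split_ifs <;> norm_num) (mul_nonneg (hm0 y) (sq_nonneg _))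
    have h5 : ∑ z ∈ X ×ˢ Y, ((if c z.1 = c z.2 then (1 : ℝ) else 0) *
        (v z.2 * (√(m0 z.1) * T {z.1}))) ^ 2 ≤ sd * ∑ q ∈ Y, v q ^ 2 := by
      rw [Finset.sum_product_right, Finset.mul_sum]
      refine Finset.sum_le_sum fun q _ => ?_
      have h4 : ∑ p ∈ X, ((if c p = c q then (1 : ℝ) else 0) * (v q * (√(m0 p) * T {p}))) ^ 2 =
          (∑ p ∈ X, (if c p = c q then (1 : ℝ) else 0) * (m0 p * T {p} ^ 2)) * v q ^ 2 := by
        rw [Finset.sum_mul]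
        refine Finset.sum_congr rfl fun p _ => ?_
        by_cases hpq : c p = c q
        · rw [if_pos hpq]
          have := Real.sq_sqrt (hm0 p)
          calc _ = (√(m0 p)) ^ 2 * T {p} ^ 2 * v q ^ 2 := by ring
            _ = _ := by rw [this]; ring
        · rw [if_neg hpq]; ring
      rw [h4]
      refine mul_le_mul_of_nonneg_right (le_trans ?_ (hsd q)) (sq_nonneg _)
      exact Finset.sum_le_sum_of_subset_of_nonneg (Finset.subset_univ _) fun y _ _ =>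
        mul_nonneg (by split_ifs <;> norm_num) (mul_nonneg (hm0 y) (sq_nonneg _))
    have hu0 : 0 ≤ ∑ p ∈ X, u p ^ 2 := Finset.sum_nonneg fun _ _ => sq_nonneg _
    have hv0 : 0 ≤ ∑ q ∈ Y, v q ^ 2 := Finset.sum_nonneg fun _ _ => sq_nonneg _
    refine abs_le_of_sq_le_sq ?_ (by positivity)
    refine h2.trans ((mul_le_mul h3 h5 (Finset.sum_nonneg fun _ _ => sq_nonneg _)
      (by positivity)).trans (le_of_eq ?_))
    rw [mul_pow, mul_pow, Real.sq_sqrt hu0, Real.sq_sqrt hv0]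
    ring
  rw [hsplit]
  have h6 := hop u v
  have h7 := abs_sub (∑ p ∈ X, ∑ q ∈ Y, u p * (if c p = c q then 0 else
    scal m0 T (p ::ₘ q ::ₘ 0)) * v q) (∑ p ∈ X, ∑ q ∈ Y, (if c p = c q then (1 : ℝ) else 0) *
        ((u p * (√(m0 p) * T {p})) * (v q * (√(m0 q) * T {q}))))
  calc _ ≤ _ := h7
    _ ≤ w * √(∑ p ∈ X, u p ^ 2) * √(∑ q ∈ Y, v q ^ 2) +
        sd * √(∑ p ∈ X, u p ^ 2) * √(∑ q ∈ Y, v q ^ 2) := add_le_add h6 hsec
    _ = _ := by ring

end Vale.Agent.P042.H365
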