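import Vale.Agent.P042.H232.Clos

/-!
# P042, seam [B] → [C], typed: closure of the recursions with one constant for each row

The letters have individual weights `m` and individual row constants `K`.
-/

namespace Vale.Agent.P042.H365

open Finset Vale.Agent.P042.H232

variable {Ω : Type*} [Fintype Ω] {m : Ω → ℝ} {ι : Type*} [DecidableEq ι] {c : Ω → ι}

/-- Rows: recursion. -/
theorem row_recT {M T : Multiset Ω → ℝ} (h : IsCumC c M T) (hm : ∀ a, 0 ≤ m a) {s : ℝ}
    (hs0 : 0 ≤ s) {K : Ω → ℝ} (hK : ∀ a, 0 ≤ K a)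
    (hs : ∀ x, ∑ y, (if c y = c x then (1 : ℝ) else 0) * (m y * K y ^ 2) ≤ s ^ 2)
    (e : ℕ) (r : ℕ → ℝ) (hr : ∀ n < e, ∀ a, rw' m T n a ≤ K a * r n) (hr0 : ∀ n, 0 ≤ r n)
    (a : Ω) :
    rw' m T e a ≤ nrm m e (fun S => if Dst c (a ::ₘ S) then T (a ::ₘ S) else 0)
      + e * s * cv (e - 1) (fun n => rw' m T n a) r
      + (if e < 2 then 0 else e * s * (2 * cv (e - 2) (fun n => rw' m T (n + 1) a) r)) := by
  rcases Nat.eq_zero_or_pos e with rfl | he
  · have : Dst c {a} := by simp [Dst]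
    simp [rw', nrm_zero, this]
  have hU := union_row c hm e a (fun S => T (a ::ₘ S) ^ 2) (fun S => sq_nonneg _)
  have hQ2 : 0 ≤ PP c m (e - 2) (fun S => T (a ::ₘ S) ^ 2) :=
    PP_nonneg c hm _ fun S => sq_nonneg _
  have hcv1 : 0 ≤ cv (e - 1) (fun n => rw' m T n a) r := cv_nonneg (fun n => nrm_nonneg _ _) hr0
  have hcv2 : 0 ≤ cv (e - 2) (fun n => rw' m T (n + 1) a) r :=
    cv_nonneg (fun n => nrm_nonneg _ _) hr0
  -- second term
  have h2 : (e : ℝ) * ∑ x, m x * (if c x = c a then (1 : ℝ) else 0)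
      * I m (e - 1) (fun S => T (a ::ₘ x ::ₘ S) ^ 2)
      ≤ (e * s * cv (e - 1) (fun n => rw' m T n a) r) ^ 2 := by
    have h3 : ∀ x, c x = c a → I m (e - 1) (fun S => T (a ::ₘ x ::ₘ S) ^ 2)
        ≤ (K x * cv (e - 1) (fun n => rw' m T n a) r) ^ 2 := by
      intro x hx
      rw [← nrm_sq hm (e - 1) (fun S => T (a ::ₘ x ::ₘ S))]
      apply pow_le_pow_left₀ (nrm_nonneg _ _)
      rw [nrm_congr (e - 1) (G := fun S => - sp S (fun u v => T (a ::ₘ u) * T (x ::ₘ v)))
        (fun S => h.rep' hx.symm S), nrm_neg]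
      refine (nrm_shuffle hm (e - 1) (fun u => T (a ::ₘ u)) (fun v => T (x ::ₘ v))).trans ?_
      have h31 := cv_le (e := e - 1) (u := fun n => rw' m T n a) (v := fun n => rw' m T n x)
        (u' := fun n => rw' m T n a) (v' := fun n => K x * r n)
        (fun n => nrm_nonneg _ _) (fun n => mul_nonneg (hK x) (hr0 n)) (fun n hn => le_rfl)
        (fun n hn => hr n (by omega) x)
      refine h31.trans (le_of_eq ?_)
      unfold cv
      rw [Finset.mul_sum]
      exact Finset.sum_congr rfl fun p _ => by ring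
    have h4 : ∑ x, m x * (if c x = c a then (1 : ℝ) else 0)
        * I m (e - 1) (fun S => T (a ::ₘ x ::ₘ S) ^ 2)
        ≤ ∑ x, ((if c x = c a then (1 : ℝ) else 0) * (m x * K x ^ 2))
          * cv (e - 1) (fun n => rw' m T n a) r ^ 2 := by
      refine Finset.sum_le_sum fun x _ => ?_
      by_cases hx : c x = c a
      · rw [if_pos hx, one_mul, mul_one]
        refine (mul_le_mul_of_nonneg_left (h3 x hx) (hm x)).trans (le_of_eq ?_)
        ring
      · rw [if_neg hx]; simp
    rw [← Finset.sum_mul] at h4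
    have h5 := h4.trans (mul_le_mul_of_nonneg_right (hs a) (sq_nonneg _))
    have he1 : (1 : ℝ) ≤ e := by exact_mod_cast he
    calc _ ≤ (e : ℝ) * (s ^ 2 * cv (e - 1) (fun n => rw' m T n a) r ^ 2) :=
          mul_le_mul_of_nonneg_left h5 (Nat.cast_nonneg _)
      _ ≤ (e : ℝ) * ((e : ℝ) * (s ^ 2 * cv (e - 1) (fun n => rw' m T n a) r ^ 2)) := by
          apply mul_le_mul_of_nonneg_left _ (Nat.cast_nonneg _)
          have : 0 ≤ s ^ 2 * cv (e - 1) (fun n => rw' m T n a) r ^ 2 := by positivity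
          nlinarith
      _ = _ := by ring
  -- third term
  have h6 : (e.choose 2 : ℝ) * PP c m (e - 2) (fun S => T (a ::ₘ S) ^ 2)
      ≤ (if e < 2 then 0 else e * s * (2 * cv (e - 2) (fun n => rw' m T (n + 1) a) r)) ^ 2 := by
    rcases Nat.lt_or_ge e 2 with he2 | he2
    · rw [Nat.choose_eq_zero_of_lt he2]
      simp only [Nat.cast_zero, zero_mul]
      exact sq_nonneg _
    rw [if_neg (by omega)]
    obtain ⟨k, rfl⟩ := Nat.exists_eq_add_of_le he2
    rw [show 2 + k - 2 = k from by omega] at *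
    -- row of pairs
    set τ : Ω → ℕ → ℝ := fun y n => nrm m n (fun S => T (y ::ₘ a ::ₘ S)) with hτ
    have hτ0 : ∀ y n, 0 ≤ τ y n := fun y n => nrm_nonneg _ _
    have hτs : ∀ n, Real.sqrt (∑ y, m y * τ y n ^ 2) = rw' m T (n + 1) a := by
      intro n
      unfold rw'
      rw [nrm_succ hm]
      congr 1
      refine Finset.sum_congr rfl fun y _ => ?_
      rw [hτ]
      simp only
      rw [nrm_congr n (G := fun S => T (a ::ₘ y ::ₘ S)) (fun S => by rw [Multiset.cons_swap])]
    have h7 : ∀ x y, c y = c x → I m k (fun S => T (a ::ₘ x ::ₘ y ::ₘ S) ^ 2)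
        ≤ (K x * cv k r (τ y) + K y * cv k (τ x) r) ^ 2 := by
      intro x y hxy
      rw [← nrm_sq hm k (fun S => T (a ::ₘ x ::ₘ y ::ₘ S))]
      apply pow_le_pow_left₀ (nrm_nonneg _ _)
      have h8 : ∀ S, T (a ::ₘ x ::ₘ y ::ₘ S)
          = -(sp S (fun u v => T (x ::ₘ u) * T (y ::ₘ a ::ₘ v))
            + sp S (fun u v => T (x ::ₘ a ::ₘ u) * T (y ::ₘ v))) := by
        intro S
        rw [Multiset.cons_swap a x, Multiset.cons_swap a y, h.rep' hxy.symm, sp_cons]
      rw [nrm_congr k h8, nrm_neg]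
      refine (nrm_add_le hm k _ _).trans ?_
      apply add_le_add
      · refine (nrm_shuffle hm k (fun u => T (x ::ₘ u)) (fun v => T (y ::ₘ a ::ₘ v))).trans ?_
        have h81 := cv_le (e := k) (u := fun n => rw' m T n x) (v := τ y)
          (u' := fun n => K x * r n) (v' := τ y)
          (fun n => nrm_nonneg _ _) (hτ0 y) (fun n hn => hr n (by omega) x) (fun n _ => le_rfl)
        refine h81.trans (le_of_eq ?_)
        unfold cv
        rw [Finset.mul_sum]
        exact Finset.sum_congr rfl fun p _ => by ring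
      · refine (nrm_shuffle hm k (fun u => T (x ::ₘ a ::ₘ u)) (fun v => T (y ::ₘ v))).trans ?_
        have h81 := cv_le (e := k) (u := τ x) (v := fun n => rw' m T n y)
          (u' := τ x) (v' := fun n => K y * r n)
          (hτ0 x) (fun n => mul_nonneg (hK y) (hr0 n)) (fun n _ => le_rfl)
          (fun n hn => hr n (by omega) y)
        refine h81.trans (le_of_eq ?_)
        unfold cv
        rw [Finset.mul_sum]
        exact Finset.sum_congr rfl fun p _ => by ring
    set w : Ω × Ω → ℝ := fun p => (if c p.2 = c p.1 then (1 : ℝ) else 0) * (m p.1 * m p.2)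
      with hw
    have hw0 : ∀ p, 0 ≤ w p := by
      intro p
      have h1 := hm p.1
      have h2 := hm p.2
      rw [hw]
      simp only
      split_ifs
      · positivity
      · simp
    have h9 : PP c m k (fun S => T (a ::ₘ S) ^ 2)
        ≤ ∑ p : Ω × Ω, w p * (K p.1 * cv k r (τ p.2) + K p.2 * cv k (τ p.1) r) ^ 2 := by
      unfold PP
      rw [Fintype.sum_prod_type]
      refine Finset.sum_le_sum fun x _ => Finset.sum_le_sum fun y _ => ?_
      rw [hw]
      simp only
      by_cases hxy : c y = c x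
      · rw [if_pos hxy, one_mul, one_mul]
        exact mul_le_mul_of_nonneg_left (h7 x y hxy) (mul_nonneg (hm x) (hm y))
      · rw [if_neg hxy]; simp
    -- the two one-sided sums
    have hone : ∀ u : Ω → ℝ, ∑ p : Ω × Ω, w p * (K p.2 * u p.1) ^ 2
        ≤ s ^ 2 * ∑ x, m x * u x ^ 2 := by
      intro u
      rw [Fintype.sum_prod_type, Finset.mul_sum]
      refine Finset.sum_le_sum fun x _ => ?_
      rw [hw]
      simp only
      have : ∑ y, (if c y = c x then (1 : ℝ) else 0) * (m x * m y) * (K y * u x) ^ 2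
          = (∑ y, (if c y = c x then (1 : ℝ) else 0) * (m y * K y ^ 2)) * (m x * u x ^ 2) := by
        rw [Finset.sum_mul]
        exact Finset.sum_congr rfl fun y _ => by ring
      rw [this]
      exact mul_le_mul_of_nonneg_right (hs x) (mul_nonneg (hm x) (sq_nonneg _))
    have htwo : ∀ u : Ω → ℝ, ∑ p : Ω × Ω, w p * (K p.1 * u p.2) ^ 2
        ≤ s ^ 2 * ∑ x, m x * u x ^ 2 := by
      intro u
      refine le_trans (le_of_eq ?_) (hone u)
      rw [Fintype.sum_prod_type, Fintype.sum_prod_type, Finset.sum_comm]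
      refine Finset.sum_congr rfl fun x _ => Finset.sum_congr rfl fun y _ => ?_
      rw [hw]
      simp only
      by_cases hxy : c x = c y
      · rw [if_pos hxy, if_pos hxy.symm]; ring
      · rw [if_neg hxy, if_neg (fun h => hxy h.symm)]; ring
    have hbnd : ∀ u : Ω → ℝ, (∀ x, u x = cv k (τ x) r) →
        Real.sqrt (s ^ 2 * ∑ x, m x * u x ^ 2)
          ≤ s * cv k (fun n => rw' m T (n + 1) a) r := by
      intro u hu
      rw [Real.sqrt_mul (sq_nonneg s), Real.sqrt_sq hs0]
      apply mul_le_mul_of_nonneg_left _ hs0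
      have h8 : ∀ x, u x
          = ∑ p ∈ antidiagonal k, ((k.choose p.1 : ℝ) * r p.2) * τ x p.1 := by
        intro x
        rw [hu]
        exact Finset.sum_congr rfl fun p _ => by ring
      simp only [h8]
      refine (mink_sum Finset.univ hm (antidiagonal k) (fun p => (k.choose p.1 : ℝ) * r p.2)
        (fun p => mul_nonneg (Nat.cast_nonneg _) (hr0 _)) (fun p x => τ x p.1)).trans ?_
      unfold cv
      refine Finset.sum_le_sum fun p hp => ?_
      rw [hτs]
      exact le_of_eq (by ring)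
    have h10 : Real.sqrt (∑ p : Ω × Ω, w p * (K p.1 * cv k r (τ p.2)
        + K p.2 * cv k (τ p.1) r) ^ 2) ≤ 2 * (s * cv k (fun n => rw' m T (n + 1) a) r) := by
      refine (mink Finset.univ hw0 (fun p => K p.1 * cv k r (τ p.2))
        (fun p => K p.2 * cv k (τ p.1) r)).trans ?_
      have e1 := (Real.sqrt_le_sqrt (htwo (fun y => cv k r (τ y)))).trans
        (hbnd (fun y => cv k r (τ y)) (fun y => cv_comm _ _ _))
      have e2 := (Real.sqrt_le_sqrt (hone (fun y => cv k (τ y) r))).trans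
        (hbnd (fun y => cv k (τ y) r) (fun y => rfl))
      linarith
    have h11 : PP c m k (fun S => T (a ::ₘ S) ^ 2)
        ≤ (2 * (s * cv k (fun n => rw' m T (n + 1) a) r)) ^ 2 := by
      refine h9.trans ?_
      have hn : 0 ≤ ∑ p : Ω × Ω, w p * (K p.1 * cv k r (τ p.2) + K p.2 * cv k (τ p.1) r) ^ 2 :=
        Finset.sum_nonneg fun p _ => mul_nonneg (hw0 p) (sq_nonneg _)
      calc _ = Real.sqrt _ ^ 2 := (Real.sq_sqrt hn).symm
        _ ≤ _ := pow_le_pow_left₀ (Real.sqrt_nonneg _) h10 2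
    have h12 : ((2 + k).choose 2 : ℝ) ≤ (((2 + k : ℕ) : ℝ)) ^ 2 := by
      have := Nat.choose_le_pow (2 + k) 2
      exact_mod_cast this
    calc _ ≤ (((2 + k : ℕ) : ℝ)) ^ 2 * (2 * (s * cv k (fun n => rw' m T (n + 1) a) r)) ^ 2 :=
          mul_le_mul h12 h11 hQ2 (sq_nonneg _)
      _ = _ := by ring
  -- assemble
  have hA0 : 0 ≤ I m e (fun S => if Dst c (a ::ₘ S) then T (a ::ₘ S) ^ 2 else 0) :=
    I_nonneg hm _ fun S => by split_ifs; exacts [sq_nonneg _, le_rfl]
  have hA : Real.sqrt (I m e (fun S => if Dst c (a ::ₘ S) then T (a ::ₘ S) ^ 2 else 0))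
      = nrm m e (fun S => if Dst c (a ::ₘ S) then T (a ::ₘ S) else 0) := by
    unfold nrm
    congr 1
    refine I_congr _ fun S => ?_
    by_cases hD : Dst c (a ::ₘ S) <;> simp [hD]
  set A := nrm m e (fun S => if Dst c (a ::ₘ S) then T (a ::ₘ S) else 0) with hAdef
  set B := (e : ℝ) * s * cv (e - 1) (fun n => rw' m T n a) r with hB
  set C := (if e < 2 then 0 else (e : ℝ) * s * (2 * cv (e - 2) (fun n => rw' m T (n + 1) a) r))
    with hC
  have hA' : 0 ≤ A := nrm_nonneg _ _
  have hB' : 0 ≤ B := by positivity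
  have hC' : 0 ≤ C := by
    rw [hC]; split_ifs
    · exact le_rfl
    · positivity
  have hAsq : I m e (fun S => if Dst c (a ::ₘ S) then T (a ::ₘ S) ^ 2 else 0) = A ^ 2 := by
    rw [← hA, Real.sq_sqrt hA0]
  unfold rw' nrm
  apply Real.sqrt_le_iff.2
  refine ⟨by positivity, ?_⟩
  beta_reduce at hU
  rw [hAsq] at hU
  nlinarith [mul_nonneg hA' hB', mul_nonneg hA' hC', mul_nonneg hB' hC']

/-- The numerical inequality of the closure. -/
theorem clos_num {e : ℕ} {s θ A : ℝ} {b0 : ℕ} (hs0 : 0 ≤ s) (hθ : 0 ≤ θ) (hA : 0 ≤ A)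
    (hsθ : 8 * b0 * s ≤ θ) (he : e + 1 ≤ b0) :
    A * (((e + 1).factorial : ℝ) * θ ^ (e + 1))
      + ((e + 1 : ℕ) : ℝ) * s * cv e (fun n => (2 * A) * ((n.factorial : ℝ) * θ ^ n))
          (fun n => 2 * ((n.factorial : ℝ) * θ ^ n))
      + (if e + 1 < 2 then (0 : ℝ) else ((e + 1 : ℕ) : ℝ) * s * (2 * cv (e + 1 - 2)
          (fun n => (2 * A) * (((n + 1).factorial : ℝ) * θ ^ (n + 1)))
          (fun n => 2 * ((n.factorial : ℝ) * θ ^ n))))
      ≤ (2 * A) * (((e + 1).factorial : ℝ) * θ ^ (e + 1)) := by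
  have h1 : cv e (fun n => (2 * A) * ((n.factorial : ℝ) * θ ^ n))
      (fun n => 2 * ((n.factorial : ℝ) * θ ^ n)) = A * (4 * ((e + 1).factorial * θ ^ e)) := by
    rw [cv_fact]; ring
  rw [h1]
  have hsb : 8 * ((e : ℝ) + 1) * s ≤ θ := by
    refine le_trans ?_ hsθ
    have : (e : ℝ) + 1 ≤ b0 := by exact_mod_cast he
    have := mul_le_mul_of_nonneg_right this hs0
    linarith
  have hf0 : (0 : ℝ) ≤ A * (((e + 1).factorial : ℝ) * θ ^ e) := by positivity
  have h2 : (if e + 1 < 2 then (0 : ℝ) else ((e + 1 : ℕ) : ℝ) * s * (2 * cv (e + 1 - 2)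
      (fun n => (2 * A) * (((n + 1).factorial : ℝ) * θ ^ (n + 1)))
      (fun n => 2 * ((n.factorial : ℝ) * θ ^ n))))
      ≤ ((e + 1 : ℕ) : ℝ) * s * (A * (4 * ((e + 1).factorial * θ ^ e))) := by
    split_ifs with he2
    · positivity
    · obtain ⟨k, rfl⟩ : ∃ k, e = k + 1 := ⟨e - 1, by omega⟩
      have e1 : (fun n => (2 * A) * (((n + 1).factorial : ℝ) * θ ^ (n + 1)))
          = fun n => (2 * A * θ) * (((n + 1).factorial : ℝ) * θ ^ n) := by
        funext n; rw [pow_succ]; ring
      rw [e1, show k + 1 + 1 - 2 = k from by omega, cv_fact_succ]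
      apply le_of_eq
      rw [pow_succ]; ring
  have h3 : ((e + 1 : ℕ) : ℝ) * s * (A * (4 * ((e + 1).factorial * θ ^ e)))
      + ((e + 1 : ℕ) : ℝ) * s * (A * (4 * ((e + 1).factorial * θ ^ e)))
      ≤ A * ((e + 1).factorial * θ ^ (e + 1)) := by
    push_cast
    calc _ = (8 * ((e : ℝ) + 1) * s) * (A * (((e + 1).factorial : ℝ) * θ ^ e)) := by ring
      _ ≤ θ * (A * (((e + 1).factorial : ℝ) * θ ^ e)) := mul_le_mul_of_nonneg_right hsb hf0
      _ = _ := by rw [pow_succ]; ring
  linarith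

/-- Closure for rows, with one constant for each row. -/
theorem rows_closedT {M T : Multiset Ω → ℝ} (h : IsCumC c M T) (hm : ∀ a, 0 ≤ m a) {s θ : ℝ}
    {K : Ω → ℝ} (hs0 : 0 ≤ s) (hθ : 0 ≤ θ) (hK : ∀ a, 0 ≤ K a)
    (hs : ∀ x, ∑ y, (if c y = c x then (1 : ℝ) else 0) * (m y * K y ^ 2) ≤ s ^ 2) (b0 : ℕ)
    (hsθ : 8 * b0 * s ≤ θ)
    (hd : ∀ e ≤ b0, ∀ a, nrm m e (fun S => if Dst c (a ::ₘ S) then T (a ::ₘ S) else 0)
      ≤ K a * (e.factorial * θ ^ e)) :
    ∀ e ≤ b0, ∀ a, rw' m T e a ≤ (2 * K a) * (e.factorial * θ ^ e) := by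
  intro e
  induction e using Nat.strong_induction_on with
  | _ e ih =>
    intro he a
    have hrec := row_recT h hm hs0 hK hs e (fun n => 2 * (n.factorial * θ ^ n))
      (fun n hn b => (ih n hn (by omega) b).trans (le_of_eq (by ring)))
      (fun n => by positivity) a
    have hda := hd e he a
    rcases e with _ | e
    · simp only [Nat.cast_zero, zero_mul, add_zero, ite_self] at hrec
      refine (hrec.trans hda).trans ?_
      have := hK a
      have : (0 : ℝ) ≤ K a * (((0 : ℕ).factorial : ℝ) * θ ^ 0) := by positivity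
      linarith
    refine hrec.trans (le_trans ?_ (clos_num hs0 hθ (hK a) hsθ he))
    refine add_le_add (add_le_add hda ?_) ?_
    · refine mul_le_mul_of_nonneg_left ?_ (by positivity)
      rw [Nat.add_sub_cancel]
      exact cv_le (fun n => nrm_nonneg _ _) (fun n => by positivity)
        (fun n hn => ih n (by omega) (by omega) a) (fun n _ => le_rfl)
    · by_cases he2 : e + 1 < 2
      · rw [if_pos he2, if_pos he2]
      · rw [if_neg he2, if_neg he2]
        refine mul_le_mul_of_nonneg_left ?_ (by positivity)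
        refine mul_le_mul_of_nonneg_left ?_ (by norm_num)
        exact cv_le (fun n => nrm_nonneg _ _) (fun n => by positivity)
          (fun n hn => ih (n + 1) (by omega) (by omega) a) (fun n _ => le_rfl)

/-- The total of the rows with weights `g` on the root. -/
noncomputable def rt' (m g : Ω → ℝ) (T : Multiset Ω → ℝ) (e : ℕ) : ℝ :=
  √(∑ a, g a * rw' m T e a ^ 2)

theorem rt'_nonneg (m g : Ω → ℝ) (T : Multiset Ω → ℝ) (e : ℕ) : 0 ≤ rt' m g T e :=
  Real.sqrt_nonneg _

/-- Closure for rooted totals. -/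
theorem rooted_closed {M T : Multiset Ω → ℝ} (h : IsCumC c M T) (hm : ∀ a, 0 ≤ m a) {s θ A : ℝ}
    {K g : Ω → ℝ} (hs0 : 0 ≤ s) (hθ : 0 ≤ θ) (hK : ∀ a, 0 ≤ K a) (hg : ∀ a, 0 ≤ g a)
    (hA : 0 ≤ A)
    (hs : ∀ x, ∑ y, (if c y = c x then (1 : ℝ) else 0) * (m y * K y ^ 2) ≤ s ^ 2) (b0 : ℕ)
    (hsθ : 8 * b0 * s ≤ θ)
    (hd : ∀ e ≤ b0, ∀ a, nrm m e (fun S => if Dst c (a ::ₘ S) then T (a ::ₘ S) else 0)
      ≤ K a * (e.factorial * θ ^ e))
    (hN : ∀ e ≤ b0, √(∑ a, g a * nrm m e (fun S => if Dst c (a ::ₘ S) then T (a ::ₘ S) else 0) ^ 2)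
      ≤ A * (e.factorial * θ ^ e)) :
    ∀ e ≤ b0, rt' m g T e ≤ (2 * A) * (e.factorial * θ ^ e) := by
  have hrow := rows_closedT h hm hs0 hθ hK hs b0 hsθ hd
  have hmk : ∀ (t : ℕ) (v : ℕ → Ω → ℝ) (r : ℕ → ℝ), (∀ n, 0 ≤ r n) →
      √(∑ a, g a * cv t (fun n => v n a) r ^ 2) ≤ cv t (fun n => √(∑ a, g a * v n a ^ 2)) r := by
    intro t v r hr
    have h8 : ∀ x, cv t (fun n => v n x) r
        = ∑ p ∈ antidiagonal t, ((t.choose p.1 : ℝ) * r p.2) * v p.1 x :=
      fun x => Finset.sum_congr rfl fun p _ => by ring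
    simp only [h8]
    refine (mink_sum Finset.univ hg (antidiagonal t) (fun p => (t.choose p.1 : ℝ) * r p.2)
      (fun p => mul_nonneg (Nat.cast_nonneg _) (hr _)) (fun p x => v p.1 x)).trans (le_of_eq ?_)
    exact Finset.sum_congr rfl fun p _ => by ring
  have hsc : ∀ (k : ℝ) (u : Ω → ℝ), 0 ≤ k → √(∑ a, g a * (k * u a) ^ 2)
      = k * √(∑ a, g a * u a ^ 2) := by
    intro k u hk
    have : ∑ a, g a * (k * u a) ^ 2 = k ^ 2 * ∑ a, g a * u a ^ 2 := by
      rw [Finset.mul_sum]
      exact Finset.sum_congr rfl fun a _ => by ring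
    rw [this, Real.sqrt_mul (sq_nonneg k), Real.sqrt_sq hk]
  intro e
  induction e using Nat.strong_induction_on with
  | _ e ih =>
    intro he
    have hrec := row_recT h hm hs0 hK hs e (fun n => 2 * (n.factorial * θ ^ n))
      (fun n hn b => (hrow n (by omega) b).trans (le_of_eq (by ring)))
      (fun n => by positivity)
    have hda := hN e he
    rcases e with _ | e
    · simp only [Nat.cast_zero, zero_mul, add_zero, ite_self] at hrec
      have h1 : rt' m g T 0 ≤ √(∑ a, g a *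
          nrm m 0 (fun S => if Dst c (a ::ₘ S) then T (a ::ₘ S) else 0) ^ 2) :=
        Real.sqrt_le_sqrt (Finset.sum_le_sum fun a _ => mul_le_mul_of_nonneg_left
          (pow_le_pow_left₀ (nrm_nonneg _ _) (hrec a) 2) (hg a))
      refine (h1.trans hda).trans ?_
      have : (0 : ℝ) ≤ A * (((0 : ℕ).factorial : ℝ) * θ ^ 0) := by positivity
      linarith
    refine le_trans ?_ (clos_num hs0 hθ hA hsθ he)
    -- Minkowski
    have hmain : rt' m g T (e + 1) ≤
        √(∑ a, g a * nrm m (e + 1) (fun S => if Dst c (a ::ₘ S) then T (a ::ₘ S) else 0) ^ 2)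
        + ((e + 1 : ℕ) : ℝ) * s * cv e (fun n => rt' m g T n)
          (fun n => 2 * ((n.factorial : ℝ) * θ ^ n))
        + (if e + 1 < 2 then (0 : ℝ) else ((e + 1 : ℕ) : ℝ) * s * (2 * cv (e + 1 - 2)
          (fun n => rt' m g T (n + 1)) (fun n => 2 * ((n.factorial : ℝ) * θ ^ n)))) := by
      have h0 : rt' m g T (e + 1) ≤ √(∑ a, g a *
          ((nrm m (e + 1) (fun S => if Dst c (a ::ₘ S) then T (a ::ₘ S) else 0)
          + ((e + 1 : ℕ) : ℝ) * s * cv e (fun n => rw' m T n a)
            (fun n => 2 * ((n.factorial : ℝ) * θ ^ n)))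
          + (if e + 1 < 2 then (0 : ℝ) else ((e + 1 : ℕ) : ℝ) * s * (2 * cv (e + 1 - 2)
            (fun n => rw' m T (n + 1) a) (fun n => 2 * ((n.factorial : ℝ) * θ ^ n))))) ^ 2) := by
        refine Real.sqrt_le_sqrt (Finset.sum_le_sum fun a _ => mul_le_mul_of_nonneg_left
          (pow_le_pow_left₀ (nrm_nonneg _ _) ?_ 2) (hg a))
        exact hrec a
      refine h0.trans ((mink Finset.univ hg _ _).trans (add_le_add ((mink Finset.univ hg
        _ _).trans (add_le_add le_rfl ?_)) ?_))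
      · rw [hsc _ _ (by positivity)]
        refine mul_le_mul_of_nonneg_left ?_ (by positivity)
        exact hmk e (fun n a => rw' m T n a) _ (fun n => by positivity)
      · by_cases he2 : e + 1 < 2
        · simp only [if_pos he2]
          simp
        · simp only [if_neg he2]
          rw [hsc _ _ (by positivity), hsc _ _ (by norm_num)]
          refine mul_le_mul_of_nonneg_left ?_ (by positivity)
          refine mul_le_mul_of_nonneg_left ?_ (by norm_num)
          exact hmk (e + 1 - 2) (fun n a => rw' m T (n + 1) a) _ (fun n => by positivity)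
    refine hmain.trans (add_le_add (add_le_add hda ?_) ?_)
    · refine mul_le_mul_of_nonneg_left ?_ (by positivity)
      exact cv_le (fun n => rt'_nonneg _ _ _ _) (fun n => by positivity)
        (fun n hn => ih n (by omega) (by omega)) (fun n _ => le_rfl)
    · by_cases he2 : e + 1 < 2
      · rw [if_pos he2, if_pos he2]
      · rw [if_neg he2, if_neg he2]
        refine mul_le_mul_of_nonneg_left ?_ (by positivity)
        refine mul_le_mul_of_nonneg_left ?_ (by norm_num)
        exact cv_le (fun n => rt'_nonneg _ _ _ _) (fun n => by positivity)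
          (fun n hn => ih (n + 1) (by omega) (by omega)) (fun n _ => le_rfl)

end Vale.Agent.P042.H365
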